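import Vale.Agent.P057Z.Defs

/-! Block KM: statements of the pieces. -/

set_option linter.all false

open Finset
open scoped BigOperators

namespace Vale.Agent.P057Z.Km

noncomputable section

/-- probability weights -/
def Pm {α : Type} [Fintype α] (b : α → ℝ) : Prop := (∀ x, 0 ≤ b x) ∧ ∑ x, b x = 1

/-- the cut norm of n - 1 is at most δ -/
def Cut {α β : Type} [Fintype α] [Fintype β] (b : α → ℝ) (b' : β → ℝ) (n : α → β → ℝ) (δ : ℝ) :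
    Prop :=
  ∀ (u : α → ℝ) (v : β → ℝ), (∀ x, |u x| ≤ 1) → (∀ y, |v y| ≤ 1) →
    |∑ x, ∑ y, b x * b' y * (u x * v y * (n x y - 1))| ≤ δ

/-- mean of s for the weight b h -/
def rat {β : Type} [Fintype β] (b h s : β → ℝ) : ℝ := (∑ y, b y * (h y * s y)) / ∑ y, b y * h y

/-- uniform weights -/
def unif {α : Type} [DecidableEq α] (B : Finset α) (x : α) : ℝ := if x ∈ B then 1 / #B else 0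

/-- values between 0 and M -/
def Bd {α : Type} (f : α → ℝ) (M : ℝ) : Prop := ∀ x, 0 ≤ f x ∧ f x ≤ M

/-- proportion of pairs with a1 + a2 + x in S -/
def psi {G : Type} [AddCommGroup G] [DecidableEq G] (A1 A2 S : Finset G) (x : G) : ℝ :=
  (#{p ∈ A1 ×ˢ A2 | p.1 + p.2 + x ∈ S} : ℝ) / (#A1 * #A2)

/-- the correlation of v with translates of f -/
def cor {G : Type} [AddCommGroup G] [Fintype G] (b v f : G → ℝ) (x : G) : ℝ :=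
  ∑ t, b t * (v t * f (x + t))

/-- a statement on finite abelian groups -/
def ForG (P : ∀ (G : Type) [AddCommGroup G] [Fintype G] [DecidableEq G], Prop) : Prop :=
  ∀ (G : Type) [AddCommGroup G] [Fintype G] [DecidableEq G], P G

def HOL : Prop := ∀ (α : Type) [Fintype α] (b u ω Ψ : α → ℝ) (K lam : ℝ) (P : ℕ), Pm b →
  (∀ x, 0 ≤ u x ∧ u x ≤ K * ω x) → (∀ x, 0 ≤ Ψ x) → 0 < K → 0 ≤ lam → 1 ≤ K * ∑ x, b x * u x →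
  lam * ∑ x, b x * u x ≤ ∑ x, b x * (u x * Ψ x) → lam ^ P ≤ K ^ 2 * ∑ x, b x * (ω x * Ψ x ^ P)

def TEN : Prop := ∀ (α β : Type) [Fintype α] [Fintype β] (b : α → ℝ) (b' : β → ℝ)
  (n : α → β → ℝ) (M δ : ℝ) (P : ℕ), Pm b → Pm b' → 1 ≤ M → (∀ x, Bd (n x) M) → Cut b b' n δ →
  Cut (fun τ : Fin P → α => ∏ i, b (τ i)) b' (fun τ y => ∏ i, n (τ i) y) (P * M ^ P * δ)

def DEN0 : Prop := ∀ (Ω α β : Type) [Fintype Ω] [Fintype α] [Fintype β] (π : Ω → ℝ) (b : α → ℝ)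
  (b' : β → ℝ) (ν : Ω → α → ℝ) (h : Ω → β → ℝ) (S : α → β → ℝ) (M γ δ : ℝ) (m : ℕ),
  Pm π → Pm b → Pm b' → Cut π b ν δ → 0 < γ → (∀ τ, Bd (h τ) M) → (∀ x, Bd (S x) 1) →
  ∑ τ, π τ * (if γ ≤ ∑ y, b' y * h τ y then
    |∑ x, b x * ((ν τ x - 1) * rat b' (h τ) (S x) ^ m)| else 0) ≤ (M / γ) ^ m * δ

def DEN1 : Prop := ∀ (α : Type) [Fintype α] (b ν f ψ : α → ℝ) (K η s : ℝ) (m : ℕ), Pm b → 0 < K →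
  (∀ x, 0 ≤ f x ∧ f x ≤ K * ν x) → Bd ψ 1 → 0 ≤ s → 2 * s ≤ 1 → 1 ≤ K * ∑ x, b x * f x →
  ∑ x, b x * (f x * (1 - ψ x)) ≤ s * ∑ x, b x * f x → |∑ x, b x * ((ν x - 1) * ψ x ^ m)| ≤ η →
  (1 - s) ^ m / K ^ 2 - η - (1 - 2 * s) ^ m ≤ ∑ x with 1 - 2 * s ≤ ψ x, b x

/-- Hoelder, sifting and densification -/
def K12 : Prop := ForG fun G _ _ _ => ∀ (b0 b0' b1 b2 u v g ω2 ω3 χ : G → ℝ) (K M e s th δ : ℝ)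
  (P m : ℕ), Pm b0 → Pm b0' → Pm b1 → Pm b2 → (∀ t a, b2 a ≠ 0 → b0 t ≤ 4 * b0' (t + a)) →
  1 ≤ K → 1 ≤ M → Bd ω2 M → Bd ω3 M → Bd χ M → (∀ x, 0 ≤ u x ∧ u x ≤ K * ω2 x) →
  (∀ x, 0 ≤ v x ∧ v x ≤ K * ω3 x) → Bd g K →
  Cut b1 b2 (fun a a' => ω2 (a + a')) δ → Cut b0' b1 (fun τ a => χ (a + τ)) δ →
  Cut b0' b2 (fun τ a => ω3 (τ - a)) δ →
  1 ≤ K * ∑ a, ∑ a', b1 a * b2 a' * u (a + a') → 1 ≤ K * ∑ t, b0 t * v t → 1 ≤ K * th →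
  th * (∑ t, b0 t * v t) * ∑ a, ∑ a', b1 a * b2 a' * u (a + a') ≤
    ∑ a, ∑ a', b1 a * b2 a' * (u (a + a') * cor b0 v (fun x => g x * χ x) (a + a')) →
  0 ≤ e → e ≤ 1 → 0 < s → 8 * s ≤ 1 → 1 ≤ P → 1 ≤ m → (1 - e) ^ P * (2 * K ^ 2) ≤ s →
  (1 - 2 * s) ^ m * (2 * ((4 * K) ^ (3 * P + 6)) ^ 2) ≤ 1 →
  δ * (2 * (4 * K * M) ^ (3 * P + 6)) ^ (2 * (m + 2) ^ 2) ≤ 1 →
  ∃ A1 A2 : Finset G, (∀ a ∈ A1, b1 a ≠ 0) ∧ (∀ a ∈ A2, b2 a ≠ 0) ∧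
    1 ≤ 2 ^ m * (4 * ((4 * K) ^ (3 * P + 6)) ^ 2) * ∑ a ∈ A1, b1 a ∧
    1 ≤ 2 ^ m * (4 * ((4 * K) ^ (3 * P + 6)) ^ 2) * ∑ a ∈ A2, b2 a ∧
    ∑ a ∈ A1, ∑ a' ∈ A2, b1 a * b2 a' * (if cor b0 v (fun x => g x * χ x) (a + a') <
      (1 - e) * (th * ∑ t, b0 t * v t) then 1 else 0) ≤
      8 * s * ((∑ a ∈ A1, b1 a) * ∑ a ∈ A2, b2 a)

/-- from exponential weights to a shell -/
def LAY : Prop := ∀ (α : Type) (A B : Finset α) (φ b : α → ℝ) (s : ℝ), A.Nonempty →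
  (∀ x, 0 ≤ φ x) → (∀ x, 0 ≤ b x) → 0 < s →
  ∑ x ∈ A, Real.exp (-φ x) * b x ≤ s * ∑ x ∈ A, Real.exp (-φ x) →
  ∃ (k : ℕ) (A' : Finset α), A' ⊆ A ∧ A'.Nonempty ∧ (∀ x ∈ A', φ x ≤ k + 1) ∧
    (#{x ∈ B | φ x ≤ k + 3} : ℝ) * ∑ x ∈ A, Real.exp (-φ x) ≤
      100 * (∑ x ∈ B, Real.exp (-φ x)) * #A' ∧ ∑ x ∈ A', b x ≤ 6 * s * #A'

/-- almost periods -/
def CS : Prop := ForG fun G _ _ _ => ∀ (A1 A2 S D W U1 U2 : Finset G) (ε : ℝ) (n : ℕ),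
  A1.Nonempty → A2.Nonempty → D.Nonempty → (∀ a ∈ A2, ∀ t ∈ D, a + t ∈ U2) →
  (∀ a ∈ A1, ∀ w ∈ W, ∀ t ∈ D, ∀ t' ∈ D, a + w + t - t' ∈ U1) → 0 < ε → ε ≤ 1 →
  4 * Real.exp (-(ε ^ 2 * n / 4)) * #U1 ≤ ε * #A1 →
  ∃ T ⊆ D, T.Nonempty ∧ (1 / 2) * ((#A2 : ℝ) / #U2) ^ n * #D ≤ #T ∧
    ∀ t ∈ T, ∀ t' ∈ T, ∀ w ∈ W, |psi A1 A2 S (w + t - t') - psi A1 A2 S w| ≤ 4 * ε

/-- almost periods form a Bohr set -/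
def APA : Prop := ForG fun G _ _ _ => ∀ (A1 A2 S D D' E E' U U2 : Finset G) (ε κ K : ℝ)
  (k n j : ℕ), A1.Nonempty → A2.Nonempty → D.Nonempty → E.Nonempty → (0 : G) ∈ E' →
  (∀ a ∈ A2, ∀ t ∈ D, a + t ∈ U2) →
  (∀ a ∈ A1, ∀ a' ∈ A2, ∀ x ∈ E', ∀ d d' : Fin k → G, (∀ i, d i ∈ D ∧ d' i ∈ D) →
    a + a' + x + ∑ i, (d i - d' i) ∈ U) →
  (#U : ℝ) ≤ K * #A1 → (#U2 : ℝ) ≤ K * #A2 →
  (∀ x ∈ D, ∀ e : Fin j → G, (∀ i, e i ∈ E) → x - ∑ i, e i ∈ D') → (#D' : ℝ) ≤ 2 * #D →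
  (∀ x ∈ E', (#{e ∈ E | e + x ∉ E} : ℝ) ≤ κ * #E) → 0 ≤ κ → 0 < ε → ε ≤ 1 →
  4 * Real.exp (-(ε ^ 2 * n / 4)) * K ≤ ε → 16 * Real.log (8 * K ^ n) < j →
  ∃ Λ : Finset (AddChar G ℂ), #Λ ≤ j ∧ ∀ x ∈ E', (∀ lam ∈ Λ, ‖lam x - 1‖ ≤ κ) →
    |psi A1 A2 S x - psi A1 A2 S 0| ≤ 8 * k * ε + √K * ((j + 4) * κ + 2 / 4 ^ k)

/-- the last averaging -/
def K4 : Prop := ForG fun G _ _ _ => ∀ (b0 v g χ k : G → ℝ) (B0 B6 A1 A2 S : Finset G)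
  (M D e ε th γ δ : ℝ), Pm b0 → (∀ t, b0 t ≤ D / #B0) → (∀ t ∉ B0, b0 t = 0) → B6.Nonempty →
  A1.Nonempty → A2.Nonempty → Bd v M → Bd g M → Bd χ M → Bd k 1 → 1 ≤ M * ∑ t, b0 t * v t →
  1 ≤ M * th → 0 ≤ e → 12 * e ≤ ε → ε ≤ 1 → 0 < γ → δ * M ^ 2 ≤ ε * γ / 4 →
  (∀ x ∈ S, (1 - e) * (th * ∑ t, b0 t * v t) ≤ cor b0 v (fun x => g x * χ x) x) →
  γ ≤ 𝔼 t1 ∈ B6, 𝔼 t2 ∈ B6, k (t1 - t2) →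
  (∀ t1 ∈ B6, ∀ t2 ∈ B6, 1 - e ≤ psi A1 A2 S (t1 - t2) ∨ k (t1 - t2) ≤ e * γ) →
  (∀ c, Cut b0 (unif B6) (fun t t1 => χ (c + t + t1)) δ) →
  ∃ a1 ∈ A1, ∃ a2 ∈ A2, ε * γ * (#B0 * #B6) ≤ 4 * D * M ^ 5 *
    #{p ∈ B0 ×ˢ B6 | ε * γ / (4 * M) ≤ 𝔼 t1 ∈ B6, k (t1 - p.2) *
      (χ (a1 + a2 + p.1 + t1 - p.2) * (g (a1 + a2 + p.1 + t1 - p.2) - (1 - ε) * th))}

open Classical in
/-- Bohr set inside a symmetric box -/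
def BB {Q n : ℕ} [Fact Q.Prime] {ι : Type} [Fintype ι] (L : V Q n →ₗ[ZMod Q] (ι → ZMod Q)) (T : ℕ)
    (s : ℝ) : Finset (V Q n) :=
  {x | Near x T ∧ l1 (L x) ≤ s}

/-- a statement on linear maps -/
def ForL (P : ∀ (Q n : ℕ) [Fact Q.Prime] (ι : Type) [Fintype ι] [DecidableEq ι],
    (V Q n →ₗ[ZMod Q] (ι → ZMod Q)) → Prop) : Prop :=
  ∀ (Q n : ℕ) [Fact Q.Prime] (ι : Type) [Fintype ι] [DecidableEq ι]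
    (L : V Q n →ₗ[ZMod Q] (ι → ZMod Q)), P Q n ι L

def BBL : Prop := ForL fun Q n _ ι _ _ L => ∀ (T m : ℕ) (s : ℝ), 1 ≤ m → T < Q →
  (Fintype.card ι : ℝ) ≤ s * m → (T + 1) ^ n ≤ m ^ Fintype.card ι * #(BB L T s)

def MASS : Prop := ForL fun Q n _ ι _ _ L => ∀ (r : ℕ) (ξ : Fin r → V Q n) (B : Finset (V Q n))
  (m m' : ℕ) (ρ ρ' : ℝ), B.Nonempty → 1 ≤ m → 1 ≤ m' → 0 < ρ → 0 < ρ' → (r : ℝ) ≤ ρ * m →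
  (Fintype.card ι : ℝ) ≤ ρ' * m' → Real.exp (-2) ≤ (m : ℝ) ^ r * (m' : ℝ) ^ Fintype.card ι *
    𝔼 t1 ∈ B, 𝔼 t2 ∈ B, lap ρ (fun i => ξ i ⬝ᵥ (t1 - t2)) * lap ρ' (L (t1 - t2))

def CHAR : Prop := ∀ (Q n : ℕ) [Fact Q.Prime] (lam : AddChar (V Q n) ℂ), ∃ ξ : V Q n,
  ∀ x, ‖lam x - 1‖ ≤ 7 * nm (ξ ⬝ᵥ x)

/-- almost periodicity on Bohr sets in boxes -/
def APB : Prop := ∀ ε : ℝ, 0 < ε → ∃ X0 : ℝ, ∀ X Z : ℝ, X0 ≤ X → 1 ≤ Z → Z ^ 3 ≤ Real.exp X →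
  ForL fun Q n _ ι _ _ L => ∀ (ρ : ℝ) (Ta T6 : ℕ) (A1 A2 S U U2 : Finset (V Q n)),
    (Fintype.card ι : ℝ) ≤ Z → (n : ℝ) ≤ Z → Real.exp (-Z) ≤ ρ → 1 ≤ T6 →
    T6 * Real.exp (10 * X) ≤ Ta → Ta < Q → A1.Nonempty → A2.Nonempty →
    (#U : ℝ) ≤ Real.exp X * #A1 → (#U2 : ℝ) ≤ Real.exp X * #A2 →
    (∀ a ∈ A2, ∀ x ∈ BB L Ta ρ, a + x ∈ U2) →
    (∀ a ∈ A1, ∀ a' ∈ A2, ∀ x ∈ BB L Ta ρ, a + a' + x ∈ U) →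
    ∃ (r : ℕ) (ξ : Fin r → V Q n), (r : ℝ) ≤ X ^ 6 ∧ ∀ x, Near x T6 →
      l1 (L x) ≤ ρ * Real.exp (-(10 * X)) → (∀ i, nm (ξ i ⬝ᵥ x) ≤ Real.exp (-(3 * X))) →
      |psi A1 A2 S x - psi A1 A2 S 0| ≤ ε

end

end Vale.Agent.P057Z.Km
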