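import Vale.Agent.P057Z.Km.Sk
import Vale.Agent.P015.R2.H74.Bogolyubov

/-! Block KM: the almost periods contain a Bohr set. -/

set_option linter.all false

open Finset
open scoped BigOperators
open Vale.Agent.P015.R2.H74 (avg_iter_fourier parseval_card)

namespace Vale.Agent.P057Z.Km

noncomputable section

namespace Apa

variable {G : Type} [AddCommGroup G] [Fintype G] [DecidableEq G]

/-- all points at i differences from x satisfy P -/
def Rch (D : Finset G) (P : G → Prop) : ℕ → G → Prop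
  | 0, x => P x
  | i + 1, x => ∀ t ∈ D, ∀ t' ∈ D, Rch D P i (x + (t - t'))

theorem rch_of {D : Finset G} {P : G → Prop} (k : ℕ) (x : G)
    (h : ∀ d d' : Fin k → G, (∀ i, d i ∈ D ∧ d' i ∈ D) → P (x + ∑ i, (d i - d' i))) :
    Rch D P k x := by
  induction k generalizing x with
  | zero => simpa [Rch] using h Fin.elim0 Fin.elim0 fun i => i.elim0
  | succ k ih =>
    refine fun t ht t' ht' => ih _ fun d d' hd => ?_
    have h1 := h (Fin.cons t d) (Fin.cons t' d') (Fin.cases ⟨ht, ht'⟩ hd)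
    rwa [Fin.sum_univ_succ, ← add_assoc] at h1

theorem rch_one {D : Finset G} (hD : D.Nonempty) {P : G → Prop} (k : ℕ) (x : G)
    (h : Rch D P (k + 1) x) : Rch D P 1 x := by
  obtain ⟨t, ht⟩ := hD
  induction k with
  | zero => exact h
  | succ k ih => exact ih (by simpa using h t ht t ht)

theorem near {D T : Finset G} (hT : T ⊆ D) (hD : D.Nonempty) {P : G → Prop} {f f' : G → ℝ} {δ : ℝ}
    (h0 : ∀ x, P x → f' x = f x)
    (h1 : ∀ t ∈ T, ∀ t' ∈ T, ∀ x, Rch D P 1 x → |f (x + (t - t')) - f x| ≤ δ) (k : ℕ) (x : G)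
    (hx : Rch D P k x) : |((P015.R2.H74.avg T)^[k] f') x - ((#T : ℝ) ^ 2) ^ k * f x| ≤
      k * δ * ((#T : ℝ) ^ 2) ^ k := by
  induction k generalizing x with
  | zero => simp [h0 x hx]
  | succ k ih =>
    rw [Function.iterate_succ_apply']
    generalize (P015.R2.H74.avg T)^[k] f' = g at ih
    have h2 : P015.R2.H74.avg T g x - ((#T : ℝ) ^ 2) ^ (k + 1) * f x =
        ∑ t ∈ T, ∑ t' ∈ T, (g (x + (t - t')) - ((#T : ℝ) ^ 2) ^ k * f x) := by
      simp only [P015.R2.H74.avg, sum_sub_distrib, sum_const, nsmul_eq_mul]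
      ring
    rw [h2]
    refine (abs_sum_le_sum_abs _ _).trans ((sum_le_sum fun t ht => (abs_sum_le_sum_abs _ _).trans
      (sum_le_sum (g := fun _ => (k + 1) * δ * ((#T : ℝ) ^ 2) ^ k) fun t' ht' => ?_)).trans_eq ?_)
    · have a1 := abs_le.1 (ih _ (hx t (hT ht) t' (hT ht')))
      have a2 := abs_le.1 (h1 t ht t' ht' x (rch_one hD k x hx))
      have a3 : (0 : ℝ) ≤ ((#T : ℝ) ^ 2) ^ k := by positivity
      have a4 := mul_le_mul_of_nonneg_left a2.1 a3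
      have a5 := mul_le_mul_of_nonneg_left a2.2 a3
      exact abs_le.2 ⟨by linarith [a1.1], by linarith [a1.2]⟩
    · simp only [sum_const, nsmul_eq_mul]
      push_cast
      ring

theorem nsum (T : Finset G) (γ : AddChar G ℂ) : ‖∑ t ∈ T, γ t‖ ≤ #T :=
  (norm_sum_le _ _).trans (by simp [AddChar.norm_apply])

theorem compare (T : Finset G) (f : G → ℝ) (c : AddChar G ℂ → ℂ)
    (h : ∀ u, ((f u : ℝ) : ℂ) = ∑ γ : AddChar G ℂ, c γ * γ u) (k : ℕ) (x : G) {η : ℝ} (hη : 0 ≤ η)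
    (hl : ∀ γ : AddChar G ℂ, (#T : ℝ) / 2 ≤ ‖∑ t ∈ T, γ t‖ → ‖γ x - 1‖ ≤ η) :
    |((P015.R2.H74.avg T)^[k] f) x - ((P015.R2.H74.avg T)^[k] f) 0| ≤
      (∑ γ, ‖c γ‖) * ((η + 2 / 4 ^ k) * ((#T : ℝ) ^ 2) ^ k) := by
  rw [← Real.norm_eq_abs, ← Complex.norm_real, Complex.ofReal_sub, avg_iter_fourier T f c h,
    avg_iter_fourier T f c h, ← sum_sub_distrib, sum_mul]
  refine (norm_sum_le _ _).trans (sum_le_sum fun γ _ => ?_)
  rw [AddChar.map_zero_eq_one, ← mul_sub, norm_mul, norm_mul, mul_assoc, Complex.norm_real,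
    Real.norm_of_nonneg (by positivity)]
  refine mul_le_mul_of_nonneg_left ?_ (norm_nonneg _)
  have hT := nsum T γ
  by_cases k1 : (#T : ℝ) / 2 ≤ ‖∑ t ∈ T, γ t‖
  · have k2 := hl γ k1
    calc _ ≤ ((#T : ℝ) ^ 2) ^ k * η := by gcongr
      _ ≤ _ := by
        have : 0 ≤ (2 / 4 ^ k : ℝ) * ((#T : ℝ) ^ 2) ^ k := by positivity
        linarith
  · have k2 : ‖γ x - 1‖ ≤ 2 := (norm_sub_le _ _).trans (by rw [AddChar.norm_apply]; norm_num)
    have k3 := (not_le.1 k1).le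
    calc _ ≤ (((#T : ℝ) / 2) ^ 2) ^ k * 2 := by gcongr
      _ = 2 / 4 ^ k * ((#T : ℝ) ^ 2) ^ k := by
        rw [div_pow, div_pow]
        norm_num
        ring
      _ ≤ _ := by
        have : 0 ≤ η * ((#T : ℝ) ^ 2) ^ k := by positivity
        linarith

/-- Fourier coefficients -/
def cf (A1 A2 S : Finset G) (γ : AddChar G ℂ) : ℂ :=
  (Fintype.card G * (#A1 * #A2) : ℂ)⁻¹ * ((∑ a ∈ A1, γ a) * (∑ a ∈ A2, γ a) * ∑ s ∈ S, γ (-s))

theorem psi_fourier (A1 A2 S : Finset G) (u : G) :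
    ((psi A1 A2 S u : ℝ) : ℂ) = ∑ γ : AddChar G ℂ, cf A1 A2 S γ * γ u := by
  have hn : (Fintype.card G : ℂ) ≠ 0 := by exact_mod_cast Fintype.card_ne_zero
  have h1 : ∀ γ : AddChar G ℂ, (∑ a ∈ A1, γ a) * (∑ a ∈ A2, γ a) * (∑ s ∈ S, γ (-s)) * γ u =
      ∑ p ∈ A1 ×ˢ A2, ∑ s ∈ S, γ (p.1 + p.2 + u - s) := fun γ => by
    rw [sum_mul_sum, ← sum_product', sum_mul_sum, sum_mul]
    refine sum_congr rfl fun p _ => ?_
    rw [sum_mul]
    refine sum_congr rfl fun s _ => ?_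
    rw [← AddChar.map_add_eq_mul, ← AddChar.map_add_eq_mul, ← AddChar.map_add_eq_mul]
    congr 1
    abel
  have h2 : ∀ p ∈ A1 ×ˢ A2, ∑ γ : AddChar G ℂ, ∑ s ∈ S, γ (p.1 + p.2 + u - s) =
      Fintype.card G * if p.1 + p.2 + u ∈ S then 1 else 0 := fun p _ => by
    rw [sum_comm]
    simp only [AddChar.sum_apply_eq_ite, sub_eq_zero, sum_ite_eq, mul_ite, mul_one, mul_zero]
  simp only [cf, mul_assoc (_ : ℂ)⁻¹, h1]
  rw [← mul_sum, sum_comm, sum_congr rfl h2, ← mul_sum, psi, card_filter]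
  push_cast
  rw [mul_inv, mul_comm (Fintype.card G : ℂ)⁻¹, mul_assoc, inv_mul_cancel_left₀ hn, div_eq_inv_mul]
  exact congrArg _ (sum_congr rfl fun i _ => by split_ifs <;> simp)

theorem cf_le {A1 A2 S : Finset G} (h1 : A1.Nonempty) (h2 : A2.Nonempty) {K : ℝ}
    (hS : (#S : ℝ) ≤ K * #A1) : ∑ γ, ‖cf A1 A2 S γ‖ ≤ √K := by
  have hn : (0 : ℝ) < Fintype.card G := by exact_mod_cast Fintype.card_pos
  have a1 : (0 : ℝ) < #A1 := by exact_mod_cast h1.card_pos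
  have a2 : (0 : ℝ) < #A2 := by exact_mod_cast h2.card_pos
  have h3 : ∀ γ : AddChar G ℂ, ‖cf A1 A2 S γ‖ ≤
      (Fintype.card G * #A1 : ℝ)⁻¹ * (‖∑ a ∈ A1, γ a‖ * ‖∑ s ∈ S, γ s‖) := fun γ => by
    have k1 : ‖∑ s ∈ S, γ (-s)‖ = ‖∑ s ∈ S, γ s‖ := by
      simp only [AddChar.map_neg_eq_conj, ← map_sum, Complex.norm_conj]
    have k2 := nsum A2 γ
    simp only [cf, norm_mul, norm_inv, Complex.norm_natCast, k1]
    calc _ ≤ (Fintype.card G * (#A1 * #A2) : ℝ)⁻¹ * (‖∑ a ∈ A1, γ a‖ * #A2 * ‖∑ s ∈ S, γ s‖) := by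
          gcongr
      _ = _ := by field_simp
  refine (sum_le_sum fun γ _ => h3 γ).trans (Real.le_sqrt_of_sq_le ?_)
  have h4 := sum_mul_sq_le_sq_mul_sq univ (fun γ : AddChar G ℂ => ‖∑ a ∈ A1, γ a‖)
    fun γ => ‖∑ s ∈ S, γ s‖
  rw [parseval_card, parseval_card] at h4
  rw [← mul_sum, mul_pow, inv_pow, inv_mul_le_iff₀ (by positivity)]
  calc _ ≤ Fintype.card G * (#A1 : ℝ) * (Fintype.card G * (K * #A1)) := h4.trans (by gcongr)
    _ = _ := by ring

theorem char_le {E : Finset G} (hE : E.Nonempty) {χ : AddChar G ℂ}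
    (h : (#E : ℝ) / 2 ≤ ‖∑ e ∈ E, χ e‖) {x : G} {κ : ℝ}
    (hx : (#{e ∈ E | e + x ∉ E} : ℝ) ≤ κ * #E) : ‖χ x - 1‖ ≤ 4 * κ := by
  have a1 : (0 : ℝ) < #E := by exact_mod_cast hE.card_pos
  have h1 : #(E.map (addRightEmbedding x) \ E) = #{e ∈ E | e + x ∉ E} := by
    rw [← filter_notMem_eq_sdiff, filter_map, card_map]
    rfl
  have h2 : (∑ e ∈ E, χ e) * (χ x - 1) =
      ∑ e ∈ E.map (addRightEmbedding x) \ E, χ e - ∑ e ∈ E \ E.map (addRightEmbedding x), χ e := by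
    rw [sum_sdiff_sub_sum_sdiff, sum_map, mul_sub, mul_one, sum_mul]
    simp only [addRightEmbedding_apply, AddChar.map_add_eq_mul]
  have h3 := (congrArg norm h2).le.trans ((norm_sub_le _ _).trans (add_le_add (nsum _ χ) (nsum _ χ)))
  rw [card_sdiff_comm (card_map _).symm, h1, norm_mul] at h3
  have h4 := mul_le_mul_of_nonneg_right h (norm_nonneg (χ x - 1))
  exact le_of_mul_le_mul_left (by linarith) a1

end Apa

open Apa in
theorem apa_of (hCS : CS) : APA := by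
  classical
  intro G _ _ _ A1 A2 S D D' E E' U U2 ε κ K k n j h1 h2 hD hE h0 hU2 hU cU cU2 hD' cD' hκ κ0 ε0 ε1
    hn hj
  obtain ⟨a₀, ha₀⟩ := id h2
  have a1 : (0 : ℝ) < #A1 := by exact_mod_cast h1.card_pos
  have a2 : (0 : ℝ) < #A2 := by exact_mod_cast h2.card_pos
  have a3 : (0 : ℝ) < #U2 := by
    exact_mod_cast card_pos.2 ⟨_, hU2 a₀ ha₀ _ hD.choose_spec⟩
  have hK : 0 < K := (mul_pos_iff_of_pos_right a2).1 (a3.trans_le cU2)
  let P : G → Prop := fun x => ∀ a ∈ A1, ∀ a' ∈ A2, a + a' + x ∈ U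
  obtain ⟨T, hT, hTn, cT, hper⟩ := hCS G A1 A2 S D {w | Rch D P 1 w} (U.image (· - a₀)) U2 ε n h1 h2
    hD hU2 (fun a ha w hw t ht t' ht' => mem_image.2
      ⟨_, (mem_filter.1 hw).2 t ht t' ht' a ha a₀ ha₀, by abel⟩) ε0 ε1 (by
      have k1 : (#(U.image (· - a₀)) : ℝ) ≤ K * #A1 := le_trans (by exact_mod_cast card_image_le) cU
      calc _ ≤ 4 * Real.exp (-(ε ^ 2 * n / 4)) * (K * #A1) := by gcongr
        _ = 4 * Real.exp (-(ε ^ 2 * n / 4)) * K * #A1 := by ring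
        _ ≤ _ := by gcongr)
  obtain ⟨Λ, hΛ, hΛ'⟩ := P057.local_chang T D D' E j hT hTn hE hD' cD' (1 / 2 * (1 / K) ^ n)
    (by positivity) (le_trans (by
      have k1 : 1 / K ≤ (#A2 : ℝ) / #U2 := by
        rw [div_le_div_iff₀ hK a3]
        linarith
      gcongr) cT) (by
      rwa [show 4 / (1 / 2 * (1 / K) ^ n) = 8 * K ^ n by
        rw [one_div_pow]
        field_simp
        norm_num])
  refine ⟨Λ, hΛ, fun x hx hxΛ => ?_⟩
  have hnear := fun y (hy : y ∈ E') => near hT hD (P := P) (f := psi A1 A2 S)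
    (f' := psi A1 A2 (S ∩ U)) (δ := 4 * ε) (fun z hz => by
      unfold psi
      rw [filter_congr fun p hp => mem_inter.trans (and_iff_left
        (hz _ (mem_product.1 hp).1 _ (mem_product.1 hp).2))])
    (fun t ht t' ht' z hz => by
      rw [← add_sub_assoc]
      exact hper t ht t' ht' z (mem_filter.2 ⟨mem_univ _, hz⟩)) k y
    (rch_of k y fun d d' hd a ha a' ha' => add_assoc (a + a') y _ ▸ hU a ha a' ha' y hy d d' hd)
  have hc := (compare T _ _ (psi_fourier A1 A2 (S ∩ U)) k x (η := (j + 4) * κ) (by positivity)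
    fun γ hγ => by
      obtain ⟨χ, k1, k2⟩ := hΛ' γ hγ
      have k3 := char_le hE k1 (hκ x hx)
      have k4 := sum_le_card_nsmul Λ _ κ hxΛ
      have k5 : (#Λ : ℝ) * κ ≤ j * κ := by gcongr
      rw [nsmul_eq_mul] at k4
      linarith [k2 x]).trans (mul_le_mul_of_nonneg_right (cf_le h1 h2 (K := K)
        (le_trans (by exact_mod_cast card_le_card inter_subset_right) cU)) (by positivity))
  have a4 : (0 : ℝ) < ((#T : ℝ) ^ 2) ^ k := by
    have : (0 : ℝ) < #T := by exact_mod_cast hTn.card_pos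
    positivity
  have b1 := abs_le.1 (hnear x hx)
  have b2 := abs_le.1 (hnear 0 h0)
  have b3 := abs_le.1 hc
  exact abs_le.2 ⟨le_of_mul_le_mul_left (by linarith [b1.2, b2.1, b3.1]) a4,
    le_of_mul_le_mul_left (by linarith [b1.1, b2.2, b3.2]) a4⟩

end

end Vale.Agent.P057Z.Km
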