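import Vale.Agent.P057Z.Km.Sk

/-! Block KM: almost periodicity on Bohr sets in boxes. -/

set_option linter.all false

open Finset
open scoped BigOperators

namespace Vale.Agent.P057Z.Km

namespace Apb

variable {Q n : ℕ} [Fact Q.Prime] {ι : Type} [Fintype ι] [DecidableEq ι]
  {L : V Q n →ₗ[ZMod Q] (ι → ZMod Q)} {T T' : ℕ} {s s' : ℝ} {x y : V Q n}

theorem nm_add (u v : ZMod Q) : nm (u + v) ≤ nm u + nm v := by
  have h : |(u + v).valMinAbs| ≤ |u.valMinAbs| + |v.valMinAbs| := by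
    have := ZMod.natAbs_valMinAbs_add_le u v
    have := abs_add_le u.valMinAbs v.valMinAbs
    simp only [Int.abs_eq_natAbs] at *
    omega
  rw [nm, nm, nm, ← add_div]
  exact div_le_div_of_nonneg_right (by exact_mod_cast h) (Nat.cast_nonneg _)

theorem nm_neg (u : ZMod Q) : nm (-u) = nm u := by
  have h : |(-u).valMinAbs| = |u.valMinAbs| := by
    simp only [Int.abs_eq_natAbs, ZMod.natAbs_valMinAbs_neg]
  rw [nm, nm]
  exact congrArg (· / (Q : ℝ)) (by exact_mod_cast h)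

theorem mem_BB : x ∈ BB L T s ↔ Near x T ∧ l1 (L x) ≤ s := by simp [BB]

theorem BB_mono (hT : T ≤ T') (hs : s ≤ s') : BB L T s ⊆ BB L T' s' := fun x hx => by
  obtain ⟨⟨v, hv, e⟩, h⟩ := mem_BB.1 hx
  exact mem_BB.2 ⟨⟨v, fun i => (hv i).trans (by exact_mod_cast hT), e⟩, h.trans hs⟩

theorem add_mem (hx : x ∈ BB L T s) (hy : y ∈ BB L T' s') : x + y ∈ BB L (T + T') (s + s') := by
  obtain ⟨⟨v, hv, rfl⟩, h⟩ := mem_BB.1 hx
  obtain ⟨⟨v', hv', rfl⟩, h'⟩ := mem_BB.1 hy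
  refine mem_BB.2 ⟨⟨v + v', fun i => ?_, funext fun i => by simp [cs]⟩, ?_⟩
  · push_cast
    exact (abs_add_le _ _).trans (add_le_add (hv i) (hv' i))
  · refine le_trans ?_ (add_le_add h h')
    rw [map_add, l1, l1, l1, ← sum_add_distrib]
    exact sum_le_sum fun i _ => nm_add _ _

theorem neg_mem (hx : x ∈ BB L T s) : -x ∈ BB L T s := by
  obtain ⟨⟨v, hv, rfl⟩, h⟩ := mem_BB.1 hx
  refine mem_BB.2 ⟨⟨-v, fun i => by simpa using hv i, funext fun i => by simp [cs]⟩, ?_⟩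
  simpa only [map_neg, l1, Pi.neg_apply, nm_neg] using h

theorem zero_mem (hs : 0 ≤ s) : (0 : V Q n) ∈ BB L T s :=
  mem_BB.2 ⟨⟨0, fun i => by simp, funext fun i => by simp [cs]⟩, by simpa [l1, nm] using hs⟩

theorem sum_mem {k : ℕ} {d : Fin k → V Q n} (h : ∀ i, d i ∈ BB L T s) :
    ∑ i, d i ∈ BB L (k * T) (k * s) := by
  induction k with
  | zero => simpa using zero_mem le_rfl
  | succ k ih =>
    rw [Fin.sum_univ_castSucc, Nat.succ_mul, Nat.cast_succ, add_mul, one_mul]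
    exact add_mem (ih fun i => h _) (h _)

theorem card_le : #(BB L T s) ≤ (2 * T + 1) ^ n := by
  have h : BB L T s ⊆ (Sm (Fin n) T).image (cs Q) := fun x hx => by
    obtain ⟨⟨v, hv, rfl⟩, -⟩ := mem_BB.1 hx
    exact mem_image.2 ⟨v, Fintype.mem_piFinset.2 fun i => mem_Icc.2 (abs_le.1 (hv i)), rfl⟩
  refine (card_le_card h).trans (card_image_le.trans ?_)
  have h1 : ((T : ℤ) + 1 - -(T : ℤ)).toNat = 2 * T + 1 := by omega
  simp only [Sm, Fintype.card_piFinset, Int.card_Icc, h1, prod_const, card_univ, Fintype.card_fin,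
    le_rfl]

theorem pigeon (N : ℕ → ℝ) (c : ℝ) (hc : 0 ≤ c) (R : ℕ) (h : N R < c ^ R * N 0) :
    ∃ i < R, N (i + 1) ≤ c * N i := by
  by_contra h0
  push Not at h0
  have h1 : ∀ i ≤ R, c ^ i * N 0 ≤ N i := fun i hi => by
    induction i with
    | zero => simp
    | succ i ih =>
      rw [pow_succ', mul_assoc]
      exact (mul_le_mul_of_nonneg_left (ih (by omega)) hc).trans (h0 i (by omega)).le
  exact absurd h (not_lt.2 (h1 R le_rfl))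

theorem reg (hB : BBL) (L : V Q n →ₗ[ZMod Q] (ι → ZMod Q)) (T R m : ℕ) (s c : ℝ) (hm : 1 ≤ m)
    (hR : 1 ≤ R) (hQ : R * T < Q) (hs : 0 ≤ s) (hι : (Fintype.card ι : ℝ) ≤ s * m) (hc : 0 ≤ c)
    (h : (4 : ℝ) ^ n * (m : ℝ) ^ Fintype.card ι < c ^ R) : ∃ i, i + 1 ≤ 2 * R ∧
      (#(BB L ((i + 1) * T) ((i + 1 : ℕ) * s)) : ℝ) ≤ c * #(BB L (i * T) (i * s)) := by
  have h1 := hB Q n ι L (R * T) m (R * s) hm hQ (hι.trans (mul_le_mul_of_nonneg_right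
    (le_mul_of_one_le_left hs (by exact_mod_cast hR)) (Nat.cast_nonneg _)))
  have h2 : #(BB L ((R + R) * T) ((R + R : ℕ) * s)) ≤
      4 ^ n * m ^ Fintype.card ι * #(BB L (R * T) (R * s)) := by
    refine card_le.trans ?_
    rw [mul_assoc]
    refine le_trans ?_ (Nat.mul_le_mul_left _ h1)
    rw [← mul_pow]
    exact Nat.pow_le_pow_left (by rw [add_mul]; omega) _
  have h3 : (0 : ℝ) < #(BB L (R * T) (R * s)) := by
    exact_mod_cast card_pos.2 ⟨0, zero_mem (by positivity)⟩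
  obtain ⟨i, hi, h4⟩ := pigeon (fun i => #(BB L ((R + i) * T) ((R + i : ℕ) * s))) c hc R
    (lt_of_le_of_lt (by exact_mod_cast h2) (mul_lt_mul_of_pos_right h h3))
  exact ⟨R + i, by omega, h4⟩

theorem card_out {E E' : Finset (V Q n)} {κ : ℝ} (h : E ⊆ E') (hx : ∀ e ∈ E, e + x ∈ E')
    (hc : (#E' : ℝ) ≤ (1 + κ) * #E) : (#{e ∈ E | e + x ∉ E} : ℝ) ≤ κ * #E := by
  have h1 : #{e ∈ E | e + x ∉ E} ≤ #(E' \ E) :=
    card_le_card_of_injOn (· + x) (fun e he => by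
      have he' := mem_filter.1 (mem_coe.1 he)
      exact mem_coe.2 (mem_sdiff.2 ⟨hx e he'.1, he'.2⟩)) fun a _ b _ e => add_right_cancel e
  have h2 := card_sdiff_add_card_eq_card h
  have h3 : (#{e ∈ E | e + x ∉ E} : ℝ) + #E ≤ #E' := by exact_mod_cast (by omega)
  linarith

/-- the multiples of a Bohr set -/
noncomputable def Bm (L : V Q n →ₗ[ZMod Q] (ι → ZMod Q)) (T : ℕ) (s : ℝ) (a : ℕ) :
    Finset (V Q n) := BB L (a * T) (a * s)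

theorem Bm_sub (hs : 0 ≤ s) {a b : ℕ} (h : a ≤ b) : Bm L T s a ⊆ Bm L T s b :=
  BB_mono (Nat.mul_le_mul_right _ h) (mul_le_mul_of_nonneg_right (by exact_mod_cast h) hs)

theorem Bm_add {a b : ℕ} (hx : x ∈ Bm L T s a) (hy : y ∈ Bm L T s b) : x + y ∈ Bm L T s (a + b) := by
  rw [Bm, add_mul, Nat.cast_add, add_mul]
  exact add_mem hx hy

theorem Bm_sb {a b : ℕ} (hx : x ∈ Bm L T s a) (hy : y ∈ Bm L T s b) : x - y ∈ Bm L T s (a + b) := by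
  rw [sub_eq_add_neg]
  exact Bm_add hx (neg_mem hy)

theorem Bm_sum {a k : ℕ} {d : Fin k → V Q n} (h : ∀ i, d i ∈ Bm L T s a) :
    ∑ i, d i ∈ Bm L T s (k * a) := by
  rw [Bm, mul_assoc, Nat.cast_mul, mul_assoc]
  exact sum_mem h

theorem Bm_zero (hs : 0 ≤ s) (a : ℕ) : (0 : V Q n) ∈ Bm L T s a := zero_mem (by positivity)

theorem Bm_reg (hB : BBL) (L : V Q n →ₗ[ZMod Q] (ι → ZMod Q)) (T R m w : ℕ) (s c : ℝ) (hm : 1 ≤ m)
    (hR : 1 ≤ R) (hw : 1 ≤ w) (hQ : R * w * T < Q) (hs : 0 ≤ s)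
    (hι : (Fintype.card ι : ℝ) ≤ s * m) (hc : 0 ≤ c)
    (h : (4 : ℝ) ^ n * (m : ℝ) ^ Fintype.card ι < c ^ R) : ∃ i, i + 1 ≤ 2 * R ∧
      (#(Bm L T s ((i + 1) * w)) : ℝ) ≤ c * #(Bm L T s (i * w)) := by
  obtain ⟨i, hi, h1⟩ := reg hB L (w * T) R m (w * s) c hm hR (by rwa [← mul_assoc]) (by positivity)
    (hι.trans (mul_le_mul_of_nonneg_right (le_mul_of_one_le_left hs (by exact_mod_cast hw))
      (Nat.cast_nonneg _))) hc h
  refine ⟨i, hi, ?_⟩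
  simpa only [Bm, mul_assoc, Nat.cast_mul] using h1

theorem core (hA : APA) (hB : BBL) (hC : CHAR) (L : V Q n →ₗ[ZMod Q] (ι → ZMod Q))
    (ρ σ ε κ K : ℝ) (Ta T6 k ns j RD RE m : ℕ) (A1 A2 S U U2 : Finset (V Q n)) (hσ : 0 ≤ σ)
    (hm : 1 ≤ m) (hι : (Fintype.card ι : ℝ) ≤ σ * m) (hk : 1 ≤ k) (hj : 1 ≤ j) (hD : 1 ≤ RD)
    (hE : 1 ≤ RE) (gD : (4 : ℝ) ^ n * (m : ℝ) ^ Fintype.card ι < (1 + 1) ^ RD)
    (gE : (4 : ℝ) ^ n * (m : ℝ) ^ Fintype.card ι < (1 + κ) ^ RE)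
    (hT : (1 + k * (2 * (2 * RD * (j * (2 * RE))))) * T6 ≤ Ta)
    (hρ : ((1 + k * (2 * (2 * RD * (j * (2 * RE)))) : ℕ) : ℝ) * σ ≤ ρ) (hQ : Ta < Q)
    (h1 : A1.Nonempty) (h2 : A2.Nonempty) (hU : (#U : ℝ) ≤ K * #A1) (hU2 : (#U2 : ℝ) ≤ K * #A2)
    (m2 : ∀ a ∈ A2, ∀ x ∈ BB L Ta ρ, a + x ∈ U2)
    (m1 : ∀ a ∈ A1, ∀ a' ∈ A2, ∀ x ∈ BB L Ta ρ, a + a' + x ∈ U) (hκ : 0 ≤ κ) (hε : 0 < ε)
    (hε1 : ε ≤ 1) (n1 : 4 * Real.exp (-(ε ^ 2 * ns / 4)) * K ≤ ε)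
    (n2 : 16 * Real.log (8 * K ^ ns) < j) :
    ∃ (r : ℕ) (ξ : Fin r → V Q n), r ≤ j ∧ ∀ x, Near x T6 → l1 (L x) ≤ σ →
      (∀ i, 7 * nm (ξ i ⬝ᵥ x) ≤ κ) →
      |psi A1 A2 S x - psi A1 A2 S 0| ≤ 8 * k * ε + √K * ((j + 4) * κ + 2 / 4 ^ k) := by
  obtain ⟨w, hw⟩ : ∃ w, w = j * (2 * RE) := ⟨_, rfl⟩
  rw [← hw] at hT hρ
  obtain ⟨z, hz⟩ : ∃ z, z = 2 * RD * w := ⟨_, rfl⟩
  rw [← hz] at hT hρ
  have top : ∀ a ≤ 1 + k * (2 * z), Bm L T6 σ a ⊆ BB L Ta ρ :=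
    fun a h => (Bm_sub hσ h).trans (BB_mono hT hρ)
  have hw1 : 2 * RE ≤ w := by
    rw [hw]
    exact Nat.le_mul_of_pos_left _ hj
  have hw2 : w ≤ RD * w := Nat.le_mul_of_pos_left _ hD
  have hw3 : 2 * z ≤ k * (2 * z) := Nat.le_mul_of_pos_left _ hk
  have hw4 : z = 2 * (RD * w) := hz.trans (mul_assoc _ _ _)
  have lt : ∀ a ≤ 1 + k * (2 * z), a * T6 < Q := fun a h =>
    ((Nat.mul_le_mul_right _ h).trans hT).trans_lt hQ
  obtain ⟨iE, hiE, cE⟩ := Bm_reg hB L T6 RE m 1 σ (1 + κ) hm hE le_rfl (lt _ (by omega)) hσ hι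
    (by linarith) gE
  rw [mul_one, mul_one] at cE
  obtain ⟨iD, hiD, cD⟩ := Bm_reg hB L T6 RD m w σ (1 + 1) hm hD (by omega) (lt _ (by omega)) hσ hι
    (by norm_num) gD
  have hw5 : iD * w ≤ z := by
    rw [hz]
    exact Nat.mul_le_mul_right _ (by omega)
  have hw6 : j * iE ≤ w := by
    rw [hw]
    exact Nat.mul_le_mul_left _ (by omega)
  have hw7 : 1 + k * (iD * w + iD * w) ≤ 1 + k * (2 * z) :=
    Nat.add_le_add_left (Nat.mul_le_mul_left _ (by omega)) _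
  have hw8 : iD * w + j * iE ≤ (iD + 1) * w := by
    rw [add_mul]
    omega
  have a1 : ∀ a ∈ A2, ∀ t ∈ Bm L T6 σ (iD * w), a + t ∈ U2 :=
    fun a ha t ht => m2 a ha t (top _ (by omega) ht)
  have a2 : ∀ a ∈ A1, ∀ a' ∈ A2, ∀ x ∈ Bm L T6 σ 1, ∀ d d' : Fin k → V Q n,
      (∀ i, d i ∈ Bm L T6 σ (iD * w) ∧ d' i ∈ Bm L T6 σ (iD * w)) →
      a + a' + x + ∑ i, (d i - d' i) ∈ U := fun a ha a' ha' x hx d d' hd => by
    rw [add_assoc (a + a')]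
    exact m1 a ha a' ha' _ (top _ hw7 (Bm_add hx (Bm_sum fun i => Bm_sb (hd i).1 (hd i).2)))
  have a3 : ∀ x ∈ Bm L T6 σ (iD * w), ∀ e : Fin j → V Q n, (∀ i, e i ∈ Bm L T6 σ iE) →
      x - ∑ i, e i ∈ Bm L T6 σ ((iD + 1) * w) :=
    fun x hx e he => Bm_sub hσ hw8 (Bm_sb hx (Bm_sum he))
  have a4 : ∀ x ∈ Bm L T6 σ 1,
      (#{e ∈ Bm L T6 σ iE | e + x ∉ Bm L T6 σ iE} : ℝ) ≤ κ * #(Bm L T6 σ iE) :=
    fun x hx => card_out (Bm_sub hσ (Nat.le_add_right iE 1)) (fun e he => Bm_add he hx) cE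
  rw [one_add_one_eq_two] at cD
  obtain ⟨Λ, hΛ, h⟩ := hA (V Q n) A1 A2 S _ _ _ _ U U2 ε κ K k ns j h1 h2 ⟨0, Bm_zero hσ _⟩
    ⟨0, Bm_zero hσ _⟩ (Bm_zero hσ _) a1 a2 hU hU2 a3 cD a4 hκ hε hε1 n1 n2
  choose ξ hξ using hC Q n
  refine ⟨#Λ, fun i => ξ (Λ.equivFin.symm i), hΛ, fun x hx hx' hi =>
    h x (mem_BB.2 ⟨by rwa [one_mul], by rwa [Nat.cast_one, one_mul]⟩)
      fun lam hl => (hξ lam x).trans ?_⟩
  simpa using hi (Λ.equivFin ⟨lam, hl⟩)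

theorem exp_half {c : ℝ} (h0 : 0 ≤ c) (h1 : c ≤ 1) : Real.exp (c / 2) ≤ 1 + c := by
  have h2 := Real.add_one_le_exp (-(c / 2))
  have h3 : Real.exp (c / 2) * Real.exp (-(c / 2)) = 1 := by rw [← Real.exp_add]; simp
  have h4 := Real.exp_pos (c / 2)
  have h5 : Real.exp (c / 2) * (1 - c / 2) ≤ 1 := by nlinarith
  by_contra h6
  push Not at h6
  nlinarith

theorem grow {c G X : ℝ} {R : ℕ} (h0 : 0 ≤ c) (h1 : c ≤ 1) (hG : G ≤ Real.exp X)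
    (hR : X < R * (c / 2)) : G < (1 + c) ^ R := by
  refine (hG.trans_lt (Real.exp_lt_exp.2 hR)).trans_le ?_
  rw [Real.exp_nat_mul]
  exact pow_le_pow_left₀ (Real.exp_pos _).le (exp_half h0 h1) _

theorem size {X Z : ℝ} {n d m : ℕ} (hX : 12288 ≤ X) (hZ : 1 ≤ Z) (hZX : Z ^ 3 ≤ Real.exp X)
    (hn : (n : ℝ) ≤ Z) (hd : (d : ℝ) ≤ Z) (hm : (m : ℝ) ≤ Z * Real.exp (Z + 10 * X) + 1) :
    (4 : ℝ) ^ n * (m : ℝ) ^ d ≤ Real.exp (Real.exp X) := by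
  have h1 : (4 : ℝ) ≤ Real.exp 2 := by
    have := Real.add_one_le_exp (1 : ℝ)
    rw [show (2 : ℝ) = 1 + 1 by norm_num, Real.exp_add]
    nlinarith
  have h2 : (m : ℝ) ≤ Real.exp (2 * Z + 10 * X) := by
    have h3 := Real.add_one_le_exp Z
    have h4 : 1 ≤ Real.exp (Z + 10 * X) := Real.one_le_exp (by linarith)
    rw [show 2 * Z + 10 * X = Z + (Z + 10 * X) by ring, Real.exp_add Z (Z + 10 * X)]
    nlinarith
  have h3 : (4 : ℝ) ^ n * (m : ℝ) ^ d ≤ Real.exp (n * 2 + d * (2 * Z + 10 * X)) := by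
    rw [Real.exp_add, Real.exp_nat_mul, Real.exp_nat_mul]
    gcongr
  refine h3.trans (Real.exp_le_exp.2 ?_)
  obtain ⟨y, hy⟩ : ∃ y, y = Real.exp (X / 3) := ⟨_, rfl⟩
  have h4 : Real.exp X = y ^ 3 := by
    rw [hy, ← Real.exp_nat_mul]
    congr 1
    push_cast
    ring
  have h5 : X / 3 + 1 ≤ y := hy ▸ Real.add_one_le_exp _
  have h6 : Z ≤ y := le_of_pow_le_pow_left₀ (by norm_num) (by linarith) (h4 ▸ hZX)
  have h7 : (d : ℝ) * (2 * Z + 10 * X) ≤ y * (32 * y) :=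
    mul_le_mul (hd.trans h6) (by linarith) (by linarith) (by linarith)
  have h8 : 34 * (y * y) ≤ y * (y * y) := mul_le_mul_of_nonneg_right (by linarith) (mul_self_nonneg y)
  have h9 : 1 * y ≤ y * y := mul_le_mul_of_nonneg_right (by linarith) (by linarith)
  rw [h4, show y ^ 3 = y * (y * y) by ring]
  linarith

theorem pow_le (X : ℝ) (hX : 0 ≤ X) (k : ℕ) : X ^ k ≤ k.factorial * Real.exp X := by
  have := Real.pow_div_factorial_le_exp X hX k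
  rwa [div_le_iff₀ (by positivity), mul_comm] at this

theorem width {X : ℝ} {k j RD RE : ℕ} (hX : 12288 ≤ X) (hk : (k : ℝ) ≤ 2 * X) (hj : (j : ℝ) ≤ X ^ 6)
    (hD : (RD : ℝ) ≤ 4 * Real.exp X) (hE : (RE : ℝ) ≤ 2 * Real.exp (4 * X)) :
    ((1 + k * (2 * (2 * RD * (j * (2 * RE)))) : ℕ) : ℝ) ≤ Real.exp (10 * X) := by
  obtain ⟨y, hy⟩ : ∃ y, y = Real.exp X := ⟨_, rfl⟩
  have e : ∀ c : ℕ, Real.exp (c * X) = y ^ c := fun c => by rw [hy, Real.exp_nat_mul]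
  have e4 := e 4
  have e10 := e 10
  push_cast at e4 e10 ⊢
  have h1 : X + 1 ≤ y := hy ▸ Real.add_one_le_exp _
  have hy0 : 0 < y := by linarith
  have h2 := pow_le X (by linarith) 7
  rw [← hy] at h2 hD
  rw [e4] at hE
  rw [e10]
  have h3 : (k : ℝ) * (2 * (2 * RD * (j * (2 * RE)))) ≤
      2 * X * (2 * (2 * (4 * y) * (X ^ 6 * (2 * (2 * y ^ 4))))) := by gcongr
  have h4 : 2 * X * (2 * (2 * (4 * y) * (X ^ 6 * (2 * (2 * y ^ 4))))) = 128 * X ^ 7 * y ^ 5 := by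
    ring
  have h5 : 128 * X ^ 7 * y ^ 5 ≤ 128 * (5040 * y) * y ^ 5 := by
    gcongr
    exact h2.trans_eq (by norm_num [Nat.factorial])
  have h6 : (12288 : ℝ) ^ 4 ≤ y ^ 4 := by gcongr; linarith
  have h7 : (1 : ℝ) ≤ y ^ 6 := one_le_pow₀ (by linarith)
  have h8 : (12288 : ℝ) ^ 4 * y ^ 6 ≤ y ^ 4 * y ^ 6 := by gcongr
  nlinarith

theorem num1 {ε X : ℝ} {k ns : ℕ} (hε : 0 < ε) (hε1 : ε ≤ 1) (h : 12288 ≤ ε ^ 2 * X)
    (hX : 12288 ≤ X) (hk : 1 ≤ k) (hk' : (k : ℝ) ≤ 2 * X) (hn : X ^ 4 ≤ ns) :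
    4 * Real.exp (-((ε / (16 * k)) ^ 2 * ns / 4)) * Real.exp X ≤ ε / (16 * k) := by
  have hk0 : (0 : ℝ) < k := by exact_mod_cast hk
  have h1 : ε / (32 * X) ≤ ε / (16 * k) := by
    gcongr ε / ?_
    linarith
  have h2 : 3 * X ≤ (ε / (16 * k)) ^ 2 * ns / 4 := by
    refine le_trans ?_ (show (ε / (32 * X)) ^ 2 * X ^ 4 / 4 ≤ _ by gcongr)
    have : (ε / (32 * X)) ^ 2 * X ^ 4 / 4 = ε ^ 2 * X * X / 4096 := by
      field_simp
      norm_num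
    rw [this]
    nlinarith
  refine le_trans ?_ h1
  have h3 : Real.exp (-((ε / (16 * k)) ^ 2 * ns / 4)) ≤ Real.exp (-(3 * X)) :=
    Real.exp_le_exp.2 (by linarith)
  have h4 : Real.exp (-(3 * X)) * Real.exp X * (Real.exp X * Real.exp X) = 1 := by
    simp only [← Real.exp_add]
    rw [← Real.exp_zero]
    congr 1
    ring
  have h5 := Real.add_one_le_exp X
  have h6 : X * X ≤ Real.exp X * Real.exp X := by gcongr <;> linarith
  have h7 : 128 ≤ ε * X := by nlinarith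
  refine le_trans (show _ ≤ 4 * Real.exp (-(3 * X)) * Real.exp X by gcongr) ?_
  rw [le_div_iff₀ (by linarith), mul_assoc 4]
  generalize hu : Real.exp (-(3 * X)) * Real.exp X = u at h4
  have h8 : 0 ≤ u := by rw [← hu]; positivity
  have h9 : u * (X * X) ≤ 1 := (mul_le_mul_of_nonneg_left h6 h8).trans_eq h4
  have h10 : u * X * 128 ≤ u * X * (ε * X) := by gcongr
  nlinarith

theorem num2 {X : ℝ} {j ns : ℕ} (hX : 12288 ≤ X) (hn : (ns : ℝ) ≤ X ^ 4 + 1) (hj : X ^ 6 < j + 1) :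
    16 * Real.log (8 * Real.exp X ^ ns) < j := by
  rw [Real.log_mul (by norm_num) (by positivity), Real.log_pow, Real.log_exp]
  have h1 : Real.log 8 ≤ 8 := (Real.log_le_sub_one_of_pos (by norm_num)).trans (by norm_num)
  have h2 : (ns : ℝ) * X ≤ (X ^ 4 + 1) * X := by gcongr
  have h3 : (1 : ℝ) ≤ X ^ 4 := one_le_pow₀ (by linarith)
  have h4 : 1 * X ≤ X ^ 4 * X := by gcongr
  have h5 : X ^ 4 * X * 12288 ≤ X ^ 4 * X * X := by gcongr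
  nlinarith

theorem num3 {ε X : ℝ} {k j : ℕ} (h : 12288 ≤ ε * X) (hε : 0 < ε) (hX : 12288 ≤ X) (hk : X ≤ k)
    (hj : (j : ℝ) ≤ X ^ 6) :
    √(Real.exp X) * ((j + 4) * (7 * Real.exp (-(3 * X))) + 2 / 4 ^ k) ≤ ε / 2 := by
  obtain ⟨y, hy⟩ : ∃ y, y = Real.exp (X / 2) := ⟨_, rfl⟩
  have h0 : X / 2 + 1 ≤ y := hy ▸ Real.add_one_le_exp _
  have hy0 : 0 < y := by linarith
  have e1 : Real.exp X = y ^ 2 := by
    rw [hy, ← Real.exp_nat_mul]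
    congr 1
    push_cast
    ring
  have e2 : Real.exp (-(3 * X)) = (y ^ 6)⁻¹ := by
    rw [hy, ← Real.exp_nat_mul, ← Real.exp_neg]
    congr 1
    push_cast
    ring
  have h1 : y ^ 2 ≤ 4 ^ k := by
    rw [← e1]
    refine (Real.exp_le_exp.2 (hk.trans_eq (mul_one _).symm)).trans ?_
    rw [Real.exp_nat_mul]
    exact pow_le_pow_left₀ (Real.exp_pos _).le (Real.exp_one_lt_d9.le.trans (by norm_num)) _
  have h2 := pow_le X (by linarith) 6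
  rw [e1, show ((Nat.factorial 6 : ℕ) : ℝ) = 720 by norm_num [Nat.factorial]] at h2
  have h3 : (1 : ℝ) ≤ y ^ 2 := one_le_pow₀ (by linarith)
  have h4 : (j + 4 : ℝ) * 7 ≤ y ^ 4 := by
    have : (6144 : ℝ) ^ 2 ≤ y ^ 2 := by gcongr; linarith
    nlinarith
  rw [e1, e2, Real.sqrt_sq hy0.le]
  have h5 : (j + 4 : ℝ) * (7 * (y ^ 6)⁻¹) ≤ 1 / y ^ 2 := by
    rw [← mul_assoc, ← div_eq_mul_inv, div_le_div_iff₀ (by positivity) (by positivity)]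
    nlinarith
  have h6 : (2 : ℝ) / 4 ^ k ≤ 2 / y ^ 2 := by gcongr
  refine le_trans (show _ ≤ y * (1 / y ^ 2 + 2 / y ^ 2) by gcongr) ?_
  rw [show y * (1 / y ^ 2 + 2 / y ^ 2) = 3 / y by field_simp; norm_num, div_le_iff₀ hy0]
  nlinarith

end Apb

open Apb in
theorem apb_of (hA : APA) (hB : BBL) (hC : CHAR) : APB := by
  intro ε' hε'
  obtain ⟨ε, hε, hε1, hle⟩ : ∃ ε : ℝ, 0 < ε ∧ ε ≤ 1 ∧ ε ≤ ε' :=
    ⟨min ε' 1, lt_min hε' one_pos, min_le_right _ _, min_le_left _ _⟩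
  refine ⟨12288 / ε ^ 2, fun X Z hX0 hZ hZX Q n _ ι _ _ L ρ Ta T6 A1 A2 S U U2 hι hn hρ hT6 hTa hQ h1
    h2 hU hU2 m2 m1 => ?_⟩
  have hX1 : 12288 ≤ ε ^ 2 * X := by rwa [div_le_iff₀ (by positivity), mul_comm] at hX0
  have hXp : 0 < X := lt_of_lt_of_le (by positivity) hX0
  have hX2 : 12288 ≤ ε * X := by nlinarith [mul_pos hε hXp]
  have hX : 12288 ≤ X := by nlinarith
  have hρ0 : 0 < ρ := (Real.exp_pos _).trans_le hρ
  have hσ : 0 < ρ * Real.exp (-(10 * X)) := by positivity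
  have hk := Nat.le_ceil X
  have hk' : (⌈X⌉₊ : ℝ) ≤ 2 * X := (Nat.ceil_lt_add_one hXp.le).le.trans (by linarith)
  have hk1 : 1 ≤ ⌈X⌉₊ := Nat.ceil_pos.2 hXp
  have hk2 : (1 : ℝ) ≤ ⌈X⌉₊ := by exact_mod_cast hk1
  have hj : (⌊X ^ 6⌋₊ : ℝ) ≤ X ^ 6 := Nat.floor_le (by positivity)
  have hm : (⌈Z / (ρ * Real.exp (-(10 * X)))⌉₊ : ℝ) ≤ Z * Real.exp (Z + 10 * X) + 1 := by
    refine (Nat.ceil_lt_add_one (by positivity)).le.trans (add_le_add_left ?_ _)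
    rw [div_le_iff₀ hσ, mul_assoc]
    refine le_mul_of_one_le_right (by linarith) (le_trans (le_of_eq ?_)
      (show Real.exp (Z + 10 * X) * (Real.exp (-Z) * Real.exp (-(10 * X))) ≤ _ by gcongr))
    rw [← Real.exp_add, ← Real.exp_add, ← Real.exp_zero]
    congr 1
    ring
  have hG := size hX hZ hZX hn hι hm
  have e1 : 1 ≤ Real.exp X := Real.one_le_exp hXp.le
  have e4 : 1 ≤ Real.exp (4 * X) := Real.one_le_exp (by linarith)
  have hκ : 7 * Real.exp (-(3 * X)) ≤ 1 := by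
    have h3 := Real.add_one_le_exp (3 * X)
    rw [Real.exp_neg, ← div_eq_mul_inv, div_le_one (Real.exp_pos _)]
    linarith
  have hW := width (RD := ⌈3 * Real.exp X⌉₊) (RE := ⌈Real.exp (4 * X)⌉₊) hX hk' hj
    ((Nat.ceil_lt_add_one (by positivity)).le.trans (by linarith))
    ((Nat.ceil_lt_add_one (by positivity)).le.trans (by linarith))
  obtain ⟨r, ξ, hr, h⟩ := core hA hB hC L ρ (ρ * Real.exp (-(10 * X))) (ε / (16 * ⌈X⌉₊))
    (7 * Real.exp (-(3 * X))) (Real.exp X) Ta T6 ⌈X⌉₊ ⌈X ^ 4⌉₊ ⌊X ^ 6⌋₊ ⌈3 * Real.exp X⌉₊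
    ⌈Real.exp (4 * X)⌉₊ ⌈Z / (ρ * Real.exp (-(10 * X)))⌉₊ A1 A2 S U U2 hσ.le
    (Nat.ceil_pos.2 (by positivity))
    (hι.trans (by rw [mul_comm, ← div_le_iff₀ hσ]; exact Nat.le_ceil _)) hk1
    (Nat.le_floor (by rw [Nat.cast_one]; exact one_le_pow₀ (by linarith)))
    (Nat.ceil_pos.2 (by positivity)) (Nat.ceil_pos.2 (by positivity))
    (grow zero_le_one le_rfl hG (by have := Nat.le_ceil (3 * Real.exp X); linarith))
    (grow (by positivity) hκ hG (by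
      have h3 : Real.exp (4 * X) * Real.exp (-(3 * X)) = Real.exp X := by
        rw [← Real.exp_add]
        congr 1
        ring
      have h4 := mul_le_mul_of_nonneg_right (Nat.le_ceil (Real.exp (4 * X)))
        (Real.exp_pos (-(3 * X))).le
      linarith))
    (by
      have h3 := (mul_le_mul_of_nonneg_left hW (Nat.cast_nonneg T6)).trans hTa
      rw [mul_comm]
      exact_mod_cast h3)
    ((mul_le_mul_of_nonneg_right hW hσ.le).trans_eq (by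
      rw [mul_left_comm, ← Real.exp_add, add_neg_cancel, Real.exp_zero, mul_one]))
    hQ h1 h2 hU hU2 m2 m1 (by positivity) (by positivity)
    ((div_le_self hε.le (by linarith)).trans hε1)
    (num1 hε hε1 hX1 hX hk1 hk' (Nat.le_ceil _))
    (num2 hX (Nat.ceil_lt_add_one (by positivity)).le (Nat.lt_floor_add_one _))
  refine ⟨r, ξ, le_trans (by exact_mod_cast hr) hj, fun x hx hx' hi =>
    (h x hx hx' fun i => by have := hi i; linarith).trans ?_⟩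
  have h3 := num3 hX2 hε hX hk hj
  have h4 : 8 * (⌈X⌉₊ : ℝ) * (ε / (16 * ⌈X⌉₊)) = ε / 2 := by
    field_simp
    norm_num
  linarith

end Vale.Agent.P057Z.Km
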