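import Vale.Agent.P057Z.Km.Sk
import Vale.Agent.P057Z.Ke.Fol

/-! Block KM: boxes, Bohr sets inside boxes, cells, characters. -/

set_option linter.all false

open Finset
open scoped BigOperators

namespace Vale.Agent.P057Z.Km

open Vale.Agent.P057Z.Ke

noncomputable section

namespace Bb

variable {Q : ℕ} [Fact Q.Prime] {n : ℕ}

/-- differences of two points of the box of side T + 1 -/
theorem near_sub_succ {T : ℕ} {x y : V Q n} (hx : x ∈ bx Q n (T + 1))
    (hy : y ∈ bx Q n (T + 1)) : Near (x - y) T := by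
  obtain ⟨t, ht, rfl⟩ := mem_bx'.1 hx
  obtain ⟨s, hs, rfl⟩ := mem_bx'.1 hy
  refine ⟨fun i => (t i : ℤ) - s i, fun i => ?_, funext fun i => by simp [cs]⟩
  have h1 := ht i
  have h2 := hs i
  show |(t i : ℤ) - s i| ≤ T
  rw [abs_le]
  constructor <;> omega

theorem near_of_mem_succ {T : ℕ} {x : V Q n} (hx : x ∈ bx Q n (T + 1)) : Near x T := by
  have h := near_sub_succ hx (zero_mem_bx (Nat.succ_pos T))
  rwa [sub_zero] at h

theorem card_bx_le (T : ℕ) : #(bx Q n T) ≤ T ^ n := by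
  rw [bx_eq_image]
  refine card_image_le.trans ?_
  rw [Fintype.card_piFinset]
  simp

theorem add_mem_bx {T T' : ℕ} {x y : V Q n} (hx : x ∈ bx Q n T) (hy : y ∈ bx Q n T') :
    x + y ∈ bx Q n (T + T') := by
  obtain ⟨t, ht, rfl⟩ := mem_bx'.1 hx
  obtain ⟨s, hs, rfl⟩ := mem_bx'.1 hy
  refine mem_bx'.2 ⟨fun i => t i + s i, fun i => ?_, funext fun i => by simp⟩
  have h1 := ht i
  have h2 := hs i
  show t i + s i < T + T'
  omega

theorem add_near_mem_bx {T t : ℕ} {x y : V Q n} (hx : x ∈ bx Q n T) (hy : Near y t) :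
    x + y + (fun _ => (t : ZMod Q)) ∈ bx Q n (T + 2 * t) := by
  obtain ⟨a, ha, rfl⟩ := mem_bx'.1 hx
  obtain ⟨v, hv, rfl⟩ := hy
  refine mem_bx'.2 ⟨fun i => ((a i : ℤ) + v i + t).toNat, fun i => ?_, funext fun i => ?_⟩
  · have h1 := ha i
    have h2 := abs_le.1 (hv i)
    show ((a i : ℤ) + v i + t).toNat < T + 2 * t
    omega
  · have h2 := abs_le.1 (hv i)
    have h3 : ((((a i : ℤ) + v i + t).toNat : ℕ) : ℤ) = (a i : ℤ) + v i + t := by omega
    have h4 : ((((a i : ℤ) + v i + t).toNat : ℕ) : ZMod Q) = (((a i : ℤ) + v i + t : ℤ) : ZMod Q) := by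
      rw [← h3, Int.cast_natCast, h3]
    show (a i : ZMod Q) + cs Q v i + (t : ZMod Q) = _
    rw [h4]
    simp [cs]

theorem near_mem_bx {t : ℕ} {y : V Q n} (hy : Near y t) :
    y + (fun _ => (t : ZMod Q)) ∈ bx Q n (2 * t + 1) := by
  have h := add_near_mem_bx (zero_mem_bx (le_refl 1)) hy
  rwa [zero_add, add_comm 1] at h

/-- the number of small vectors -/
theorem card_near_le {T : ℕ} {S : Finset (V Q n)} (hS : ∀ x ∈ S, Near x T) :
    #S ≤ (2 * T + 1) ^ n := by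
  refine le_trans ?_ (card_bx_le (Q := Q) (n := n) (2 * T + 1))
  refine card_le_card_of_injOn (fun y => y + fun _ => (T : ZMod Q))
    (fun y hy => mem_coe.2 (near_mem_bx (hS y (mem_coe.1 hy)))) ?_
  intro a _ b _ hab
  exact add_right_cancel hab

section BB

variable {ι : Type} [Fintype ι] [DecidableEq ι] {L : V Q n →ₗ[ZMod Q] (ι → ZMod Q)}

theorem mem_BB {T : ℕ} {s : ℝ} {x : V Q n} : x ∈ BB L T s ↔ Near x T ∧ l1 (L x) ≤ s := by
  unfold BB
  simp only [mem_filter, mem_univ, true_and]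

theorem zero_mem_BB (T : ℕ) {s : ℝ} (hs : 0 ≤ s) : (0 : V Q n) ∈ BB L T s :=
  mem_BB.2 ⟨near_zero T, by rw [map_zero, l1_zero]; exact hs⟩

theorem BB_nonempty (T : ℕ) {s : ℝ} (hs : 0 ≤ s) : (BB L T s).Nonempty := ⟨0, zero_mem_BB T hs⟩

theorem add_mem_BB {T T' : ℕ} {s s' : ℝ} {x y : V Q n} (hx : x ∈ BB L T s) (hy : y ∈ BB L T' s') :
    x + y ∈ BB L (T + T') (s + s') := by
  rw [mem_BB] at hx hy ⊢
  refine ⟨near_add hx.1 hy.1, ?_⟩
  rw [map_add]
  exact (l1_add_le _ _).trans (add_le_add hx.2 hy.2)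

theorem neg_mem_BB {T : ℕ} {s : ℝ} {x : V Q n} (hx : x ∈ BB L T s) : -x ∈ BB L T s := by
  rw [mem_BB] at hx ⊢
  refine ⟨near_neg hx.1, ?_⟩
  rw [map_neg, l1_neg]
  exact hx.2

theorem sub_mem_BB {T T' : ℕ} {s s' : ℝ} {x y : V Q n} (hx : x ∈ BB L T s) (hy : y ∈ BB L T' s') :
    x - y ∈ BB L (T + T') (s + s') := by
  rw [sub_eq_add_neg]
  exact add_mem_BB hx (neg_mem_BB hy)

theorem BB_mono {T T' : ℕ} {s s' : ℝ} (hT : T ≤ T') (hs : s ≤ s') : BB L T s ⊆ BB L T' s' :=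
  fun _ hx => mem_BB.2 ⟨near_mono (mem_BB.1 hx).1 hT, (mem_BB.1 hx).2.trans hs⟩

theorem sum_mem_BB {κ : Type*} (S : Finset κ) {x : κ → V Q n} {T : ℕ} {s : ℝ}
    (hx : ∀ j ∈ S, x j ∈ BB L T s) : ∑ j ∈ S, x j ∈ BB L (#S * T) (#S * s) := by
  refine mem_BB.2 ⟨near_sum S fun j hj => (mem_BB.1 (hx j hj)).1, ?_⟩
  rw [map_sum]
  refine (l1_sum_le _ _).trans ?_
  have := sum_le_card_nsmul S (fun j => l1 (L (x j))) s fun j hj => (mem_BB.1 (hx j hj)).2
  simpa using this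

theorem card_BB_le (T : ℕ) (s : ℝ) : #(BB L T s) ≤ (2 * T + 1) ^ n :=
  card_near_le fun _ hx => (mem_BB.1 hx).1

end BB

/-- the cell of u among m arcs -/
def cell {m : ℕ} (hm : 1 ≤ m) (u : ZMod Q) : Fin m :=
  ⟨u.val * m / Q, Nat.div_lt_of_lt_mul (Nat.mul_lt_mul_of_pos_right (ZMod.val_lt u) hm)⟩

theorem nm_le_of_cell {m : ℕ} (hm : 1 ≤ m) {u u' : ZMod Q} (h : cell hm u = cell hm u') :
    nm (u - u') ≤ 1 / m := by
  have h1 : u.val * m / Q = u'.val * m / Q := congrArg Fin.val h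
  have hQ := NeZero.pos Q
  have a1 := Nat.div_add_mod (u.val * m) Q
  have a2 := Nat.div_add_mod (u'.val * m) Q
  have b1 := Nat.mod_lt (u.val * m) hQ
  have b2 := Nat.mod_lt (u'.val * m) hQ
  rw [h1] at a1
  have e : u - u' = (((u.val : ℤ) - u'.val : ℤ) : ZMod Q) := by simp
  rw [e]
  refine (nm_cast_le _).trans ?_
  have hm' : (0 : ℝ) < m := by exact_mod_cast hm
  rw [div_le_div_iff₀ Qpos hm', one_mul]
  have a1' : (Q : ℝ) * ((u'.val * m / Q : ℕ) : ℝ) + ((u.val * m % Q : ℕ) : ℝ) = u.val * m := by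
    exact_mod_cast a1
  have a2' : (Q : ℝ) * ((u'.val * m / Q : ℕ) : ℝ) + ((u'.val * m % Q : ℕ) : ℝ) = u'.val * m := by
    exact_mod_cast a2
  have b1' : ((u.val * m % Q : ℕ) : ℝ) < Q := by exact_mod_cast b1
  have b2' : ((u'.val * m % Q : ℕ) : ℝ) < Q := by exact_mod_cast b2
  have c1 : (0 : ℝ) ≤ ((u.val * m % Q : ℕ) : ℝ) := Nat.cast_nonneg _
  have c2 : (0 : ℝ) ≤ ((u'.val * m % Q : ℕ) : ℝ) := Nat.cast_nonneg _
  rw [← abs_of_pos hm', ← abs_mul, abs_le]
  push_cast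
  constructor <;> nlinarith

/-- vectors in the same cells are close -/
theorem l1_le_of_cell {ι : Type} [Fintype ι] [DecidableEq ι] {m : ℕ} (hm : 1 ≤ m)
    {u u' : ι → ZMod Q} (h : (fun i => cell hm (u i)) = fun i => cell hm (u' i)) {s : ℝ}
    (hs : (Fintype.card ι : ℝ) ≤ s * m) : l1 (u - u') ≤ s := by
  have hm' : (0 : ℝ) < m := by exact_mod_cast hm
  refine (l1_le_card (s := 1 / m) fun i => nm_le_of_cell hm (congrFun h i)).trans ?_
  rw [mul_one_div, div_le_iff₀ hm']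
  exact hs

/-- many pairs lie in a common fibre -/
theorem sq_le_pairs {α β : Type} [DecidableEq α] [Fintype β] [DecidableEq β] (B : Finset α)
    (f : α → β) : (#B : ℝ) ^ 2 ≤ Fintype.card β *
      ∑ x ∈ B, ∑ y ∈ B, if f x = f y then (1 : ℝ) else 0 := by
  have h1 : (#B : ℝ) = ∑ b, (#{x ∈ B | f x = b} : ℝ) := by
    exact_mod_cast card_eq_sum_card_fiberwise (f := f) (s := B) (t := univ)
      (fun _ _ => mem_coe.2 (mem_univ _))
  have h2 : ∑ x ∈ B, ∑ y ∈ B, (if f x = f y then (1 : ℝ) else 0) =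
      ∑ b, (#{x ∈ B | f x = b} : ℝ) ^ 2 := by
    rw [← sum_fiberwise (s := B) (g := f)]
    refine sum_congr rfl fun b _ => ?_
    rw [sum_congr rfl (g := fun _ => (#{x ∈ B | f x = b} : ℝ))]
    · rw [sum_const, nsmul_eq_mul, sq]
    · intro x hx
      rw [(mem_filter.1 hx).2, sum_boole]
      congr 2
      ext y
      simp only [mem_filter, eq_comm]
  rw [h1, h2]
  have := sq_sum_le_card_mul_sum_sq (s := (univ : Finset β))
    (f := fun b => (#{x ∈ B | f x = b} : ℝ))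
  rwa [card_univ] at this

theorem lap_nonneg {ι : Type} [Fintype ι] [DecidableEq ι] (ρ : ℝ) (u : ι → ZMod Q) :
    0 ≤ lap ρ u := (Real.exp_pos _).le

theorem le_lap {ι : Type} [Fintype ι] [DecidableEq ι] {ρ : ℝ} (hρ : 0 < ρ) {u : ι → ZMod Q}
    (hu : l1 u ≤ ρ) : Real.exp (-1) ≤ lap ρ u := by
  unfold lap
  rw [Real.exp_le_exp, le_div_iff₀ hρ]
  linarith

/-- the character attached to a frequency -/
def chi (ξ : V Q n) : AddChar (V Q n) ℂ where
  toFun x := ch (ξ ⬝ᵥ x)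
  map_zero_eq_one' := by rw [dotProduct_zero, ch_zero]
  map_add_eq_mul' x y := by rw [dotProduct_add, ch_add]

theorem chi_inj : Function.Injective (chi : V Q n → AddChar (V Q n) ℂ) := by
  intro ξ ξ' h
  funext i
  have h1 : ch (ξ ⬝ᵥ Pi.single i 1) = ch (ξ' ⬝ᵥ Pi.single i 1) :=
    DFunLike.congr_fun h (Pi.single i 1)
  rw [dotProduct_single, dotProduct_single, mul_one, mul_one] at h1
  exact ZMod.injective_stdAddChar h1

theorem chi_surj : Function.Surjective (chi : V Q n → AddChar (V Q n) ℂ) := by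
  classical
  exact ((Fintype.bijective_iff_injective_and_card _).2 ⟨chi_inj, AddChar.card_eq.symm⟩).2

end Bb

open Bb

theorem bbl : BBL := by
  intro Q n _ ι _ _ L T m s hm hT hs
  classical
  have h := card_le_mul_card_image_of_maps_to (s := bx Q n (T + 1))
    (t := (univ : Finset (ι → Fin m))) (f := fun x i => cell hm (L x i)) (fun _ _ => mem_univ _)
    #(BB L T s) (fun c _ => by
      rcases eq_empty_or_nonempty {x ∈ bx Q n (T + 1) | (fun i => cell hm (L x i)) = c} with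
        h0 | ⟨y, hy⟩
      · rw [h0, card_empty]
        exact Nat.zero_le _
      · refine card_le_card_of_injOn (fun x => x - y) (fun x hx => ?_) ?_
        · have hx' := mem_filter.1 (mem_coe.1 hx)
          have hy' := mem_filter.1 hy
          refine mem_coe.2 (mem_BB.2 ⟨near_sub_succ hx'.1 hy'.1, ?_⟩)
          rw [map_sub]
          exact l1_le_of_cell hm (hx'.2.trans hy'.2.symm) hs
        · intro a _ b _ hab
          exact sub_left_injective hab)
  rw [card_bx (Nat.succ_le_of_lt hT), card_univ, Fintype.card_fun, Fintype.card_fin,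
    mul_comm] at h
  exact h

theorem mass : MASS := by
  intro Q n _ ι _ _ L r ξ B m m' ρ ρ' hB hm hm' hρ hρ' hr hι
  classical
  have h := sq_le_pairs B fun x => ((fun i => cell hm (ξ i ⬝ᵥ x), fun i => cell hm' (L x i)) :
    (Fin r → Fin m) × (ι → Fin m'))
  have hc : (0 : ℝ) < #B := by exact_mod_cast hB.card_pos
  have h2 : Real.exp (-2) * ∑ x ∈ B, ∑ y ∈ B, (if ((fun i => cell hm (ξ i ⬝ᵥ x),
      fun i => cell hm' (L x i)) : (Fin r → Fin m) × (ι → Fin m')) =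
      (fun i => cell hm (ξ i ⬝ᵥ y), fun i => cell hm' (L y i)) then (1 : ℝ) else 0) ≤
      ∑ t1 ∈ B, ∑ t2 ∈ B, lap ρ (fun i => ξ i ⬝ᵥ (t1 - t2)) * lap ρ' (L (t1 - t2)) := by
    rw [mul_sum]
    refine sum_le_sum fun x _ => ?_
    rw [mul_sum]
    refine sum_le_sum fun y _ => ?_
    split_ifs with hxy
    · obtain ⟨e1, e2⟩ := Prod.mk.inj hxy
      have f1 := l1_le_of_cell hm (u := fun i => ξ i ⬝ᵥ x) (u' := fun i => ξ i ⬝ᵥ y) e1 (s := ρ)
        (by simpa using hr)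
      have f2 := l1_le_of_cell hm' e2 hι
      have g1 : (fun i => ξ i ⬝ᵥ (x - y)) = (fun i => ξ i ⬝ᵥ x) - fun i => ξ i ⬝ᵥ y :=
        funext fun i => dotProduct_sub _ _ _
      rw [g1, map_sub, mul_one, show (-2 : ℝ) = -1 + -1 by norm_num, Real.exp_add]
      exact mul_le_mul (le_lap hρ f1) (le_lap hρ' f2) (Real.exp_pos _).le (lap_nonneg _ _)
    · rw [mul_zero]
      exact mul_nonneg (lap_nonneg _ _) (lap_nonneg _ _)
  simp only [expect_eq_sum_div_card]
  rw [← sum_div, div_div, ← mul_div_assoc, le_div_iff₀ (by positivity)]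
  have h3 : (Fintype.card ((Fin r → Fin m) × (ι → Fin m')) : ℝ) =
      (m : ℝ) ^ r * (m' : ℝ) ^ Fintype.card ι := by simp
  rw [h3] at h
  have h4 : (0 : ℝ) ≤ (m : ℝ) ^ r * (m' : ℝ) ^ Fintype.card ι := by positivity
  have h5 := mul_le_mul_of_nonneg_left h2 h4
  have h6 := mul_le_mul_of_nonneg_left h (Real.exp_pos (-2)).le
  nlinarith

theorem char : CHAR := by
  intro Q n _ lam
  obtain ⟨ξ, rfl⟩ := chi_surj lam
  refine ⟨ξ, fun x => (norm_ch_sub_one_le (ξ ⬝ᵥ x)).trans ?_⟩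
  have h := Real.pi_lt_d2
  exact mul_le_mul_of_nonneg_right (by linarith) (nm_nonneg _)

end

end Vale.Agent.P057Z.Km
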