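import Vale.Agent.P057Z.Km.Sk

/-! Block KM: almost periods. -/

set_option linter.all false

open Finset
open scoped BigOperators

namespace Vale.Agent.P057Z.Km

namespace Cs

theorem tupleTail_side {ι : Type*} [DecidableEq ι] (Y : Finset ι) (Z : ι → ℝ)
    (hZ : ∀ y ∈ Y, |Z y| ≤ 1) (hsum : ∑ y ∈ Y, Z y = 0) (n : ℕ) (ε : ℝ) (hε : 0 < ε)
    (hε1 : ε ≤ 1) :
    (((Fintype.piFinset (fun _ : Fin n => Y)).filter
      (fun v => ε * n < ∑ i, Z (v i))).card : ℝ)
      ≤ Real.exp (-(ε^2 * n / 4)) * (Y.card : ℝ) ^ n := by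
  set lam : ℝ := ε / 2 with hlam
  have hone : ∑ y ∈ Y, Real.exp (lam * Z y) ≤ (Y.card : ℝ) * Real.exp (lam ^ 2) := by
    have h1 : ∀ y ∈ Y, Real.exp (lam * Z y) ≤ lam * Z y + Real.exp (lam ^ 2) := by
      intro y hy
      have hz := hZ y hy
      have habs : |lam * Z y| ≤ 1 := by
        rw [abs_mul, abs_of_pos (by positivity : 0 < lam)]
        nlinarith only [hε1, hlam, hε, hz]
      have h2 := Real.abs_exp_sub_one_sub_id_le habs
      have h3 := (abs_le.mp h2).2
      have h4 : (lam * Z y) ^ 2 ≤ lam ^ 2 := by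
        rw [mul_pow]
        have : Z y ^ 2 ≤ 1 := by
          rw [← sq_abs]
          nlinarith only [hz, abs_nonneg (Z y)]
        nlinarith only [this]
      have h5 := Real.add_one_le_exp (lam ^ 2)
      linarith only [h3, h4, h5]
    calc ∑ y ∈ Y, Real.exp (lam * Z y)
        ≤ ∑ y ∈ Y, (lam * Z y + Real.exp (lam ^ 2)) := Finset.sum_le_sum h1
      _ = lam * ∑ y ∈ Y, Z y + (Y.card : ℝ) * Real.exp (lam ^ 2) := by
          rw [Finset.sum_add_distrib, Finset.mul_sum, Finset.sum_const, nsmul_eq_mul]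
      _ = (Y.card : ℝ) * Real.exp (lam ^ 2) := by rw [hsum]; ring
  have hall : ∑ v ∈ Fintype.piFinset (fun _ : Fin n => Y), Real.exp (lam * ∑ i, Z (v i))
      ≤ (Y.card : ℝ) ^ n * Real.exp (n * lam ^ 2) := by
    have h1 : ∑ v ∈ Fintype.piFinset (fun _ : Fin n => Y), Real.exp (lam * ∑ i, Z (v i))
        = ∏ _i : Fin n, ∑ y ∈ Y, Real.exp (lam * Z y) := by
      rw [Finset.prod_univ_sum]
      refine Finset.sum_congr rfl (fun v _ => ?_)
      rw [Finset.mul_sum, Real.exp_sum]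
    rw [h1, Finset.prod_const, Finset.card_univ, Fintype.card_fin]
    calc (∑ y ∈ Y, Real.exp (lam * Z y)) ^ n
        ≤ ((Y.card : ℝ) * Real.exp (lam ^ 2)) ^ n := by
          refine pow_le_pow_left₀ ?_ hone n
          exact Finset.sum_nonneg (fun _ _ => (Real.exp_pos _).le)
      _ = (Y.card : ℝ) ^ n * Real.exp (n * lam ^ 2) := by
          rw [mul_pow, ← Real.exp_nat_mul]
  have hmark : (((Fintype.piFinset (fun _ : Fin n => Y)).filter
      (fun v => ε * n < ∑ i, Z (v i))).card : ℝ) * Real.exp (lam * (ε * n))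
      ≤ (Y.card : ℝ) ^ n * Real.exp (n * lam ^ 2) := by
    refine le_trans ?_ hall
    rw [← nsmul_eq_mul, ← Finset.sum_const]
    calc ∑ _v ∈ (Fintype.piFinset (fun _ : Fin n => Y)).filter
            (fun v => ε * n < ∑ i, Z (v i)), Real.exp (lam * (ε * n))
        ≤ ∑ v ∈ (Fintype.piFinset (fun _ : Fin n => Y)).filter
            (fun v => ε * n < ∑ i, Z (v i)), Real.exp (lam * ∑ i, Z (v i)) := by
          refine Finset.sum_le_sum (fun v hv => ?_)
          have := (Finset.mem_filter.mp hv).2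
          apply Real.exp_le_exp.mpr
          have hl : 0 < lam := by positivity
          nlinarith only [hε, this, hlam]
      _ ≤ ∑ v ∈ Fintype.piFinset (fun _ : Fin n => Y), Real.exp (lam * ∑ i, Z (v i)) := by
          refine Finset.sum_le_sum_of_subset_of_nonneg (Finset.filter_subset _ _) ?_
          intro _ _ _
          exact (Real.exp_pos _).le
  have hexp : Real.exp (-(ε^2 * n / 4)) * Real.exp (lam * (ε * n)) = Real.exp (n * lam ^ 2) := by
    rw [← Real.exp_add]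
    congr 1
    rw [hlam]
    ring
  have hpos : 0 < Real.exp (lam * (ε * n)) := Real.exp_pos _
  refine le_of_mul_le_mul_right ?_ hpos
  calc _ ≤ (Y.card : ℝ) ^ n * Real.exp (n * lam ^ 2) := hmark
    _ = Real.exp (-(ε^2 * n / 4)) * (Y.card : ℝ) ^ n * Real.exp (lam * (ε * n)) := by
        rw [← hexp]; ring

/-- Hoeffding type bound for uniform tuples from a finite set -/
theorem tuple_tail {ι : Type*} [DecidableEq ι] (Y : Finset ι) (hY : Y.Nonempty) (φ : ι → ℝ)
    (hφ : ∀ y ∈ Y, 0 ≤ φ y ∧ φ y ≤ 1) (n : ℕ) (ε : ℝ) (hε : 0 < ε) (hε1 : ε ≤ 1) :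
    (((Fintype.piFinset (fun _ : Fin n => Y)).filter
      (fun v => ε * n < |∑ i, φ (v i) - n * ((∑ y ∈ Y, φ y) / Y.card)|)).card : ℝ)
      ≤ 2 * Real.exp (-(ε^2 * n / 4)) * (Y.card : ℝ) ^ n := by
  set m : ℝ := (∑ y ∈ Y, φ y) / Y.card with hm
  have hc : (0 : ℝ) < (Y.card : ℝ) := by exact_mod_cast Finset.card_pos.mpr hY
  have hm0 : 0 ≤ m := div_nonneg (Finset.sum_nonneg (fun y hy => (hφ y hy).1)) hc.le
  have hm1 : m ≤ 1 := by
    rw [hm, div_le_one hc]
    calc ∑ y ∈ Y, φ y ≤ ∑ _y ∈ Y, (1 : ℝ) := Finset.sum_le_sum (fun y hy => (hφ y hy).2)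
      _ = (Y.card : ℝ) := by simp
  have hs : ∑ y ∈ Y, (φ y - m) = 0 := by
    rw [Finset.sum_sub_distrib, Finset.sum_const, nsmul_eq_mul, hm]
    field_simp
    ring
  have hs' : ∑ y ∈ Y, (m - φ y) = 0 := by
    have : ∑ y ∈ Y, (m - φ y) = - ∑ y ∈ Y, (φ y - m) := by
      rw [← Finset.sum_neg_distrib]
      exact Finset.sum_congr rfl (fun y _ => by ring)
    rw [this, hs, neg_zero]
  have hb : ∀ y ∈ Y, |φ y - m| ≤ 1 := by
    intro y hy
    have := hφ y hy
    rw [abs_le]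
    constructor <;> linarith only [hm0, this, hm1]
  have hb' : ∀ y ∈ Y, |m - φ y| ≤ 1 := by
    intro y hy
    rw [abs_sub_comm]
    exact hb y hy
  have h1 := tupleTail_side Y (fun y => φ y - m) hb hs n ε hε hε1
  have h2 := tupleTail_side Y (fun y => m - φ y) hb' hs' n ε hε hε1
  have hsub : (Fintype.piFinset (fun _ : Fin n => Y)).filter
      (fun v => ε * n < |∑ i, φ (v i) - n * m|) ⊆
      (Fintype.piFinset (fun _ : Fin n => Y)).filter (fun v => ε * n < ∑ i, (φ (v i) - m)) ∪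
      (Fintype.piFinset (fun _ : Fin n => Y)).filter (fun v => ε * n < ∑ i, (m - φ (v i))) := by
    intro v hv
    rw [Finset.mem_filter] at hv
    rw [Finset.mem_union, Finset.mem_filter, Finset.mem_filter]
    have e1 : ∑ i, (φ (v i) - m) = ∑ i, φ (v i) - n * m := by
      rw [Finset.sum_sub_distrib, Finset.sum_const, nsmul_eq_mul, Finset.card_univ,
        Fintype.card_fin]
    have e2 : ∑ i, (m - φ (v i)) = -(∑ i, φ (v i) - n * m) := by
      rw [Finset.sum_sub_distrib, Finset.sum_const, nsmul_eq_mul, Finset.card_univ,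
        Fintype.card_fin]
      ring
    rcases lt_abs.mp hv.2 with h | h
    · left
      exact ⟨hv.1, by rw [e1]; exact h⟩
    · right
      exact ⟨hv.1, by rw [e2]; exact h⟩
  have hcard := (Finset.card_le_card hsub).trans (Finset.card_union_le _ _)
  have hcard' : (((Fintype.piFinset (fun _ : Fin n => Y)).filter
      (fun v => ε * n < |∑ i, φ (v i) - n * m|)).card : ℝ) ≤
      (((Fintype.piFinset (fun _ : Fin n => Y)).filter
        (fun v => ε * n < ∑ i, (φ (v i) - m))).card : ℝ) +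
      (((Fintype.piFinset (fun _ : Fin n => Y)).filter
        (fun v => ε * n < ∑ i, (m - φ (v i)))).card : ℝ) := by
    exact_mod_cast hcard
  linarith only [h1, h2, hcard']

variable {G : Type} [AddCommGroup G] [DecidableEq G]

/-- the indicator function -/
noncomputable def ind (S : Finset G) (x : G) : ℝ := if x ∈ S then 1 else 0

/-- the share of the translates which lie in `S` -/
noncomputable def F (A S : Finset G) (y : G) : ℝ := (∑ a ∈ A, ind S (y + a)) / #A

/-- the tuple is bad at the point -/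
def Bad (A S : Finset G) (ε : ℝ) {n : ℕ} (v : Fin n → G) (y : G) : Prop :=
  ε * n < |∑ i, ind S (y + v i) - n * F A S y|

theorem ind_bd (S : Finset G) (x : G) : 0 ≤ ind S x ∧ ind S x ≤ 1 := by
  unfold ind
  split_ifs <;> norm_num

theorem F_bd {A : Finset G} (hA : A.Nonempty) (S : Finset G) (y : G) :
    0 ≤ F A S y ∧ F A S y ≤ 1 := by
  have hc : (0 : ℝ) < #A := Nat.cast_pos.2 hA.card_pos
  refine ⟨div_nonneg (sum_nonneg fun _ _ => (ind_bd _ _).1) hc.le, (div_le_one hc).2 ?_⟩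
  simpa using sum_le_card_nsmul A _ 1 fun a _ => (ind_bd S (y + a)).2

theorem psi_eq (A1 A2 S : Finset G) (x : G) :
    psi A1 A2 S x = (∑ a ∈ A1, F A2 S (a + x)) / #A1 := by
  simp only [psi, F, ind, ← sum_div, card_filter, sum_product, div_div, mul_comm, add_right_comm]
  push_cast
  rfl

theorem card_swap {α β : Type} (s : Finset α) (t : Finset β) (r : α → β → Prop)
    [∀ a b, Decidable (r a b)] :
    ∑ a ∈ s, (#{b ∈ t | r a b} : ℝ) = ∑ b ∈ t, (#{a ∈ s | r a b} : ℝ) := by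
  simp only [card_filter]
  push_cast
  exact sum_comm

open Classical in
theorem good_card {A : Finset G} (U S : Finset G) (hA : A.Nonempty) {ε c : ℝ} (hε : 0 < ε)
    (hε1 : ε ≤ 1) (hc : 0 < c) (n : ℕ) (hn : 4 * Real.exp (-(ε ^ 2 * n / 4)) * #U ≤ c) :
    (1 / 2 : ℝ) * (#A : ℝ) ^ n ≤
      #{v ∈ Fintype.piFinset fun _ : Fin n => A | (#{y ∈ U | Bad A S ε v y} : ℝ) ≤ c} := by
  set P := Fintype.piFinset fun _ : Fin n => A with hP
  have h1 : (#P : ℝ) = (#A : ℝ) ^ n := by simp [hP]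
  have h2 : ∑ v ∈ P, (#{y ∈ U | Bad A S ε v y} : ℝ) ≤ c / 2 * (#A : ℝ) ^ n := by
    rw [card_swap]
    refine (sum_le_card_nsmul _ _ (2 * Real.exp (-(ε ^ 2 * n / 4)) * (#A : ℝ) ^ n)
      fun y _ => ?_).trans ?_
    · refine le_of_eq_of_le ?_ (tuple_tail A hA (fun a => ind S (y + a))
        (fun a _ => ind_bd _ _) n ε hε hε1)
      exact congrArg _ (congrArg _ (filter_congr_decidable ..))
    · rw [nsmul_eq_mul]
      have : (0 : ℝ) ≤ (#A : ℝ) ^ n := by positivity
      nlinarith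
  have h3 : (#{v ∈ P | (#{y ∈ U | Bad A S ε v y} : ℝ) ≤ c} : ℝ) +
      #{v ∈ P | ¬(#{y ∈ U | Bad A S ε v y} : ℝ) ≤ c} = #P := by
    exact_mod_cast card_filter_add_card_filter_not (s := P) _
  have h4 : #{v ∈ P | ¬(#{y ∈ U | Bad A S ε v y} : ℝ) ≤ c} • c ≤ c / 2 * (#A : ℝ) ^ n :=
    ((card_nsmul_le_sum _ _ _ fun v hv => (not_le.1 (mem_filter.1 hv).2).le).trans
      (sum_le_sum_of_subset_of_nonneg (filter_subset _ _) fun _ _ _ => Nat.cast_nonneg _)).trans h2
  rw [nsmul_eq_mul] at h4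
  nlinarith

theorem pigeon {n : ℕ} {A D U : Finset G} (hA : A.Nonempty) (hD : D.Nonempty)
    (hU : ∀ a ∈ A, ∀ t ∈ D, a + t ∈ U) (L : Finset (Fin n → G))
    (hL : L ⊆ Fintype.piFinset fun _ => A) (h : (1 / 2 : ℝ) * (#A : ℝ) ^ n ≤ #L) :
    ∃ z : Fin n → G, (1 / 2) * ((#A : ℝ) / #U) ^ n * #D ≤ #{t ∈ D | (fun i => z i - t) ∈ L} := by
  have hU0 : U.Nonempty := ⟨_, hU _ hA.choose_spec _ hD.choose_spec⟩
  have hc : (0 : ℝ) < #U := Nat.cast_pos.2 hU0.card_pos
  have hd : (0 : ℝ) < #D := Nat.cast_pos.2 hD.card_pos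
  by_contra h1
  push Not at h1
  have h2 := sum_lt_sum_of_nonempty (s := Fintype.piFinset fun _ : Fin n => U)
    (Fintype.piFinset_nonempty.2 fun _ => hU0) fun z _ => h1 z
  have h3 : ∀ t ∈ D, (#L : ℝ) ≤
      #{z ∈ Fintype.piFinset fun _ : Fin n => U | (fun i => z i - t) ∈ L} := fun t ht => by
    refine Nat.cast_le.2 (card_le_card_of_injOn (fun v i => v i + t) (fun v hv => ?_)
      fun v _ w _ e => funext fun i => add_right_cancel (congrFun e i))
    refine mem_coe.2 (mem_filter.2 ⟨Fintype.mem_piFinset.2 fun i =>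
      hU _ (Fintype.mem_piFinset.1 (hL hv) i) t ht, ?_⟩)
    simpa using hv
  have h4 := card_nsmul_le_sum _ _ _ h3
  rw [card_swap, sum_const, nsmul_eq_mul] at h2
  have e : (#(Fintype.piFinset fun _ : Fin n => U) : ℝ) * (1 / 2 * ((#A : ℝ) / #U) ^ n * #D) =
      #D * (1 / 2 * (#A : ℝ) ^ n) := by
    simp only [Fintype.card_piFinset, prod_const, card_univ, Fintype.card_fin, Nat.cast_pow, div_pow]
    field_simp
  rw [nsmul_eq_mul] at h4
  rw [e] at h2
  nlinarith

end Cs

open Cs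

theorem cs : CS := by
  classical
  intro G _ _ _ A1 A2 S D W U1 U2 ε n h1 h2 hD hU2 hU1 hε hε1 hn
  have c1 : (0 : ℝ) < #A1 := Nat.cast_pos.2 h1.card_pos
  have c2 : (0 : ℝ) < #A2 := Nat.cast_pos.2 h2.card_pos
  have cD : (0 : ℝ) < #D := Nat.cast_pos.2 hD.card_pos
  have cU : (0 : ℝ) < #U2 := Nat.cast_pos.2 (card_pos.2 ⟨_, hU2 _ h2.choose_spec _ hD.choose_spec⟩)
  obtain ⟨z, hz⟩ := pigeon h2 hD hU2 _ (filter_subset _ _)
    (good_card U1 S h2 hε hε1 (mul_pos hε c1) n hn)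
  refine ⟨_, filter_subset _ _, card_pos.1 (Nat.cast_pos.1 (lt_of_lt_of_le (by positivity) hz)),
    hz, fun t ht t' ht' w hw => ?_⟩
  obtain ⟨ht, g1⟩ := mem_filter.1 ht
  obtain ⟨ht', g2⟩ := mem_filter.1 ht'
  replace g1 := (mem_filter.1 g1).2
  replace g2 := (mem_filter.1 g2).2
  have key : ∀ (p : G → Prop) [DecidablePred p] (x : G), (∀ a ∈ A1, a + x ∈ U1) →
      ∑ a ∈ A1, (if p (a + x) then (1 : ℝ) else 0) ≤ #{y ∈ U1 | p y} := fun p _ x hx => by
    rw [sum_boole]
    exact Nat.cast_le.2 (card_le_card_of_injOn (· + x) (fun a ha => mem_coe.2 (mem_filter.2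
      ⟨hx a (mem_filter.1 ha).1, (mem_filter.1 ha).2⟩)) fun a _ b _ e => add_right_cancel e)
  have m1 : ∀ a ∈ A1, a + (w + t - t') ∈ U1 := fun a ha => by
    rw [add_sub, ← add_assoc]
    exact hU1 a ha w hw t ht t' ht'
  have m2 : ∀ a ∈ A1, a + w ∈ U1 := fun a ha => by simpa using hU1 a ha w hw t ht t ht
  have hn0 : (0 : ℝ) < n := by
    refine Nat.cast_pos.2 (Nat.pos_of_ne_zero ?_)
    rintro rfl
    have := key (fun _ => True) w m2
    simp only [if_true, sum_const, nsmul_eq_mul, mul_one, filter_true] at this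
    simp only [Nat.cast_zero, mul_zero, zero_div, neg_zero, Real.exp_zero, mul_one] at hn
    nlinarith
  have pt : ∀ a ∈ A1, |F A2 S (a + (w + t - t')) - F A2 S (a + w)| ≤ 2 * ε +
      (if Bad A2 S ε (fun i => z i - t) (a + (w + t - t')) then 1 else 0) +
      if Bad A2 S ε (fun i => z i - t') (a + w) then 1 else 0 := fun a _ => by
    have b1 := F_bd h2 S (a + (w + t - t'))
    have b2 := F_bd h2 S (a + w)
    rw [abs_le]
    split_ifs with p q q
    · constructor <;> linarith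
    · constructor <;> linarith
    · constructor <;> linarith
    · simp only [Bad, not_lt, abs_le] at p q
      rw [sum_congr rfl fun i _ => congrArg (ind S)
        (show a + (w + t - t') + (z i - t) = a + w + (z i - t') by abel)] at p
      constructor <;> nlinarith
  have h3 := (abs_sum_le_sum_abs _ _).trans (sum_le_sum pt)
  rw [sum_add_distrib, sum_add_distrib, sum_const, nsmul_eq_mul, sum_sub_distrib] at h3
  have h4 := key (Bad A2 S ε fun i => z i - t) _ m1
  have h5 := key (Bad A2 S ε fun i => z i - t') _ m2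
  rw [psi_eq, psi_eq, ← sub_div, abs_div, abs_of_pos c1, div_le_iff₀ c1]
  linarith

end Vale.Agent.P057Z.Km
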