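import Vale.Agent.P057Z.Km.K12a

/-! Block KM: Hoelder, sifting and densification. -/

set_option linter.all false

open Finset
open scoped BigOperators

namespace Vale.Agent.P057Z.Km

namespace K12A

theorem pm_pi {α : Type} [Fintype α] {b : α → ℝ} (hb : Pm b) (P : ℕ) :
    Pm fun τ : Fin P → α => ∏ i, b (τ i) :=
  ⟨fun τ => prod_nonneg fun i _ => hb.1 _, by rw [← Fintype.sum_pow, hb.2, one_pow]⟩

theorem cut_nonneg {α β : Type} [Fintype α] [Fintype β] {b : α → ℝ} {b' : β → ℝ} {n : α → β → ℝ}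
    {δ : ℝ} (h : Cut b b' n δ) : 0 ≤ δ :=
  (abs_nonneg _).trans (h (fun _ => 0) (fun _ => 0) (by simp) (by simp))

theorem prod_bd {P : ℕ} {f g : Fin P → ℝ} {c : ℝ} (h : ∀ i, 0 ≤ f i ∧ f i ≤ c * g i) :
    0 ≤ ∏ i, f i ∧ ∏ i, f i ≤ c ^ P * ∏ i, g i :=
  ⟨prod_nonneg fun i _ => (h i).1, (prod_le_prod (fun i _ => (h i).1) fun i _ => (h i).2).trans_eq
    (by rw [prod_mul_distrib, prod_const, card_univ, Fintype.card_fin])⟩

theorem num {K M δ L : ℝ} {P m : ℕ} (hK : 1 ≤ K) (hM : 1 ≤ M) (hδ : 0 ≤ δ) (hm : 1 ≤ m)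
    (hL : 1 ≤ 2 * K ^ (2 * P + 2) * L)
    (h : δ * (2 * (4 * K * M) ^ (3 * P + 6)) ^ (2 * (m + 2) ^ 2) ≤ 1) :
    8 * (4 * K) ^ P ≤ (4 * K) ^ (3 * P + 6) * L ∧ ((4 * K * M) ^ P) ^ 2 * δ ≤ L ∧
    4 * ((4 * K * M) ^ P) ^ 2 * ((2 + ((4 * K * M) ^ P * (4 * K) ^ (3 * P + 6)) ^ m +
      (2 ^ m * (4 * ((4 * K) ^ (3 * P + 6)) ^ 2))⁻¹⁻¹ ^ m) * (P * M ^ P * δ)) <
      (2 ^ m * (4 * ((4 * K) ^ (3 * P + 6)) ^ 2))⁻¹ * L := by
  have hK0 : 0 < K := by linarith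
  have a0 : 0 < 2 * K ^ (2 * P + 2) := by positivity
  have hL0 : 0 < L := pos_of_mul_pos_left ((one_pos.trans_le hL).trans_eq (mul_comm _ _)) a0.le
  have a1 : 4 * K ≤ 4 * K * M := le_mul_of_one_le_right (by linarith) hM
  have a2 : (1 : ℝ) ≤ 4 * K := by linarith
  have a3 : K ^ (2 * P + 2) ≤ (4 * K) ^ (2 * P + 2) := pow_le_pow_left₀ hK0.le (by linarith) _
  have a4 : (16 : ℝ) ≤ (4 * K) ^ 4 :=
    le_trans (by norm_num) (pow_le_pow_left₀ (by norm_num) (by linarith : 4 ≤ 4 * K) 4)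
  set N := (4 * K * M) ^ (3 * P + 6) with hN
  set K1 := (4 * K) ^ (3 * P + 6) with hK1
  set Na := (4 * K * M) ^ P with hNa
  have b1 : 1 ≤ K1 := one_le_pow₀ a2
  have b2 : K1 ≤ N := pow_le_pow_left₀ (by linarith) a1 _
  have b3 : Na ≤ N := pow_le_pow_right₀ (a2.trans a1) (by omega)
  have b4 : 1 ≤ Na := one_le_pow₀ (a2.trans a1)
  have b5 : P * M ^ P ≤ Na := by
    rw [hNa, mul_pow (4 * K)]
    refine mul_le_mul_of_nonneg_right ?_ (by positivity)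
    calc (P : ℝ) ≤ 2 ^ P := by exact_mod_cast (Nat.lt_two_pow_self).le
      _ ≤ _ := pow_le_pow_left₀ (by norm_num) (by linarith) _
  have b6 : K ^ (2 * P + 2) ≤ N :=
    a3.trans ((pow_le_pow_right₀ a2 (by omega)).trans b2)
  set Z := 2 * N with hZ
  have z1 : 2 ≤ Z := by linarith
  have z2 : 1 ≤ Z * L := hL.trans (mul_le_mul_of_nonneg_right (by linarith) hL0.le)
  have z3 : ∀ k, k ≤ 2 * (m + 2) ^ 2 → Z ^ k * δ ≤ 1 := fun k hk =>
    (mul_comm _ _).trans_le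
      ((mul_le_mul_of_nonneg_left (pow_le_pow_right₀ (by linarith) hk) hδ).trans h)
  have z4 : Na ^ 2 ≤ N ^ 2 := pow_le_pow_left₀ (by linarith) b3 2
  refine ⟨?_, ?_, ?_⟩
  · refine le_of_mul_le_mul_left ?_ a0
    have c1 : K1 = (4 * K) ^ P * (4 * K) ^ (2 * P + 2) * (4 * K) ^ 4 := by rw [hK1]; ring
    have c2 : (4 * K) ^ P * K ^ (2 * P + 2) * 16 ≤ K1 := by rw [c1]; gcongr
    nlinarith [mul_le_mul_of_nonneg_left hL (by linarith : 0 ≤ K1)]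
  · refine le_of_mul_le_mul_left ?_ (by linarith : 0 < Z)
    refine le_trans ?_ ((z3 3 (by nlinarith)).trans z2)
    have c1 : Na ^ 2 ≤ Z ^ 2 := pow_le_pow_left₀ (by linarith) (by linarith) 2
    calc _ ≤ Z * (Z ^ 2 * δ) := by gcongr
      _ = _ := by ring
  · rw [inv_inv]
    set H := 2 ^ m * (4 * K1 ^ 2) with hH
    have c0 : 0 < H := by positivity
    have c1 : H ≤ Z ^ (m + 2) := by
      have : K1 ^ 2 ≤ N ^ (m + 2) := (pow_le_pow_left₀ (by linarith) b2 2).trans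
        (pow_le_pow_right₀ (by linarith) (by omega))
      calc H = 2 ^ (m + 2) * K1 ^ 2 := by rw [hH]; ring
        _ ≤ 2 ^ (m + 2) * N ^ (m + 2) := by gcongr
        _ = _ := by rw [hZ, mul_pow]
    have c2 : H ^ m ≤ Z ^ ((m + 2) * m) := by rw [pow_mul]; gcongr
    have c3 : (Na * K1) ^ m ≤ Z ^ ((m + 2) * m) := by
      rw [pow_mul]
      refine pow_le_pow_left₀ (by positivity) ?_ _
      calc Na * K1 ≤ Z * Z := mul_le_mul (by linarith) (by linarith) (by linarith) (by linarith)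
        _ = Z ^ 2 := (sq _).symm
        _ ≤ _ := pow_le_pow_right₀ (by linarith) (by omega)
    have c4 : 2 ≤ Z ^ ((m + 2) * m) := z1.trans (le_self_pow₀ (by linarith) (by positivity))
    have c5 : 2 + (Na * K1) ^ m + H ^ m ≤ Z ^ 2 * Z ^ ((m + 2) * m) := by
      have : 4 ≤ Z ^ 2 := by nlinarith
      nlinarith
    have c6 : 4 * Na ^ 2 ≤ Z ^ 2 := by rw [hZ]; linarith
    have c7 : P * M ^ P * δ ≤ Z * δ := mul_le_mul_of_nonneg_right (by linarith) hδ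
    have c8 := z3 (2 + (2 + (m + 2) * m) + 1 + (m + 2) + 2) (by nlinarith)
    rw [lt_inv_mul_iff₀ c0]
    refine lt_of_mul_lt_mul_left ?_ (mul_self_nonneg Z)
    calc _ ≤ Z * Z * (Z ^ (m + 2) * (Z ^ 2 * (Z ^ 2 * Z ^ ((m + 2) * m) * (Z * δ)))) := by gcongr
      _ = Z ^ (2 + (2 + (m + 2) * m) + 1 + (m + 2) + 2) * δ := by ring
      _ ≤ 1 := c8
      _ < _ := by nlinarith

theorem cut_mean {α β : Type} [Fintype α] [Fintype β] {b1 f1 : α → ℝ} {b2 f2 : β → ℝ}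
    {n : α → β → ℝ} {δ N : ℝ} (c : Cut b1 b2 n δ) (hN : 0 < N) (h1 : ∀ a, 0 ≤ f1 a ∧ f1 a ≤ N)
    (h2 : ∀ a, 0 ≤ f2 a ∧ f2 a ≤ N) : ∑ a, ∑ a', b1 a * b2 a' * (f1 a * f2 a' * n a a') ≤
      (∑ a, b1 a * f1 a) * (∑ a', b2 a' * f2 a') + N ^ 2 * δ := by
  have h3 := (abs_le.1 (c (fun a => f1 a / N) (fun a' => f2 a' / N)
    (fun a => by
      rw [abs_of_nonneg (div_nonneg (h1 a).1 hN.le)]
      exact div_le_one_of_le₀ (h1 a).2 hN.le)
    (fun a => by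
      rw [abs_of_nonneg (div_nonneg (h2 a).1 hN.le)]
      exact div_le_one_of_le₀ (h2 a).2 hN.le))).2
  rw [← sub_le_iff_le_add', sum_mul_sum, ← sum_sub_distrib]
  refine le_trans (le_of_eq ?_) (mul_le_mul_of_nonneg_left h3 (sq_nonneg _))
  rw [mul_sum]
  refine sum_congr rfl fun a _ => ?_
  rw [mul_sum, ← sum_sub_distrib]
  refine sum_congr rfl fun a' _ => ?_
  field_simp

theorem expand {G : Type} [AddCommGroup G] [Fintype G] [DecidableEq G]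
    {b0 b0' b1 b2 v g ω3 χ : G → ℝ} {K : ℝ} (P : ℕ) (hb0 : Pm b0) (hb0' : Pm b0')
    (hd : ∀ t a, b2 a ≠ 0 → b0 t ≤ 4 * b0' (t + a)) (hK : 1 ≤ K) (hω3 : ∀ x, 0 ≤ ω3 x)
    (hχ : ∀ x, 0 ≤ χ x) (hv : ∀ x, 0 ≤ v x ∧ v x ≤ K * ω3 x) (hg : Bd g K) :
    ∃ f1 f2 : (Fin P → G) → G → ℝ,
      (∀ τ a, 0 ≤ f1 τ a ∧ f1 τ a ≤ (4 * K) ^ P * ∏ i, χ (a + τ i)) ∧
      (∀ τ a, 0 ≤ f2 τ a ∧ f2 τ a ≤ (4 * K) ^ P * ∏ i, ω3 (τ i - a)) ∧
      ∀ F : G → G → ℝ, ∑ a, ∑ a', b1 a * b2 a' *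
        (F a a' * cor b0 v (fun x => g x * χ x) (a + a') ^ P) = ∑ τ : Fin P → G,
          (∏ i, b0' (τ i)) * ∑ a, ∑ a', b1 a * b2 a' * (f1 τ a * f2 τ a' * F a a') := by
  set Ψ := cor b0 v fun x => g x * χ x with hΨ
  obtain ⟨r, hr⟩ : ∃ r : G → G → ℝ, r = fun a' τ =>
    if b2 a' = 0 then 0 else b0 (τ - a') / b0' τ * v (τ - a') := ⟨_, rfl⟩
  have r1 : ∀ a' τ, 0 ≤ r a' τ ∧ r a' τ ≤ 4 * K * ω3 (τ - a') := fun a' τ => by
    rw [hr]
    dsimp only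
    split_ifs with h
    · exact ⟨le_rfl, mul_nonneg (by linarith) (hω3 _)⟩
    · have h2 := hd (τ - a') a' h
      rw [sub_add_cancel] at h2
      refine ⟨mul_nonneg (div_nonneg (hb0.1 _) (hb0'.1 _)) (hv _).1, ?_⟩
      rw [mul_assoc]
      exact mul_le_mul (div_le_of_le_mul₀ (hb0'.1 _) (by norm_num) h2) (hv _).2 (hv _).1
        (by norm_num)
  have r2 : ∀ a a', b2 a' * Ψ (a + a') ^ P = b2 a' * ∑ τ : Fin P → G, (∏ i, b0' (τ i)) *
      ((∏ i, g (a + τ i) * χ (a + τ i)) * ∏ i, r a' (τ i)) := fun a a' => by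
    rcases eq_or_ne (b2 a') 0 with h | h
    · rw [h, zero_mul, zero_mul]
    have h2 : Ψ (a + a') = ∑ τ, b0' τ * (g (a + τ) * χ (a + τ) * r a' τ) := by
      rw [hΨ, cor, ← Equiv.sum_comp (Equiv.subRight a')]
      refine sum_congr rfl fun τ _ => ?_
      rw [hr, Equiv.subRight_apply, show a + a' + (τ - a') = a + τ by abel]
      simp only [if_neg h]
      rcases eq_or_ne (b0' τ) 0 with h3 | h3
      · have h2 := hd (τ - a') a' h
        rw [sub_add_cancel, h3, mul_zero] at h2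
        rw [le_antisymm h2 (hb0.1 _), h3, zero_mul, zero_mul]
      · field_simp
    rw [h2, Fintype.sum_pow]
    simp only [prod_mul_distrib]
  refine ⟨fun τ a => ∏ i, g (a + τ i) * χ (a + τ i), fun τ a => ∏ i, r a (τ i),
    fun τ a => prod_bd fun i => ⟨mul_nonneg (hg _).1 (hχ _),
      mul_le_mul_of_nonneg_right ((hg _).2.trans (by linarith)) (hχ _)⟩,
    fun τ a => prod_bd fun i => r1 _ _, fun F => ?_⟩
  simp only [mul_sum]
  rw [sum_comm (s := (univ : Finset (Fin P → G)))]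
  refine sum_congr rfl fun a _ => ?_
  rw [sum_comm (s := (univ : Finset (Fin P → G)))]
  refine sum_congr rfl fun a' _ => ?_
  rw [show b1 a * b2 a' * (F a a' * Ψ (a + a') ^ P) = b1 a * F a a' * (b2 a' * Ψ (a + a') ^ P) by
    ring, r2, mul_sum, mul_sum]
  exact sum_congr rfl fun τ _ => by ring

theorem bad_le {α β : Type} [Fintype α] [Fintype β] {b1 : α → ℝ} {b2 : β → ℝ} {Ψ : α → β → ℝ}
    {c : ℝ} (P : ℕ) (hb1 : Pm b1) (hb2 : Pm b2) (hΨ : ∀ a a', 0 ≤ Ψ a a') (hc : 0 ≤ c) :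
    ∑ a, ∑ a', b1 a * b2 a' * ((if Ψ a a' < c then 1 else 0) * Ψ a a' ^ P) ≤ c ^ P :=
  calc _ ≤ ∑ a, ∑ a', b1 a * b2 a' * c ^ P :=
        sum_le_sum fun a _ => sum_le_sum fun a' _ => by
          refine mul_le_mul_of_nonneg_left ?_ (mul_nonneg (hb1.1 _) (hb2.1 _))
          split_ifs with h
          · rw [one_mul]
            exact pow_le_pow_left₀ (hΨ _ _) h.le _
          · rw [zero_mul]
            exact pow_nonneg hc _
    _ = _ := by simp only [← sum_mul, ← mul_sum, hb1.2, hb2.2, one_mul]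

theorem supp {α β : Type} [DecidableEq α] [DecidableEq β] {b1 : α → ℝ} {b2 : β → ℝ}
    {F : α → β → ℝ} {H c : ℝ} (hH : 0 < H) (h : ∀ a a', 0 ≤ b1 a * b2 a' * F a a')
    {A1 : Finset α} {A2 : Finset β} (k1 : H⁻¹ ≤ ∑ a ∈ A1, b1 a) (k2 : H⁻¹ ≤ ∑ a ∈ A2, b2 a)
    (k3 : ∑ a ∈ A1, ∑ a' ∈ A2, b1 a * b2 a' * F a a' ≤ c * ((∑ a ∈ A1, b1 a) * ∑ a ∈ A2, b2 a)) :
    ∃ (A1 : Finset α) (A2 : Finset β), (∀ a ∈ A1, b1 a ≠ 0) ∧ (∀ a ∈ A2, b2 a ≠ 0) ∧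
      1 ≤ H * ∑ a ∈ A1, b1 a ∧ 1 ≤ H * ∑ a ∈ A2, b2 a ∧
      ∑ a ∈ A1, ∑ a' ∈ A2, b1 a * b2 a' * F a a' ≤ c * ((∑ a ∈ A1, b1 a) * ∑ a ∈ A2, b2 a) := by
  refine ⟨A1.filter (b1 · ≠ 0), A2.filter (b2 · ≠ 0), fun a ha => (mem_filter.1 ha).2,
    fun a ha => (mem_filter.1 ha).2, ?_, ?_, ?_⟩
  · rw [sum_filter_ne_zero]
    exact (inv_le_iff_one_le_mul₀' hH).1 k1
  · rw [sum_filter_ne_zero]
    exact (inv_le_iff_one_le_mul₀' hH).1 k2
  · rw [sum_filter_ne_zero, sum_filter_ne_zero]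
    exact ((sum_le_sum fun a _ => sum_le_sum_of_subset_of_nonneg (filter_subset _ _)
      fun a' _ _ => h a a').trans (sum_le_sum_of_subset_of_nonneg (filter_subset _ _)
      fun a _ _ => sum_nonneg fun a' _ => h a a')).trans k3

end K12A

open K12A

theorem k12_of (hH : HOL) (hT : TEN) (h0 : DEN0) (h1 : DEN1) : K12 := by
  intro G _ _ _ b0 b0' b1 b2 u v g ω2 ω3 χ K M e s th δ P m hb0 hb0' hb1 hb2 hd hK hM hω2 hω3 hχ
    hu hv hg c2 c1 c3 hU hW hth hcor he0 he1 hs hs' hP hm hes hm' hδ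
  have hK0 : 0 < K := by linarith only [hK]
  have hK4 : 1 ≤ 4 * K := by linarith only [hK]
  have hδ0 := cut_nonneg c2
  obtain ⟨f1, f2, hf1, hf2, r3⟩ := expand (b1 := b1) P hb0 hb0' hd hK (fun x => (hω3 x).1)
    (fun x => (hχ x).1) hv hg
  have hΨ0 : ∀ x, 0 ≤ cor b0 v (fun x => g x * χ x) x := fun x => sum_nonneg fun t _ =>
    mul_nonneg (hb0.1 t) (mul_nonneg (hv t).1 (mul_nonneg (hg _).1 (hχ _).1))
  generalize ∑ t, b0 t * v t = W at hW hcor ⊢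
  generalize cor b0 v (fun x => g x * χ x) = Ψ at hcor r3 hΨ0 ⊢
  have hW0 : 0 < W := pos_of_mul_pos_left ((one_pos.trans_le hW).trans_eq (mul_comm _ _)) hK0.le
  have ht0 : 0 < th := pos_of_mul_pos_left ((one_pos.trans_le hth).trans_eq (mul_comm _ _)) hK0.le
  have hol := hH (G × G) (fun p => b1 p.1 * b2 p.2) (fun p => u (p.1 + p.2))
    (fun p => ω2 (p.1 + p.2)) (fun p => Ψ (p.1 + p.2)) K (th * W) P
    ⟨fun p => mul_nonneg (hb1.1 _) (hb2.1 _), by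
      simp only [Fintype.sum_prod_type, ← mul_sum, hb2.2, mul_one, hb1.2]⟩
    (fun p => hu _) (fun p => hΨ0 _) hK0 (mul_pos ht0 hW0).le
    (by simpa only [Fintype.sum_prod_type] using hU)
    (by simpa only [Fintype.sum_prod_type] using hcor)
  simp only [Fintype.sum_prod_type] at hol
  obtain ⟨L, hL⟩ : ∃ L, (th * W) ^ P = K ^ 2 * (2 * L) :=
    ⟨(th * W) ^ P / (2 * K ^ 2), by field_simp⟩
  have hL1 : 1 ≤ 2 * K ^ (2 * P + 2) * L := by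
    have : 1 ≤ (K * th * (K * W)) ^ P := one_le_pow₀ (one_le_mul_of_one_le_of_one_le hth hW)
    refine this.trans_eq ?_
    rw [show K * th * (K * W) = K ^ 2 * (th * W) by ring, mul_pow, hL]
    ring
  have hL0 : 0 < L := pos_of_mul_pos_left ((one_pos.trans_le hL1).trans_eq (mul_comm _ _))
    (by positivity)
  obtain ⟨n1, n2, n3⟩ := num hK hM hδ0 hm hL1 hδ
  have pM : ∀ f : Fin P → ℝ, (∀ i, 0 ≤ f i ∧ f i ≤ M) → (4 * K) ^ P * ∏ i, f i ≤ (4 * K * M) ^ P :=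
    fun f hf => by
    rw [mul_pow (4 * K)]
    refine mul_le_mul_of_nonneg_left ?_ (by positivity)
    simpa using (prod_bd (g := fun _ => 1) (c := M) fun i => by simpa using hf i).2
  have g1 : ∀ τ a, f1 τ a ≤ (4 * K * M) ^ P := fun τ a => (hf1 τ a).2.trans (pM _ fun i => hχ _)
  have g2 : ∀ τ a, f2 τ a ≤ (4 * K * M) ^ P := fun τ a => (hf2 τ a).2.trans (pM _ fun i => hω3 _)
  have hπ := pm_pi hb0' P
  have hNa : 0 < (4 * K * M) ^ P := by positivity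
  have hK1 : (1 : ℝ) ≤ (4 * K) ^ (3 * P + 6) := one_le_pow₀ hK4
  have hH1 : (1 : ℝ) ≤ 2 ^ m * (4 * ((4 * K) ^ (3 * P + 6)) ^ 2) :=
    one_le_mul_of_one_le_of_one_le (one_le_pow₀ one_le_two)
      (one_le_mul_of_one_le_of_one_le (by norm_num) (one_le_pow₀ hK1))
  have hal : L ≤ ∑ τ : Fin P → G, (∏ i, b0' (τ i)) *
      ((∑ x, b1 x * f1 τ x) * ∑ y, b2 y * f2 τ y) := by
    have h3 := sum_le_sum fun τ (_ : τ ∈ univ) => mul_le_mul_of_nonneg_left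
      (cut_mean c2 hNa (fun a => ⟨(hf1 τ a).1, g1 τ a⟩) fun a => ⟨(hf2 τ a).1, g2 τ a⟩) (hπ.1 τ)
    rw [← r3 fun a a' => ω2 (a + a')] at h3
    simp only [mul_add, sum_add_distrib, ← sum_mul, hπ.2, one_mul] at h3
    rw [hL] at hol
    have h5 := le_of_mul_le_mul_left hol (by positivity)
    linarith only [h5, h3, n2]
  have hbe : ∑ τ : Fin P → G, (∏ i, b0' (τ i)) * ∑ x, ∑ y, b1 x * b2 y * (f1 τ x * f2 τ y *
      (1 - (1 - if Ψ (x + y) < (1 - e) * (th * W) then 1 else 0))) ≤ s * L := by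
    simp only [sub_sub_cancel]
    rw [← r3 fun a a' => if Ψ (a + a') < (1 - e) * (th * W) then 1 else 0]
    refine (bad_le (Ψ := fun a a' => Ψ (a + a')) P hb1 hb2 (fun _ _ => hΨ0 _)
      (mul_nonneg (sub_nonneg.2 he1) (mul_pos ht0 hW0).le)).trans ?_
    rw [mul_pow, hL]
    exact le_trans (le_of_eq (by ring)) (mul_le_mul_of_nonneg_right hes hL0.le)
  have t1 : Cut (fun τ : Fin P → G => ∏ i, b0' (τ i)) b1 (fun τ a => ∏ i, χ (a + τ i))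
      (P * M ^ P * δ) :=
    hT G G b0' b1 (fun τ a => χ (a + τ)) M δ P hb0' hb1 hM (fun τ a => hχ (a + τ)) c1
  have t2 : Cut (fun τ : Fin P → G => ∏ i, b0' (τ i)) b2 (fun τ a => ∏ i, ω3 (τ i - a))
      (P * M ^ P * δ) :=
    hT G G b0' b2 (fun τ a => ω3 (τ - a)) M δ P hb0' hb2 hM (fun τ a => hω3 (τ - a)) c3
  have t3 : ∀ a, Bd (fun a' => 1 - if Ψ (a + a') < (1 - e) * (th * W) then (1 : ℝ) else 0) 1 :=
    fun a a' => by dsimp only; split_ifs <;> norm_num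
  have t4 : (4 * K) ^ P ≤ (4 * K) ^ (3 * P + 6) := pow_le_pow_right₀ hK4 (by omega)
  have t5 : 0 < (4 * K) ^ P := by positivity
  have t6 : ∀ (τ : Fin P → G) a, 0 ≤ ∏ i, χ (a + τ i) := fun τ a =>
    prod_nonneg fun i _ => (hχ _).1
  have t7 : ∀ (τ : Fin P → G) a, 0 ≤ ∏ i, ω3 (τ i - a) := fun τ a =>
    prod_nonneg fun i _ => (hω3 _).1
  obtain ⟨A1, A2, k1, k2, k3⟩ := core h0 h1 hπ hb1 hb2 t5 t4 n1 t6 t7 hf1 hf2 g1 g2 t1 t2 t3 hs hs'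
    hm' rfl (inv_le_one_of_one_le₀ hH1) hal hbe n3
  simp only [sub_sub_cancel] at k3
  exact supp (one_pos.trans_le hH1) (fun a a' => mul_nonneg (mul_nonneg (hb1.1 _) (hb2.1 _))
    (by split_ifs <;> norm_num)) k1 k2 k3

end Vale.Agent.P057Z.Km
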