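import Vale.Agent.P057Z.Km.Sk2
import Vale.Agent.P057Z.Ke.Fol

/-! Block KM: the final assembly. -/

set_option linter.all false

open Finset
open scoped BigOperators

namespace Vale.Agent.P057Z.Km

namespace Kf

theorem card_split {G : Type} [AddCommGroup G] [DecidableEq G] (B0 B6 : Finset G) (a : G)
    (P R : G × G → Prop) [DecidablePred P] [DecidablePred R]
    (h : ∀ p, P p → R (p.1 + a, p.2)) :
    #{p ∈ B0 ×ˢ B6 | P p} ≤ #{p ∈ B0 ×ˢ B6 | R p} + #{t ∈ B0 | t + a ∉ B0} * #B6 := by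
  rw [← card_filter_add_card_filter_not (s := {p ∈ B0 ×ˢ B6 | P p}) (fun p => p.1 + a ∈ B0),
    ← card_product]
  refine add_le_add ?_ (card_le_card fun p hp => ?_)
  · refine card_le_card_of_injOn (fun p => (p.1 + a, p.2)) (fun p hp => ?_) fun p _ q _ hpq => ?_
    · simp only [coe_filter, mem_filter, mem_product, Set.mem_setOf_eq] at hp ⊢
      exact ⟨⟨hp.2, hp.1.1.2⟩, h p hp.1.2⟩
    · simp only [Prod.mk.injEq, add_left_inj] at hpq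
      exact Prod.ext hpq.1 hpq.2
  · simp only [mem_filter, mem_product] at hp ⊢
    exact ⟨⟨hp.1.1.1, hp.2⟩, hp.1.1.2⟩

theorem expect_ite {G : Type} (B0 B6 : Finset G) (R : G → G → Prop) [∀ z t, Decidable (R z t)] :
    (𝔼 z ∈ B0, 𝔼 t ∈ B6, if R z t then (1 : ℝ) else 0) =
      #{p ∈ B0 ×ˢ B6 | R p.1 p.2} / (#B0 * #B6) := by
  rw [← expect_product' B0 B6 (fun z t => if R z t then (1 : ℝ) else 0), expect_eq_sum_div_card,
    card_product, sum_boole]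
  push_cast
  rfl

theorem four_le {Y : ℝ} (hY : 200 ≤ Y) : 4 * Y ≤ Real.exp Y := by
  have h1 := Real.add_one_le_exp (Y / 2)
  have h2 : Real.exp Y = Real.exp (Y / 2) * Real.exp (Y / 2) := by
    rw [← Real.exp_add]; congr 1; ring
  nlinarith

theorem pow_big {Y : ℝ} {C : ℕ} (hY : 200 ≤ Y) (hC : 200 ≤ C) : 13 * Y + Y ^ 101 ≤ Y ^ C := by
  have h1 : Y ≤ Y ^ 101 := le_self_pow₀ (by linarith) (by norm_num)
  have h2 : Y ^ 102 ≤ Y ^ C := pow_le_pow_right₀ (by linarith) (by omega)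
  have h3 : Y ^ 102 = Y * Y ^ 101 := by ring
  nlinarith

theorem lap_bd {Q : ℕ} [Fact Q.Prime] {ι : Type} [Fintype ι] [DecidableEq ι] {ρ : ℝ} (hρ : 0 ≤ ρ)
    (u : ι → ZMod Q) : 0 ≤ lap ρ u ∧ lap ρ u ≤ 1 := by
  refine ⟨(Real.exp_pos _).le, Real.exp_le_one_iff.mpr ?_⟩
  exact div_nonpos_of_nonpos_of_nonneg (neg_nonpos.mpr (Ke.l1_nonneg u)) hρ

variable {Q n : ℕ} [Fact Q.Prime] {κ : Type} [Fintype κ] [DecidableEq κ] {d : Dat Q n κ} {C : ℕ}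
  {X Y Z : ℝ}

theorem one_le_pow (h : d.Ok C X Y Z) : 1 ≤ Real.exp (Z ^ C) := by
  obtain ⟨h1, h2, h3, -⟩ := h.par
  have : (0 : ℝ) ≤ Z := le_trans (Nat.cast_nonneg C) (by linarith)
  exact Real.one_le_exp (by positivity)

theorem le_of_mul (h : d.Ok C X Y Z) {a b : ℕ} (hab : a * Real.exp (Z ^ C) ≤ b) : a ≤ b := by
  have h1 := one_le_pow h
  have h2 : (a : ℝ) ≤ b := le_trans (le_mul_of_one_le_right (Nat.cast_nonneg a) h1) hab
  exact_mod_cast h2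

theorem bet_bd (h : d.Ok C X Y Z) (hC : 1 ≤ C) : Bd (bet d.L d.c0 d.ρ2 d.T2) (Real.exp Y) := by
  intro t
  obtain ⟨h1, h2, h3, -⟩ := h.par
  have hY : (0 : ℝ) ≤ Y := le_trans (Nat.cast_nonneg C) (by linarith)
  have hρ : 0 ≤ d.ρ2 := le_trans (mul_nonneg (pow_nonneg hY C)
    ((Real.exp_pos _).le.trans h.r4)) h.r2
  have hm : 0 < mas d.L d.c0 d.ρ2 d.T2 := (Real.exp_pos _).trans_le h.m0
  have hl := lap_bd hρ (d.L t - d.c0)
  refine ⟨div_nonneg hl.1 hm.le, ?_⟩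
  rw [bet, div_le_iff₀ hm]
  refine hl.2.trans ?_
  calc (1 : ℝ) = Real.exp Y * Real.exp (-Y) := by rw [← Real.exp_add]; simp
    _ ≤ _ := mul_le_mul_of_nonneg_left h.m0 (Real.exp_pos _).le

theorem unif_nonneg {α : Type} [DecidableEq α] (B : Finset α) (x : α) : 0 ≤ unif B x := by
  unfold unif
  split_ifs <;> positivity

theorem sum_b0 (d : Dat Q n κ) (f : V Q n → ℝ) :
    ∑ t, d.b0 t * f t = 𝔼 t ∈ bx Q n d.T2, bet d.L d.c0 d.ρ2 d.T2 t * f t := by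
  rw [← sum_unif]
  exact sum_congr rfl fun t _ => by rw [Dat.b0, mul_assoc]

theorem pm_b0 (h : d.Ok C X Y Z) (hC : 1 ≤ C) : Pm d.b0 := by
  refine ⟨fun t => mul_nonneg (unif_nonneg _ _) (bet_bd h hC t).1, ?_⟩
  have hm : 0 < mas d.L d.c0 d.ρ2 d.T2 := (Real.exp_pos _).trans_le h.m0
  have h1 := sum_b0 d fun _ => 1
  simp only [mul_one] at h1
  rw [h1]
  simp only [bet, div_eq_mul_inv]
  rw [← expect_mul]
  exact mul_inv_cancel₀ hm.ne'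

theorem b0_le (h : d.Ok C X Y Z) (hC : 1 ≤ C) (t : V Q n) :
    d.b0 t ≤ Real.exp Y / #(bx Q n d.T2) := by
  unfold Dat.b0 unif
  split_ifs
  · rw [one_div, mul_comm, ← div_eq_mul_inv]
    exact div_le_div_of_nonneg_right (bet_bd h hC t).2 (Nat.cast_nonneg _)
  · rw [zero_mul]; positivity

theorem bad_le (h : d.Ok C X Y Z) {a1 a2 : V Q n} (h1 : a1 ∈ bx Q n d.T3)
    (h2 : a2 ∈ bx Q n d.T4) :
    (#{t ∈ bx Q n d.T2 | t + (a1 + a2) ∉ bx Q n d.T2} : ℝ) ≤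
      2 * Z * Real.exp (-Z ^ C) * #(bx Q n d.T2) := by
  have hQ : d.T2 ≤ Q := by have := h.hQ; omega
  have hb := Ke.card_bx_bad hQ (Ke.near_add (Ke.near_of_mem_bx h1) (Ke.near_of_mem_bx h2))
  rw [← Ke.card_bx (n := n) hQ] at hb
  have hb' : (#{t ∈ bx Q n d.T2 | t + (a1 + a2) ∉ bx Q n d.T2} : ℝ) * d.T2 ≤
      n * (d.T3 + d.T4) * #(bx Q n d.T2) := by exact_mod_cast hb
  have h43 : (d.T4 : ℝ) ≤ d.T3 := by exact_mod_cast le_of_mul h h.t3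
  have hT : 1 ≤ d.T2 :=
    h.t6.trans ((le_of_mul h h.t4).trans ((le_of_mul h h.t3).trans (le_of_mul h h.t2)))
  have hT' : (0 : ℝ) < d.T2 := by exact_mod_cast hT
  have h32 : (d.T3 : ℝ) ≤ Real.exp (-Z ^ C) * d.T2 := by
    rw [Real.exp_neg, inv_mul_eq_div, le_div_iff₀ (Real.exp_pos _)]
    exact h.t2
  refine le_of_mul_le_mul_right (hb'.trans ?_) hT'
  have h5 : (n : ℝ) * (d.T3 + d.T4) ≤ Z * (2 * (Real.exp (-Z ^ C) * d.T2)) :=
    mul_le_mul h.hn (by linarith) (by positivity) ((Nat.cast_nonneg n).trans h.hn)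
  calc (n : ℝ) * (d.T3 + d.T4) * #(bx Q n d.T2)
      ≤ Z * (2 * (Real.exp (-Z ^ C) * d.T2)) * #(bx Q n d.T2) :=
        mul_le_mul_of_nonneg_right h5 (Nat.cast_nonneg _)
    _ = _ := by ring

theorem cut_b0 (h : d.Ok C X Y Z) (hC : 1 ≤ C) (c : V Q n) :
    Cut d.b0 (unif (bx Q n d.T6)) (fun t t1 => d.χ (c + t + t1))
      (Real.exp Y * Real.exp (-Z ^ C)) := by
  have h62 : d.T6 ≤ d.T2 :=
    (le_of_mul h h.t4).trans ((le_of_mul h h.t3).trans (le_of_mul h h.t2))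
  have := cut Q n d.χ (bet d.L d.c0 d.ρ2 d.T2) (fun _ => 1) d.T6 (2 * d.T2) d.T2 d.T6 _ _ 1 c 1
    h.xχ h62 (by omega) le_rfl (by omega) (Or.inl rfl) (bet_bd h hC) fun _ => ⟨zero_le_one, le_rfl⟩
  simp only [mul_one, one_smul] at this
  exact this

/-- the main step, on packed data -/
theorem main (k4 : K4) {ε : ℝ} (hε : 0 < ε) (hε1 : ε ≤ 1 / 100) (h : d.Ok C X Y Z) (hC : 200 ≤ C)
    (hCε : 1 / ε ≤ C) {A1 A2 : Finset (V Q n)} (k : V Q n → ℝ) (hk : Bd k 1)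
    (s1 : A1 ⊆ bx Q n d.T3) (s2 : A2 ⊆ bx Q n d.T4) (n1 : A1.Nonempty) (n2 : A2.Nonempty)
    (hγ : Real.exp (-Y ^ 101) ≤ 𝔼 t1 ∈ bx Q n d.T6, 𝔼 t2 ∈ bx Q n d.T6, k (t1 - t2))
    (hψ : ∀ t1 ∈ bx Q n d.T6, ∀ t2 ∈ bx Q n d.T6,
      1 - 2 * (36 * (ε / 1000)) ≤ psi A1 A2 (d.S (ε / 1000)) (t1 - t2) ∨
        k (t1 - t2) ≤ 36 * (ε / 1000) * Real.exp (-Y ^ 101))
    (R : V Q n → V Q n → Prop) [∀ z t, Decidable (R z t)]
    (hR : ∀ z t2, Real.exp (-Y ^ C) ≤ 𝔼 t1 ∈ bx Q n d.T6,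
      k (t1 - t2) * (d.χ (z + t1 - t2) * (d.g (z + t1 - t2) - (1 - ε) * d.θ)) → R z t2) :
    Real.exp (-Y ^ C) ≤ 𝔼 z ∈ bx Q n d.T2, 𝔼 t2 ∈ bx Q n d.T6, if R z t2 then (1 : ℝ) else 0 := by
  obtain ⟨p1, p2, p3, -⟩ := h.par
  have hC' : (200 : ℝ) ≤ C := by exact_mod_cast hC
  have hY : 200 ≤ Y := by linarith
  have hZ : 200 ≤ Z := by linarith
  have hC1 : 1 ≤ C := by omega
  have hYZ : Y ^ C ≤ Z ^ C := pow_le_pow_left₀ (by linarith) p3 C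
  have hYZ' : Y ^ 101 ≤ Z ^ 101 := pow_le_pow_left₀ (by linarith) p3 101
  have hbY := pow_big hY hC
  have hbZ := pow_big hZ hC
  have hεY : Real.exp (-Y) ≤ ε / 4 := by
    have h1 := four_le hY
    have h2 : 1 ≤ ε * Y := by
      rw [div_le_iff₀ hε] at hCε
      nlinarith
    rw [Real.exp_neg, inv_le_comm₀ (Real.exp_pos _) (by positivity), inv_div, div_le_iff₀ hε]
    nlinarith
  have hM1 : Real.exp X ≤ Real.exp (2 * Y) := Real.exp_le_exp.mpr (by linarith)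
  have hM2 : Real.exp Y ≤ Real.exp (2 * Y) := Real.exp_le_exp.mpr (by linarith)
  have hM3 : 1 ≤ Real.exp (2 * Y) * Real.exp (-X) := by
    rw [← Real.exp_add]; exact Real.one_le_exp (by linarith)
  have hv : Real.exp (-X) ≤ ∑ t, d.b0 t * d.v t := by rw [sum_b0]; exact h.ev
  have hγ0 : 0 < Real.exp (-Y ^ 101) := Real.exp_pos _
  have hB6 : (bx Q n d.T6).Nonempty := Ke.bx_nonempty h.t6
  have hB0 : (bx Q n d.T2).Nonempty := Ke.bx_nonempty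
    (h.t6.trans ((le_of_mul h h.t4).trans ((le_of_mul h h.t3).trans (le_of_mul h h.t2))))
  obtain ⟨a1, ha1, a2, ha2, hK⟩ := k4 (V Q n) d.b0 d.v d.g d.χ k (bx Q n d.T2) (bx Q n d.T6) A1 A2
    (d.S (ε / 1000)) (Real.exp (2 * Y)) (Real.exp Y) (72 * (ε / 1000)) ε d.θ
    (Real.exp (-Y ^ 101)) (Real.exp Y * Real.exp (-Z ^ C)) (pm_b0 h hC1) (b0_le h hC1)
    (fun t ht => by simp [Dat.b0, unif, ht]) hB6 n1 n2
    (fun x => ⟨(h.hv x).1, (h.hv x).2.trans (by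
      calc Real.exp X * d.om3 x ≤ Real.exp X * Real.exp Y :=
            mul_le_mul_of_nonneg_left (h.o3 x).2 (Real.exp_pos _).le
        _ ≤ _ := by rw [← Real.exp_add]; exact Real.exp_le_exp.mpr (by linarith))⟩)
    (fun x => ⟨(h.hg x).1, (h.hg x).2.trans hM1⟩) (fun x => ⟨(h.oχ x).1, (h.oχ x).2.trans hM2⟩) hk
    (hM3.trans (mul_le_mul_of_nonneg_left hv (Real.exp_pos _).le))
    (hM3.trans (mul_le_mul_of_nonneg_left h.hθ (Real.exp_pos _).le))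
    (by positivity) (by linarith) (by linarith) hγ0
    (by
      calc Real.exp Y * Real.exp (-Z ^ C) * Real.exp (2 * Y) ^ 2
          = Real.exp (Y + -Z ^ C + 2 * (2 * Y)) := by
            rw [← Real.exp_add, ← Real.exp_nat_mul, ← Real.exp_add]; norm_num
        _ ≤ Real.exp (-Y + -Y ^ 101) := Real.exp_le_exp.mpr (by linarith)
        _ ≤ ε / 4 * Real.exp (-Y ^ 101) := by
            rw [Real.exp_add]; exact mul_le_mul_of_nonneg_right hεY hγ0.le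
        _ = _ := by ring)
    (fun x hx => by
      have h1 := (mem_filter.mp hx).2
      have h2 : 0 ≤ d.θ * ∑ t, d.b0 t * d.v t :=
        mul_nonneg ((Real.exp_pos _).le.trans h.hθ) ((Real.exp_pos _).le.trans hv)
      exact le_trans (mul_le_mul_of_nonneg_right (by linarith) h2) h1)
    hγ
    (fun t1 h1 t2 h2 => (hψ t1 h1 t2 h2).imp (fun h => by linarith) fun h => h.trans
      (mul_le_mul_of_nonneg_right (by linarith) hγ0.le))
    (cut_b0 h hC1)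
  have hth : Real.exp (-Y ^ C) ≤ ε * Real.exp (-Y ^ 101) / (4 * Real.exp (2 * Y)) := by
    calc Real.exp (-Y ^ C) ≤ Real.exp (-Y + -Y ^ 101 - 2 * Y) := Real.exp_le_exp.mpr (by linarith)
      _ = Real.exp (-Y) * Real.exp (-Y ^ 101) / Real.exp (2 * Y) := by
          rw [Real.exp_sub, Real.exp_add]
      _ ≤ ε / 4 * Real.exp (-Y ^ 101) / Real.exp (2 * Y) := by gcongr
      _ = _ := by field_simp
  have hs := card_split (bx Q n d.T2) (bx Q n d.T6) (a1 + a2)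
    (fun p => ε * Real.exp (-Y ^ 101) / (4 * Real.exp (2 * Y)) ≤ 𝔼 t1 ∈ bx Q n d.T6,
      k (t1 - p.2) * (d.χ (a1 + a2 + p.1 + t1 - p.2) *
        (d.g (a1 + a2 + p.1 + t1 - p.2) - (1 - ε) * d.θ)))
    (fun p => R p.1 p.2) fun p hp => hR _ _ (hth.trans (by rw [add_comm p.1]; exact hp))
  have hbad := bad_le h (s1 ha1) (s2 ha2)
  rw [expect_ite]
  set N0 : ℝ := ((#(bx Q n d.T2) : ℕ) : ℝ) with hN0
  set N6 : ℝ := ((#(bx Q n d.T6) : ℕ) : ℝ) with hN6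
  have hN0' : 0 < N0 := by rw [hN0]; exact_mod_cast hB0.card_pos
  have hN6' : 0 < N6 := by rw [hN6]; exact_mod_cast hB6.card_pos
  generalize #{p ∈ bx Q n d.T2 ×ˢ bx Q n d.T6 |
    ε * Real.exp (-Y ^ 101) / (4 * Real.exp (2 * Y)) ≤ 𝔼 t1 ∈ bx Q n d.T6,
      k (t1 - p.2) * (d.χ (a1 + a2 + p.1 + t1 - p.2) *
        (d.g (a1 + a2 + p.1 + t1 - p.2) - (1 - ε) * d.θ))} = m at hK hs
  generalize #{p ∈ bx Q n d.T2 ×ˢ bx Q n d.T6 | R p.1 p.2} = m' at hs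
  generalize #{t ∈ bx Q n d.T2 | t + (a1 + a2) ∉ bx Q n d.T2} = mb at hs hbad
  have hs' : (m : ℝ) ≤ m' + mb * N6 := by rw [hN6]; exact_mod_cast hs
  obtain ⟨w, hw⟩ : ∃ w, w = Real.exp (-(12 * Y + Y ^ 101)) := ⟨_, rfl⟩
  have hw0 : 0 < w := hw ▸ Real.exp_pos _
  have h1 : w * (N0 * N6) ≤ m := by
    refine le_of_mul_le_mul_left (le_trans ?_ hK) (by positivity)
    rw [← mul_assoc]
    refine mul_le_mul_of_nonneg_right ?_ (by positivity)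
    calc 4 * Real.exp Y * Real.exp (2 * Y) ^ 5 * w
        = 4 * (Real.exp (-Y) * Real.exp (-Y ^ 101)) := by
          rw [hw, ← Real.exp_nat_mul, mul_assoc, mul_assoc, ← Real.exp_add, ← Real.exp_add,
            ← Real.exp_add]
          congr 2
          push_cast
          ring
      _ ≤ 4 * (ε / 4 * Real.exp (-Y ^ 101)) := by gcongr
      _ = _ := by ring
  have h2 : 2 * Z * Real.exp (-Z ^ C) ≤ w / 2 := by
    have h3 := four_le hZ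
    have h4 : Real.exp Z * Real.exp (-Z ^ C) ≤ w := by
      rw [hw, ← Real.exp_add]; exact Real.exp_le_exp.mpr (by linarith)
    have h5 := mul_le_mul_of_nonneg_right h3 (Real.exp_pos (-Z ^ C)).le
    linarith
  have h3 : Real.exp (-Y ^ C) ≤ w / 2 := by
    calc Real.exp (-Y ^ C) ≤ Real.exp (-(12 * Y + Y ^ 101) + -Y) :=
          Real.exp_le_exp.mpr (by linarith)
      _ = w * Real.exp (-Y) := by rw [Real.exp_add, hw]
      _ ≤ w * (1 / 2) := mul_le_mul_of_nonneg_left (by linarith) hw0.le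
      _ = _ := by ring
  rw [le_div_iff₀ (by positivity)]
  have h4 : (mb : ℝ) * N6 ≤ w / 2 * N0 * N6 :=
    mul_le_mul_of_nonneg_right (hbad.trans (mul_le_mul_of_nonneg_right h2 hN0'.le)) hN6'.le
  have h5 := mul_le_mul_of_nonneg_right h3 (mul_pos hN0' hN6').le
  linarith

end Kf

theorem km_of (k4 : K4) (ks1 : KS1) (ks2 : KS2) (ks3 : KS3) : KM := by
  intro ε hε hε1
  obtain ⟨C1, h1⟩ := ks1 (ε / 1000) (by positivity) (by linarith)
  obtain ⟨C3, h3⟩ := ks3 (36 * (ε / 1000)) (by positivity)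
  obtain ⟨C, hC, hC1, hC3, hCε⟩ : ∃ C : ℕ, 200 ≤ C ∧ C1 ≤ C ∧ C3 ≤ C ∧ ⌈1 / ε⌉₊ ≤ C :=
    ⟨200 + C1 + C3 + ⌈1 / ε⌉₊, by omega, by omega, by omega, by omega⟩
  refine ⟨50, C, by norm_num, by omega, ?_⟩
  intro X Y Z Q _ n κ _ _ L c0 c1 c2 ρ2 ρ3 ρ4 θ T2 T3 T4 T6 om2 om3 χ u v g par hn hκ r4 r41 r3 r2
    t6 t4 t3 t2 hQ m0 m1 m2 o2 o3 oχ x2 x3 xχ hu hv hg hθ eu ev big
  let d : Dat Q n κ := ⟨L, c0, c1, c2, ρ2, ρ3, ρ4, θ, T2, T3, T4, T6, om2, om3, χ, u, v, g⟩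
  have h : d.Ok C X Y Z := ⟨par, hn, hκ, r4, r41, r3, r2, t6, t4, t3, t2, hQ, m0, m1, m2, o2, o3,
    oχ, x2, x3, xχ, hu, hv, hg, hθ, eu, ev, big⟩
  obtain ⟨B1, B2, hW⟩ := h1 C hC1 Q n κ d X Y Z h
  have hU := ks2 C (by omega) Q n κ d X Y Z h _ _ B1 B2 (by positivity) hW
  obtain ⟨A1, A2, ξ, s1, s2, n1, n2, hγ, hψ⟩ := h3 C hC3 Q n κ d X Y Z h _ hU
  refine ⟨ξ, Kf.main k4 hε hε1 h hC (Nat.ceil_le.mp hCε)
    (fun x => lap (Real.exp (-X ^ 50)) (fun i => ξ i ⬝ᵥ x) * lap (ρ4 * Real.exp (-X ^ 50)) (L x))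
    (fun x => ?_) s1 s2 n1 n2 hγ hψ _ fun z t2 hz => ?_⟩
  · have a := Kf.lap_bd (Real.exp_pos (-X ^ 50)).le (fun i => ξ i ⬝ᵥ x)
    have b := Kf.lap_bd (mul_nonneg ((Real.exp_pos _).le.trans r4) (Real.exp_pos (-X ^ 50)).le)
      (L x)
    exact ⟨mul_nonneg a.1 b.1, mul_le_one₀ a.2 b.1 b.2⟩
  · refine hz.trans (le_of_eq (expect_congr rfl fun t1 _ => ?_))
    exact (mul_assoc _ _ _).symm

end Vale.Agent.P057Z.Km
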