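import Vale.Agent.P057Z.Km.Sk2
import Vale.Agent.P057Z.Ke.Fol

/-! Block KM: weighted sets from the data. -/

set_option linter.all false

open Finset
open scoped BigOperators

namespace Vale.Agent.P057Z.Km

namespace Ks1

open Ke

theorem num {e X Y : ℝ} (he : 0 < e) (he1 : e ≤ 1 / 100) (hX : 1000 ≤ e * X) (hY : X ≤ Y) :
    ∃ P m : ℕ, 1 ≤ P ∧ 1 ≤ m ∧ (1 - e / 2) ^ P * (2 * (2 * Real.exp X) ^ 2) ≤ e / 8 ∧
      (1 - 2 * (e / 8)) ^ m * (2 * ((4 * (2 * Real.exp X)) ^ (3 * P + 6)) ^ 2) ≤ 1 ∧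
      (2 * (4 * (2 * Real.exp X) * Real.exp Y) ^ (3 * P + 6)) ^ (2 * (m + 2) ^ 2) ≤
        Real.exp (Y ^ 12) ∧
      2 * (2 ^ m * (4 * ((4 * (2 * Real.exp X)) ^ (3 * P + 6)) ^ 2)) ≤ Real.exp (X ^ 5) := by
  have hX1 : 1000 ≤ X := by nlinarith only [he, he1, hX]
  have hX0 : 0 < X := by linarith only [hX1]
  have p2 : 1000 ≤ X ^ 2 := by nlinarith only [hX1]
  have p3 : 1000 ≤ X ^ 3 := by nlinarith only [hX1, p2]
  have p4 : 1000 * X ^ 3 ≤ X ^ 4 := by nlinarith only [hX1, p3]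
  have p5 : 1000 * X ^ 4 ≤ X ^ 5 := by nlinarith only [hX1, p3, p4]
  have hP := Nat.le_ceil (X ^ 2)
  have hP' := (Nat.ceil_lt_add_one (by positivity : 0 ≤ X ^ 2)).le
  have hm := Nat.le_ceil (X ^ 4)
  have hm' := (Nat.ceil_lt_add_one (by positivity : 0 ≤ X ^ 4)).le
  generalize ⌈X ^ 2⌉₊ = P at hP hP'
  generalize ⌈X ^ 4⌉₊ = m at hm hm'
  have e2 : (2 : ℝ) ≤ Real.exp 1 := by linarith only [Real.add_one_le_exp (1 : ℝ)]
  have pw : ∀ (a b : ℝ) (k : ℕ), 0 ≤ a → a ≤ Real.exp b → a ^ k ≤ Real.exp (k * b) :=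
    fun a b k h0 h1 => by rw [Real.exp_nat_mul]; exact pow_le_pow_left₀ h0 h1 k
  have e8 : (8 : ℝ) ≤ Real.exp X := by linarith only [Real.add_one_le_exp X, hX1]
  have k1 : 4 * (2 * Real.exp X) ≤ Real.exp (2 * X) := by
    rw [two_mul X, Real.exp_add]; nlinarith only [e8]
  have cP : ((3 * P + 6 : ℕ) : ℝ) ≤ 4 * X ^ 2 := by push_cast; linarith only [hP', p2]
  have k2 : ((4 * (2 * Real.exp X)) ^ (3 * P + 6)) ^ 2 ≤ Real.exp (16 * X ^ 3) := by
    refine (pw _ _ 2 (by positivity) (pw _ _ _ (by positivity) k1)).trans (Real.exp_le_exp.2 ?_)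
    push_cast at cP ⊢
    nlinarith only [cP, hX0]
  have om : ∀ (x : ℝ) (k : ℕ), x ≤ 1 → (1 - x) ^ k ≤ Real.exp (k * -x) := fun x k h =>
    pw _ _ k (by linarith only [h]) (by linarith only [Real.add_one_le_exp (-x)])
  refine ⟨P, m, ?_, ?_, ?_, ?_, ?_, ?_⟩
  · exact_mod_cast (by linarith only [hP, p2] : (1 : ℝ) ≤ P)
  · exact_mod_cast (by linarith only [hm, p3, p4] : (1 : ℝ) ≤ m)
  · have h1 : (1 - e / 2) ^ P ≤ Real.exp (-(500 * X)) :=
      (om _ P (by linarith only [he1])).trans (Real.exp_le_exp.2 (by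
        nlinarith only [mul_le_mul_of_nonneg_left hP he.le, mul_le_mul_of_nonneg_left hX hX0.le]))
    have h2 : Real.exp (-(500 * X)) * (Real.exp X ^ 2 * Real.exp (498 * X)) = 1 := by
      rw [← Real.exp_nat_mul, ← Real.exp_add, ← Real.exp_add, ← Real.exp_zero]; congr 1
      push_cast; ring
    have h3 : 498 * X ≤ Real.exp (498 * X) := by linarith only [Real.add_one_le_exp (498 * X)]
    have h4 : 0 ≤ Real.exp (-(500 * X)) * Real.exp X ^ 2 := by positivity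
    have h5 : Real.exp (-(500 * X)) * Real.exp X ^ 2 * X ≤ 1 := by nlinarith only [h2, h3, h4, hX0]
    have h6 : Real.exp (-(500 * X)) * Real.exp X ^ 2 * 1000 ≤ e := by
      nlinarith only [mul_le_mul_of_nonneg_left hX h4, mul_le_mul_of_nonneg_left h5 he.le]
    calc _ ≤ Real.exp (-(500 * X)) * (2 * (2 * Real.exp X) ^ 2) := by gcongr
      _ ≤ _ := by nlinarith only [h6, h4]
  · calc _ ≤ Real.exp (m * -(2 * (e / 8))) * (Real.exp 1 * Real.exp (16 * X ^ 3)) :=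
          mul_le_mul (om _ m (by linarith only [he1])) (by gcongr) (by positivity) (by positivity)
      _ ≤ Real.exp 0 := by
          rw [← Real.exp_add, ← Real.exp_add]
          refine Real.exp_le_exp.2 ?_
          nlinarith only [mul_le_mul_of_nonneg_left hm he.le, p3,
            mul_le_mul_of_nonneg_left hX (by positivity : 0 ≤ X ^ 3)]
      _ = 1 := Real.exp_zero
  · have y1 : 1000 ≤ Y := hX1.trans hY
    have y0 : 0 ≤ Y := by linarith only [y1]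
    have h1 : 4 * (2 * Real.exp X) * Real.exp Y ≤ Real.exp (3 * Y) := by
      refine (mul_le_mul_of_nonneg_right k1 (Real.exp_pos Y).le).trans ?_
      rw [← Real.exp_add]
      exact Real.exp_le_exp.2 (by linarith only [hY])
    have q2 : X ^ 2 ≤ Y ^ 2 := by gcongr
    have q3 : X ^ 3 ≤ Y ^ 3 := by gcongr
    have q4 : X ^ 4 ≤ Y ^ 4 := by gcongr
    have h2 : 2 * (4 * (2 * Real.exp X) * Real.exp Y) ^ (3 * P + 6) ≤ Real.exp (13 * Y ^ 3) := by
      refine (mul_le_mul e2 (pw _ _ _ (by positivity) h1) (by positivity) (by positivity)).trans ?_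
      rw [← Real.exp_add]
      refine Real.exp_le_exp.2 ?_
      nlinarith only [mul_le_mul_of_nonneg_right (cP.trans (by linarith only [q2] :
        4 * X ^ 2 ≤ 4 * Y ^ 2)) y0, p3, q3]
    refine (pw _ _ _ (by positivity) h2).trans (Real.exp_le_exp.2 ?_)
    have h3 : (m : ℝ) + 2 ≤ 2 * Y ^ 4 := by linarith only [hm', q4, p3, p4]
    calc ((2 * (m + 2) ^ 2 : ℕ) : ℝ) * (13 * Y ^ 3) = 2 * ((m : ℝ) + 2) ^ 2 * (13 * Y ^ 3) := by
          push_cast; ring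
      _ ≤ 2 * (2 * Y ^ 4) ^ 2 * (13 * Y ^ 3) := by gcongr
      _ = 104 * Y ^ 11 := by ring
      _ ≤ Y * Y ^ 11 := by gcongr; linarith only [y1]
      _ = _ := by ring
  · have h4 : (4 : ℝ) ≤ Real.exp 3 := by linarith only [Real.add_one_le_exp (3 : ℝ)]
    calc _ ≤ Real.exp 1 * (Real.exp (m * 1) * (Real.exp 3 * Real.exp (16 * X ^ 3))) := by
          gcongr
          exact pw _ _ _ zero_le_two e2
      _ ≤ _ := by
          rw [← Real.exp_add, ← Real.exp_add, ← Real.exp_add]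
          exact Real.exp_le_exp.2 (by linarith only [hm', p3, p4, p5])

theorem unif_nonneg {α : Type} [DecidableEq α] (B : Finset α) (x : α) : 0 ≤ unif B x := by
  unfold unif; split_ifs <;> positivity

theorem pm_of {α : Type} [Fintype α] [DecidableEq α] (B : Finset α) (w : α → ℝ)
    (hw : ∀ x, 0 ≤ w x) (hm : 0 < 𝔼 x ∈ B, w x) :
    Pm fun x => unif B x * (w x / 𝔼 x ∈ B, w x) :=
  ⟨fun x => mul_nonneg (unif_nonneg B x) (div_nonneg (hw x) hm.le), by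
    rw [sum_unif, ← expect_div, div_self hm.ne']⟩

theorem cut_mono {α β : Type} [Fintype α] [Fintype β] {b : α → ℝ} {b' : β → ℝ} {n n' : α → β → ℝ}
    {δ δ' : ℝ} (h : Cut b b' n δ) (e : ∀ x y, n x y = n' x y) (hδ : δ ≤ δ') : Cut b b' n' δ' :=
  fun u v hu hv => by simpa only [e] using (h u v hu hv).trans hδ

variable {Q n : ℕ} [Fact Q.Prime] {κ : Type} [Fintype κ] [DecidableEq κ]

theorem lap_pos (ρ : ℝ) (u : κ → ZMod Q) : 0 < lap ρ u := Real.exp_pos _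

theorem lap_le_one {ρ : ℝ} (h : 0 < ρ) (u : κ → ZMod Q) : lap ρ u ≤ 1 :=
  Real.exp_le_one_iff.2 (div_nonpos_of_nonpos_of_nonneg (neg_nonpos.2 (l1_nonneg u)) h.le)

theorem lap_shift {ρ : ℝ} (h : 0 < ρ) (u : κ → ZMod Q) {v : κ → ZMod Q} (hv : 2 * l1 v ≤ ρ) :
    lap ρ u ≤ 5 / 3 * lap ρ (u + v) := by
  have h1 : Real.exp (1 / 2) ≤ 5 / 3 := by
    have h2 : Real.exp (1 / 2) * Real.exp (1 / 2) = Real.exp 1 := by
      rw [← Real.exp_add]; norm_num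
    nlinarith only [h2, Real.exp_one_lt_d9, Real.exp_pos (1 / 2)]
  refine le_trans ?_ (mul_le_mul_of_nonneg_right h1 (lap_pos _ _).le)
  unfold lap
  rw [← Real.exp_add]
  refine Real.exp_le_exp.2 ?_
  rw [div_add_div _ _ two_ne_zero h.ne', div_le_div_iff₀ h (by positivity)]
  nlinarith only [mul_le_mul_of_nonneg_right (l1_add_le u v) h.le,
    mul_le_mul_of_nonneg_right hv h.le]

theorem add_mem_bx {T T' : ℕ} {x y : V Q n} (hx : x ∈ bx Q n T) (hy : y ∈ bx Q n T') :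
    x + y ∈ bx Q n (T + T') := by
  obtain ⟨t, ht, rfl⟩ := mem_bx'.1 hx
  obtain ⟨s, hs, rfl⟩ := mem_bx'.1 hy
  exact mem_bx'.2 ⟨t + s, fun i => add_lt_add (ht i) (hs i), funext fun i => by simp⟩

theorem grow {T t : ℕ} {η : ℝ} (hT : 0 < T) (hη : η ≤ 1) (h : 2 * n * (t : ℝ) ≤ η * T) :
    (((T + t) ^ n : ℕ) : ℝ) ≤ (1 + η) * (T ^ n : ℕ) := by
  have hT' : (0 : ℝ) < T := by exact_mod_cast hT
  have h0 : 0 ≤ (n : ℝ) * (t / T) := by positivity
  have h1 : (n : ℝ) * (t / T) ≤ η / 2 := by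
    rw [← mul_div_assoc, div_le_iff₀ hT']; linarith only [h]
  have h2 := Real.abs_exp_sub_one_le (x := n * (t / T)) (by rw [abs_of_nonneg h0]; linarith)
  rw [abs_of_nonneg h0] at h2
  push_cast
  calc ((T : ℝ) + t) ^ n = (t / T + 1) ^ n * T ^ n := by
        rw [← mul_pow]; congr 1; field_simp; ring
    _ ≤ Real.exp (t / T) ^ n * T ^ n := by gcongr; exact Real.add_one_le_exp _
    _ ≤ _ := by
        rw [← Real.exp_nat_mul]
        gcongr
        linarith only [h1, (abs_le.1 h2).2]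

/-- comparison of the masses of a weight and of its shift on a larger set -/
theorem shift {G : Type} [AddCommGroup G] [DecidableEq G] {B B' : Finset G} {w' : G → ℝ} {a : G}
    (hB : ∀ t ∈ B, t + a ∈ B') (h0 : ∀ x, 0 ≤ w' x) (h1 : ∀ x, w' x ≤ 1) :
    ∑ t ∈ B, w' (t + a) ≤ ∑ x ∈ B', w' x ∧
      ∑ x ∈ B', w' x ≤ ∑ t ∈ B, w' (t + a) + ((#B' : ℝ) - #B) := by
  have hs : B.image (· + a) ⊆ B' := image_subset_iff.2 hB
  have hi : Set.InjOn (· + a) (B : Set G) := (add_left_injective a).injOn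
  have hc : (#(B' \ B.image (· + a)) : ℝ) + #B = #B' := by
    rw [← card_image_of_injOn hi, ← Nat.cast_add, card_sdiff_add_card_eq_card hs]
  rw [← sum_image (f := w') hi, ← sum_sdiff hs]
  refine ⟨le_add_of_nonneg_left (sum_nonneg fun x _ => h0 x), ?_⟩
  have := sum_le_card_nsmul (B' \ B.image (· + a)) w' 1 fun x _ => h1 x
  rw [nsmul_eq_mul, mul_one] at this
  linarith only [this, hc]

/-- the effect of cutting the second weight -/
theorem cutoff {α : Type} {B B' : Finset α} {b w w' : α → ℝ} {F : α → α → ℝ} {η M : ℝ}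
    (hB : B'.Nonempty) (hb : ∀ x, 0 ≤ b x) (h1 : 𝔼 x ∈ B, b x = 1) (hF : ∀ x, Bd (F x) M)
    (hw : ∀ x, w' x ≤ w x ∧ w x ≤ w' x + η) :
    𝔼 x ∈ B, 𝔼 y ∈ B', b x * w' y * F x y ≤ 𝔼 x ∈ B, 𝔼 y ∈ B', b x * w y * F x y ∧
      𝔼 x ∈ B, 𝔼 y ∈ B', b x * w y * F x y ≤ 𝔼 x ∈ B, 𝔼 y ∈ B', b x * w' y * F x y + η * M := by
  refine ⟨expect_le_expect fun x _ => expect_le_expect fun y _ =>
    mul_le_mul_of_nonneg_right (mul_le_mul_of_nonneg_left (hw y).1 (hb x)) (hF x y).1, ?_⟩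
  rw [← one_mul (η * M), ← h1, expect_mul, ← expect_add_distrib]
  refine expect_le_expect fun x _ => ?_
  rw [← expect_const hB (b x * (η * M)), ← expect_add_distrib]
  refine expect_le_expect fun y _ => ?_
  have h0 : 0 ≤ η := by linarith only [(hw y).1, (hw y).2]
  nlinarith only [mul_le_mul_of_nonneg_left (mul_le_mul_of_nonneg_right (hw y).2 (hF x y).1) (hb x),
    mul_le_mul_of_nonneg_left (mul_le_mul_of_nonneg_left (hF x y).2 h0) (hb x)]

/-- elementary consequences of the hypotheses -/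
structure Bas (d : Dat Q n κ) (C : ℕ) (X Y Z : ℝ) : Prop where
  X1 : 1000 ≤ X
  XY : X ≤ Y
  Y12 : Y ≤ Y ^ 12
  Y14 : 1000 * Y ^ 12 ≤ Z ^ C
  Z2 : 1000 * Z ≤ Z ^ C
  t : 1 ≤ d.T6 ∧ d.T6 ≤ d.T4 ∧ d.T4 ≤ d.T3 ∧ d.T3 ≤ d.T2 ∧ 4 * d.T2 ≤ Q
  r4 : 0 < d.ρ4
  r3 : 0 < d.ρ3
  r2 : 0 < d.ρ2
  rr : 40 * Y * d.ρ4 ≤ d.ρ2
  m0 : 0 < mas d.L d.c0 d.ρ2 d.T2
  m1 : 0 < mas d.L d.c1 d.ρ3 d.T3
  m2 : 0 < mas d.L d.c2 d.ρ4 d.T4

variable {d : Dat Q n κ} {C : ℕ} {X Y Z : ℝ}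

theorem bas (h : d.Ok C X Y Z) (hC : 1000 ≤ C) : Bas d C X Y Z := by
  obtain ⟨hCX, hXY, hYZ, hZ⟩ := h.par
  have X1 : 1000 ≤ X := le_trans (by exact_mod_cast hC) hCX
  have Y1 : 1000 ≤ Y := X1.trans hXY
  have Y13 : Y ^ 13 ≤ Y ^ C := pow_le_pow_right₀ (by linarith only [Y1]) (by omega)
  have YZ : Y ^ C ≤ Z ^ C := by gcongr
  have Y12 : Y ≤ Y ^ 12 := le_self_pow₀ (by linarith only [Y1]) (by norm_num)
  have Y14 : 1000 * Y ^ 12 ≤ Y ^ C := by nlinarith only [Y12, Y1, Y13]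
  have Z2 : 1000 * Z ≤ Z ^ C := by
    have : Z ^ 2 ≤ Z ^ C := pow_le_pow_right₀ (by linarith only [Y1, hYZ]) (by omega)
    nlinarith only [this, Y1, hYZ]
  have eZ : 1 ≤ Real.exp (Z ^ C) := Real.one_le_exp (by linarith only [Z2, Y1, hYZ])
  have mono : ∀ {a b : ℕ}, a * Real.exp (Z ^ C) ≤ b → a ≤ b := fun {a b} hab => by
    exact_mod_cast (le_mul_of_one_le_right a.cast_nonneg eZ).trans hab
  have eY' := Real.exp_pos (-Y)
  have r4 : 0 < d.ρ4 := eY'.trans_le h.r4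
  have rr : 40 * Y * d.ρ4 ≤ Y ^ C * d.ρ4 :=
    mul_le_mul_of_nonneg_right (by linarith only [Y14, Y12, Y1]) r4.le
  have r0 : 0 < 40 * Y * d.ρ4 := by positivity
  exact ⟨X1, hXY, Y12, Y14.trans YZ, Z2, ⟨h.t6, mono h.t4, mono h.t3, mono h.t2, h.hQ⟩, r4,
    r0.trans_le (rr.trans h.r3), r0.trans_le (rr.trans h.r2), rr.trans h.r2, eY'.trans_le h.m0,
    eY'.trans_le h.m1, eY'.trans_le h.m2⟩

/-- the cut weight -/
noncomputable def wc (d : Dat Q n κ) (Y : ℝ) (a : V Q n) : ℝ :=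
  if l1 (d.L a - d.c2) ≤ 20 * Y * d.ρ4 then lap d.ρ4 (d.L a - d.c2) else 0

noncomputable def mc (d : Dat Q n κ) (Y : ℝ) : ℝ := 𝔼 a ∈ bx Q n d.T4, wc d Y a

noncomputable def b1 (d : Dat Q n κ) (a : V Q n) : ℝ :=
  unif (bx Q n d.T3) a * bet d.L d.c1 d.ρ3 d.T3 a

noncomputable def b2 (d : Dat Q n κ) (Y : ℝ) (a : V Q n) : ℝ :=
  unif (bx Q n d.T4) a * (wc d Y a / mc d Y)

noncomputable def b3 (d : Dat Q n κ) (a : V Q n) : ℝ :=
  unif (bx Q n (d.T2 + d.T4)) a * bet d.L (d.c0 + d.c2) d.ρ2 (d.T2 + d.T4) a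

theorem w0 (a : V Q n) : 0 ≤ wc d Y a := by
  unfold wc; split_ifs; exacts [(lap_pos _ _).le, le_rfl]

theorem w1 (r4 : 0 < d.ρ4) (a : V Q n) : wc d Y a ≤ lap d.ρ4 (d.L a - d.c2) ∧
    lap d.ρ4 (d.L a - d.c2) ≤ wc d Y a + Real.exp (-(20 * Y)) := by
  unfold wc
  split_ifs with h'
  · exact ⟨le_rfl, le_add_of_nonneg_right (Real.exp_pos _).le⟩
  · refine ⟨(lap_pos _ _).le, (Real.exp_le_exp.2 ?_).trans (zero_add _).ge⟩
    rw [div_le_iff₀ r4]; linarith only [not_le.1 h']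

theorem sup {a : V Q n} (ha : b2 d Y a ≠ 0) : a ∈ bx Q n d.T4 ∧ l1 (d.L a - d.c2) ≤ 20 * Y * d.ρ4 :=
  ⟨by_contra fun h' => ha (by simp [b2, unif, h']), by_contra fun h' => ha (by simp [b2, wc, h'])⟩

theorem mw (h : d.Ok C X Y Z) (B : Bas d C X Y Z) : mc d Y ≤ mas d.L d.c2 d.ρ4 d.T4 ∧
    mas d.L d.c2 d.ρ4 d.T4 ≤ 2 * mc d Y := by
  refine ⟨expect_le_expect fun a _ => (w1 B.r4 a).1, ?_⟩
  have n2 : (bx Q n d.T4).Nonempty := bx_nonempty (by have := B.t; omega)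
  have h1 : mas d.L d.c2 d.ρ4 d.T4 ≤ mc d Y + Real.exp (-(20 * Y)) := by
    rw [← expect_const n2 (Real.exp (-(20 * Y))), mc, ← expect_add_distrib]
    exact expect_le_expect fun a _ => (w1 B.r4 a).2
  have h2 : Real.exp (-(20 * Y)) * Real.exp 1 ≤ Real.exp (-Y) := by
    rw [← Real.exp_add]; exact Real.exp_le_exp.2 (by linarith only [B.X1, B.XY])
  nlinarith only [h1, h2, h.m2, Real.add_one_le_exp (1 : ℝ), Real.exp_pos (-(20 * Y))]

theorem sm (c : κ → ZMod Q) (ρ : ℝ) {T : ℕ} (hT : 1 ≤ T) :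
    ∑ t ∈ bx Q n T, lap ρ (d.L t - c) = mas d.L c ρ T * #(bx Q n T) := by
  rw [mas, expect_eq_sum_div_card, div_mul_cancel₀]
  exact_mod_cast (bx_nonempty hT).card_pos.ne'

theorem sh (B : Bas d C X Y Z) (t : V Q n) {a : V Q n} (ha : b2 d Y a ≠ 0) :
    lap d.ρ2 (d.L t - d.c0) ≤ 5 / 3 * lap d.ρ2 (d.L (t + a) - (d.c0 + d.c2)) ∧
      lap d.ρ2 (d.L (t + a) - (d.c0 + d.c2)) ≤ 5 / 3 * lap d.ρ2 (d.L t - d.c0) := by
  have h1 : 2 * l1 (d.L a - d.c2) ≤ d.ρ2 := by linarith only [(sup ha).2, B.rr]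
  have e1 : d.L (t + a) - (d.c0 + d.c2) = d.L t - d.c0 + (d.L a - d.c2) := by
    rw [map_add]; abel
  refine ⟨e1 ▸ lap_shift B.r2 _ h1, ?_⟩
  have := lap_shift B.r2 (d.L (t + a) - (d.c0 + d.c2)) (v := -(d.L a - d.c2)) (by rwa [l1_neg])
  rwa [show d.L (t + a) - (d.c0 + d.c2) + -(d.L a - d.c2) = d.L t - d.c0 by rw [e1]; abel] at this

theorem P2 (h : d.Ok C X Y Z) (B : Bas d C X Y Z) : Pm (b2 d Y) :=
  pm_of (bx Q n d.T4) _ w0 (by have := (mw h B).2; unfold mc at this; linarith only [this, B.m2])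

theorem m3 (h : d.Ok C X Y Z) (B : Bas d C X Y Z) :
    mas d.L (d.c0 + d.c2) d.ρ2 (d.T2 + d.T4) * #(bx Q n (d.T2 + d.T4)) ≤
      2 * (mas d.L d.c0 d.ρ2 d.T2 * #(bx Q n d.T2)) ∧
    Real.exp (-Y) / 4 ≤ mas d.L (d.c0 + d.c2) d.ρ2 (d.T2 + d.T4) := by
  obtain ⟨a0, ha0⟩ : ∃ a, b2 d Y a ≠ 0 := by
    by_contra hh
    push Not at hh
    have := (P2 h B).2
    simp only [hh, sum_const_zero] at this
    exact zero_ne_one this
  have ht := B.t
  have eY' := Real.exp_pos (-Y)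
  have y1 : Real.exp (-Y) ≤ 1 := Real.exp_le_one_iff.2 (by linarith only [B.X1, B.XY])
  have c0 : (0 : ℝ) < #(bx Q n d.T2) := by exact_mod_cast (bx_nonempty (by omega)).card_pos
  have c0' : (0 : ℝ) < #(bx Q n (d.T2 + d.T4)) := by
    exact_mod_cast (bx_nonempty (by omega)).card_pos
  have gr : (#(bx Q n (d.T2 + d.T4)) : ℝ) ≤ (1 + Real.exp (-Y) / 4) * #(bx Q n d.T2) := by
    rw [card_bx (by omega), card_bx (by omega)]
    refine grow (by omega) (by linarith only [y1]) ?_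
    have h1 : (d.T4 : ℝ) * Real.exp (Z ^ C) ≤ d.T2 := h.t3.trans (by exact_mod_cast ht.2.2.2.1)
    have h2 : 8 * (n : ℝ) ≤ Real.exp (-Y) * Real.exp (Z ^ C) := by
      rw [← Real.exp_add]
      linarith only [Real.add_one_le_exp (-Y + Z ^ C), B.Z2, h.par.2.2.1, h.hn, B.X1, B.XY]
    nlinarith only [mul_le_mul_of_nonneg_left h1 eY'.le,
      mul_le_mul_of_nonneg_left h2 (d.T4.cast_nonneg (α := ℝ))]
  obtain ⟨s1, s2⟩ := shift (B := bx Q n d.T2) (B' := bx Q n (d.T2 + d.T4)) (a := a0)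
    (w' := fun x => lap d.ρ2 (d.L x - (d.c0 + d.c2))) (fun t ht => add_mem_bx ht (sup ha0).1)
    (fun _ => (lap_pos _ _).le) fun _ => lap_le_one B.r2 _
  have s3 := sum_le_sum (s := bx Q n d.T2) fun t _ => (sh B t ha0).1
  have s4 := sum_le_sum (s := bx Q n d.T2) fun t _ => (sh B t ha0).2
  rw [← mul_sum, sm _ _ (by omega)] at s3 s4
  rw [sm _ _ (by omega)] at s1 s2
  have hm0 := mul_le_mul_of_nonneg_right h.m0 c0.le
  refine ⟨by linarith only [s2, s4, gr, hm0, mul_pos B.m0 c0], le_of_mul_le_mul_right ?_ c0'⟩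
  have g2 : (#(bx Q n (d.T2 + d.T4)) : ℝ) ≤ 2 * #(bx Q n d.T2) := by nlinarith only [gr, y1, c0]
  nlinarith only [s1, s3, hm0, mul_le_mul_of_nonneg_left g2 eY'.le, mul_pos eY' c0]

theorem dom (h : d.Ok C X Y Z) (B : Bas d C X Y Z) (t a : V Q n) (ha : b2 d Y a ≠ 0) :
    d.b0 t ≤ 4 * b3 d (t + a) := by
  have ht := B.t
  obtain ⟨s5, s6⟩ := m3 h B
  have m0 := B.m0
  have m0' := lt_of_lt_of_le (by positivity) s6
  have l0 := lap_pos d.ρ2 (d.L (t + a) - (d.c0 + d.c2))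
  have c0 : (0 : ℝ) < #(bx Q n d.T2) := by exact_mod_cast (bx_nonempty (by omega)).card_pos
  have c0' : (0 : ℝ) < #(bx Q n (d.T2 + d.T4)) := by
    exact_mod_cast (bx_nonempty (by omega)).card_pos
  unfold Dat.b0 b3 unif bet
  split_ifs with h1 h2
  · rw [one_div_mul_eq_div, one_div_mul_eq_div, div_div, div_div, ← mul_div_assoc,
      div_le_div_iff₀ (by positivity) (by positivity)]
    linarith only [mul_le_mul (sh B t ha).1 s5 (by positivity) (by positivity),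
      mul_pos l0 (mul_pos m0 c0)]
  · exact absurd (add_mem_bx h1 (sup ha).1) h2
  · rw [zero_mul]; positivity
  · simp

theorem bd {w : V Q n → ℝ} {m D : ℝ} (hw : ∀ x, 0 ≤ w x ∧ w x ≤ 1) (hD : 0 < D)
    (hm : Real.exp (-Y) / D ≤ m) : Bd (fun x => w x / m) (D * Real.exp Y) := fun x => by
  have hm0 : 0 < m := lt_of_lt_of_le (by positivity) hm
  have eYY : Real.exp (-Y) * Real.exp Y = 1 := by rw [← Real.exp_add]; simp
  refine ⟨div_nonneg (hw x).1 hm0.le, (div_le_iff₀ hm0).2 ((hw x).2.trans ?_)⟩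
  rw [div_le_iff₀ hD] at hm
  nlinarith only [mul_le_mul_of_nonneg_right hm (Real.exp_pos Y).le, eYY]

theorem bl {ρ : ℝ} (c : κ → ZMod Q) (hρ : 0 < ρ) (x : V Q n) :
    0 ≤ lap ρ (d.L x - c) ∧ lap ρ (d.L x - c) ≤ 1 := ⟨(lap_pos _ _).le, lap_le_one hρ _⟩

theorem cuts (h : d.Ok C X Y Z) (B : Bas d C X Y Z) (δ : ℝ)
    (hδ : 8 * (Real.exp Y * Real.exp Y * Real.exp (-Z ^ C)) ≤ δ) :
    Cut (b1 d) (b2 d Y) (fun a a' => d.om2 (a + a')) δ ∧
      Cut (b3 d) (b1 d) (fun τ a => d.χ (a + τ)) δ ∧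
      Cut (b3 d) (b2 d Y) (fun τ a => d.om3 (τ - a)) δ := by
  have ht := B.t
  have B1 := bd (bl (d := d) d.c1 B.r3) one_pos ((div_one _).trans_le h.m1)
  have B2 : Bd (fun x => wc d Y x / mc d Y) (2 * Real.exp Y) :=
    bd (fun x => ⟨w0 x, (w1 B.r4 x).1.trans (lap_le_one B.r4 _)⟩) two_pos
      (by linarith only [(mw h B).2, h.m2])
  have B3 := bd (bl (d := d) (d.c0 + d.c2) B.r2) four_pos (m3 h B).2
  have eδ : 0 < Real.exp Y * Real.exp Y * Real.exp (-Z ^ C) := by positivity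
  exact ⟨cut_mono (cut Q n _ _ _ _ _ d.T3 d.T4 _ _ _ 0 1 h.x2 (by omega) (by omega) (by omega)
      (by omega) (.inl rfl) B1 B2) (fun _ _ => by simp) (by linarith only [eδ, hδ]),
    cut_mono (cut Q n _ _ _ _ _ (d.T2 + d.T4) d.T3 _ _ _ 0 1 h.xχ (by omega) (by omega) (by omega)
      (by omega) (.inl rfl) B3 B1) (fun _ _ => by simp [add_comm]) (by linarith only [eδ, hδ]),
    cut_mono (cut Q n _ _ _ _ _ (d.T2 + d.T4) d.T4 _ _ _ 0 (-1) h.x3 (by omega) (by omega)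
      (by omega) (by omega) (.inr rfl) B3 B2) (fun _ _ => by simp [sub_eq_add_neg])
      (by linarith only [eδ, hδ])⟩

theorem P0 (B : Bas d C X Y Z) : Pm d.b0 := pm_of _ _ (fun _ => (lap_pos _ _).le) B.m0

theorem P1 (B : Bas d C X Y Z) : Pm (b1 d) := pm_of _ _ (fun _ => (lap_pos _ _).le) B.m1

theorem hW : ∑ t, d.b0 t * d.v t = 𝔼 t ∈ bx Q n d.T2, bet d.L d.c0 d.ρ2 d.T2 t * d.v t := by
  simp only [Dat.b0, mul_assoc, sum_unif]

theorem sums (h : d.Ok C X Y Z) (B : Bas d C X Y Z) {e : ℝ} (he : 0 < e) (he1 : e ≤ 1 / 100)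
    (hX : 1000 ≤ e * X) : 1 ≤ 2 * Real.exp X * ∑ a, ∑ a', b1 d a * b2 d Y a' * d.u (a + a') ∧
    (1 - e / 2) * d.θ * (∑ t, d.b0 t * d.v t) * ∑ a, ∑ a', b1 d a * b2 d Y a' * d.u (a + a') ≤
      ∑ a, ∑ a', b1 d a * b2 d Y a' *
        (d.u (a + a') * cor d.b0 d.v (fun x => d.g x * d.χ x) (a + a')) := by
  have eX := Real.exp_pos X
  have eY := Real.exp_pos Y
  have x0 := Real.exp_pos (-X)
  have eYY : Real.exp (-Y) * Real.exp Y = 1 := by rw [← Real.exp_add]; simp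
  have eXX : Real.exp (-X) * Real.exp X = 1 := by rw [← Real.exp_add]; simp
  have small : ∀ a : ℝ, a ≤ 6 * Y → Real.exp (-(20 * Y)) * Real.exp Y * Real.exp a ≤
      e / 2 * Real.exp (-X) ^ 3 := fun a ha => by
    have h1 : Real.exp (-X) ≤ e / 2 := by
      nlinarith only [eXX, he, x0, mul_le_mul_of_nonneg_left hX x0.le,
        mul_le_mul_of_nonneg_left (Real.add_one_le_exp X) (mul_pos he x0).le]
    refine le_trans ?_ (mul_le_mul_of_nonneg_right h1 (by positivity))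
    rw [← Real.exp_nat_mul, ← Real.exp_add, ← Real.exp_add, ← Real.exp_add]
    exact Real.exp_le_exp.2 (by push_cast; linarith only [ha, B.XY, B.X1])
  have x3 : e / 2 * Real.exp (-X) ^ 3 ≤ Real.exp (-X) / 2 := by
    have : Real.exp (-X) ^ 3 ≤ Real.exp (-X) := pow_le_of_le_one x0.le
      (Real.exp_le_one_iff.2 (by linarith only [B.X1])) (by norm_num)
    nlinarith only [this, he, he1, x0]
  have big := h.big
  generalize hΨ : (cor d.b0 d.v fun x => d.g x * d.χ x) = Ψ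
  have bu : Bd d.u (Real.exp X * Real.exp Y) := fun x =>
    ⟨(h.hu x).1, (h.hu x).2.trans (mul_le_mul_of_nonneg_left (h.o2 x).2 eX.le)⟩
  have bΨ : Bd Ψ (Real.exp X * Real.exp Y * (Real.exp X * Real.exp Y)) := fun x => by
    rw [← hΨ]
    refine ⟨sum_nonneg fun t _ => mul_nonneg ((P0 B).1 t) (mul_nonneg (h.hv t).1
      (mul_nonneg (h.hg _).1 (h.oχ _).1)), ?_⟩
    rw [← one_mul (_ * _ * _), ← (P0 B).2, sum_mul]
    exact sum_le_sum fun t _ => mul_le_mul_of_nonneg_left (mul_le_mul ((h.hv t).2.trans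
      (mul_le_mul_of_nonneg_left (h.o3 t).2 eX.le)) (mul_le_mul (h.hg _).2 (h.oχ _).2 (h.oχ _).1
      eX.le) (mul_nonneg (h.hg _).1 (h.oχ _).1) (by positivity)) ((P0 B).1 t)
  have e3 : ∀ a a', 𝔼 t ∈ bx Q n d.T2, bet d.L d.c1 d.ρ3 d.T3 a * bet d.L d.c2 d.ρ4 d.T4 a' *
      bet d.L d.c0 d.ρ2 d.T2 t * d.u (a + a') * d.v t * (d.g (a + a' + t) * d.χ (a + a' + t)) =
      bet d.L d.c1 d.ρ3 d.T3 a * bet d.L d.c2 d.ρ4 d.T4 a' * (d.u (a + a') * Ψ (a + a')) :=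
    fun a a' => by
      simp only [← hΨ, cor, Dat.b0, mul_assoc (unif _ _), sum_unif, mul_expect]
      exact expect_congr rfl fun t _ => by ring
  have ev := h.ev
  simp only [e3, ← hW] at big ev
  have m2 := B.m2
  have m'0 : 0 < mc d Y := by linarith only [(mw h B).2, m2]
  have hb1 : 𝔼 x ∈ bx Q n d.T3, bet d.L d.c1 d.ρ3 d.T3 x = 1 := by rw [← sum_unif]; exact (P1 B).2
  have hw2 : ∀ x, wc d Y x / mas d.L d.c2 d.ρ4 d.T4 ≤ bet d.L d.c2 d.ρ4 d.T4 x ∧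
      bet d.L d.c2 d.ρ4 d.T4 x ≤
        wc d Y x / mas d.L d.c2 d.ρ4 d.T4 + Real.exp (-(20 * Y)) * Real.exp Y := fun x => by
    refine ⟨div_le_div_of_nonneg_right (w1 B.r4 x).1 m2.le,
      (div_le_div_of_nonneg_right (w1 (Y := Y) B.r4 x).2 m2.le).trans ?_⟩
    rw [add_div, add_le_add_iff_left, div_le_iff₀ m2, mul_assoc]
    exact le_mul_of_one_le_right (Real.exp_pos _).le
      (by nlinarith only [mul_le_mul_of_nonneg_right h.m2 eY.le, eYY])
  have n2 : (bx Q n d.T4).Nonempty := bx_nonempty (by have := B.t; omega)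
  have hb : ∀ x, 0 ≤ bet d.L d.c1 d.ρ3 d.T3 x := fun x => div_nonneg (lap_pos _ _).le B.m1.le
  obtain ⟨u1, u2⟩ := cutoff (F := fun a a' => d.u (a + a')) n2 hb hb1 (fun _ _ => bu _) hw2
  obtain ⟨-, u3⟩ := cutoff (F := fun a a' => d.u (a + a') * Ψ (a + a')) n2 hb hb1
    (fun _ _ => ⟨mul_nonneg (bu _).1 (bΨ _).1,
      mul_le_mul (bu _).2 (bΨ _).2 (bΨ _).1 (by positivity)⟩) hw2
  have cv : ∀ F : V Q n → V Q n → ℝ, ∑ a, ∑ a', b1 d a * b2 d Y a' * F a a' =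
      mas d.L d.c2 d.ρ4 d.T4 / mc d Y * 𝔼 a ∈ bx Q n d.T3, 𝔼 a' ∈ bx Q n d.T4,
        bet d.L d.c1 d.ρ3 d.T3 a * (wc d Y a' / mas d.L d.c2 d.ρ4 d.T4) * F a a' := fun F => by
    simp only [← sum_unif, mul_sum, b1, b2]
    exact sum_congr rfl fun a _ => sum_congr rfl fun a' _ => by field_simp
  have q1 : 1 ≤ mas d.L d.c2 d.ρ4 d.T4 / mc d Y := (one_le_div m'0).2 (mw h B).1
  have v1 := (small (X + Y) (by linarith only [B.XY, B.X1])).trans x3
  have v2 := small (X + Y + (X + Y + (X + Y))) (by linarith only [B.XY])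
  simp only [Real.exp_add] at v1 v2
  have eu := h.eu
  have θ0 : 0 < d.θ := x0.trans_le h.hθ
  rw [cv fun a a' => d.u (a + a'), cv fun a a' => d.u (a + a') * Ψ (a + a')]
  constructor
  · refine le_trans ?_ (mul_le_mul_of_nonneg_left (le_mul_of_one_le_left
      (by linarith only [u2, eu, v1, x0]) q1) (by positivity))
    nlinarith only [eXX, mul_le_mul_of_nonneg_left (u2.trans' eu) eX.le,
      mul_le_mul_of_nonneg_left v1 eX.le]
  · rw [mul_left_comm]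
    refine mul_le_mul_of_nonneg_left ?_ (zero_le_one.trans q1)
    have h1 := mul_le_mul (mul_le_mul h.hθ eu x0.le θ0.le) ev x0.le
      (mul_nonneg θ0.le (x0.le.trans eu))
    nlinarith only [mul_le_mul_of_nonneg_left u1 (mul_nonneg (mul_nonneg
      (by linarith only [he1] : 0 ≤ 1 - e / 2) θ0.le) (x0.le.trans ev)), u3, big, v2,
      mul_le_mul_of_nonneg_left h1 he.le]

end Ks1

open Ks1 Ke in
theorem ks1_of (H : K12) : KS1 := by
  intro e he he1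
  refine ⟨⌈1000 / e⌉₊, fun C hC Q n _ κ _ _ d X Y Z h => ?_⟩
  have hCe : 1000 ≤ e * C := by
    rw [mul_comm, ← div_le_iff₀ he]; exact Nat.ceil_le.1 hC
  have hX : 1000 ≤ e * X := hCe.trans (mul_le_mul_of_nonneg_left h.par.1 he.le)
  have B := bas h (by exact_mod_cast (by nlinarith only [he, he1, hCe] : (1000 : ℝ) ≤ C))
  have eX := Real.exp_pos X
  have x0 := Real.exp_pos (-X)
  have eXX : Real.exp (-X) * Real.exp X = 1 := by rw [← Real.exp_add]; simp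
  have θ0 : 0 < d.θ := x0.trans_le h.hθ
  have ev := h.ev
  rw [← hW] at ev
  obtain ⟨P, m, hP, hm, k1, k2, k3, k4⟩ := num he he1 hX B.XY
  obtain ⟨C2, C1, C3⟩ := cuts h B _ le_rfl
  obtain ⟨S1, S2⟩ := sums h B he he1 hX
  have up : ∀ {f ω : V Q n → ℝ}, (∀ x, 0 ≤ ω x ∧ ω x ≤ Real.exp Y) →
      (∀ x, 0 ≤ f x ∧ f x ≤ Real.exp X * ω x) → ∀ x, 0 ≤ f x ∧ f x ≤ 2 * Real.exp X * ω x :=
    fun hω hf x => ⟨(hf x).1, by nlinarith only [(hf x).2, mul_nonneg eX.le (hω x).1]⟩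
  obtain ⟨A1, A2, a1, a2, d1, d2, bad⟩ := H (V Q n) d.b0 (b3 d) (b1 d) (b2 d Y) d.u d.v d.g d.om2
    d.om3 d.χ (2 * Real.exp X) (Real.exp Y) (e / 2) (e / 8) ((1 - e / 2) * d.θ) _ P m (P0 B)
    (pm_of _ _ (fun _ => (lap_pos _ _).le) (lt_of_lt_of_le (by positivity) (m3 h B).2)) (P1 B)
    (P2 h B) (dom h B) (by linarith only [Real.add_one_le_exp X, B.X1])
    (Real.one_le_exp (by linarith only [B.X1, B.XY])) h.o2 h.o3 h.oχ (up h.o2 h.hu) (up h.o3 h.hv)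
    (fun x => ⟨(h.hg x).1, by linarith only [(h.hg x).2, eX]⟩) C2 C1 C3 S1
    (by nlinarith only [eXX, mul_le_mul_of_nonneg_left ev eX.le])
    (by nlinarith only [eXX, mul_le_mul_of_nonneg_left h.hθ eX.le, he1, he, mul_pos eX θ0]) S2
    (by linarith only [he]) (by linarith only [he1]) (by linarith only [he])
    (by linarith only [he1]) hP hm k1 k2 (by
      refine (mul_le_mul_of_nonneg_left k3 (by positivity)).trans ?_
      have e8 : (8 : ℝ) ≤ Real.exp Y := by linarith only [Real.add_one_le_exp Y, B.X1, B.XY]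
      refine (mul_le_mul_of_nonneg_right (mul_le_mul_of_nonneg_right e8 (by positivity))
        (Real.exp_pos _).le).trans ?_
      simp only [← Real.exp_add]
      exact Real.exp_le_one_iff.2 (by linarith only [B.Y14, B.Y12, B.X1, B.XY]))
  have ht := B.t
  have s1 : A1 ⊆ bx Q n d.T3 := fun a ha => by_contra fun h' => a1 a ha (by simp [b1, unif, h'])
  have c1 : (0 : ℝ) < #(bx Q n d.T3) := by exact_mod_cast (bx_nonempty (by omega)).card_pos
  have c2 : (0 : ℝ) < #(bx Q n d.T4) := by exact_mod_cast (bx_nonempty (by omega)).card_pos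
  have m1 := B.m1
  have m'0 : 0 < mc d Y := by linarith only [(mw h B).2, B.m2]
  have l1' : ∀ a ∈ A1, lap d.ρ3 (d.L a - d.c1) =
      mas d.L d.c1 d.ρ3 d.T3 * #(bx Q n d.T3) * b1 d a := fun a ha => by
    rw [b1, unif, if_pos (s1 ha), bet]; field_simp
  have l2 : ∀ a ∈ A2, lap d.ρ4 (d.L a - d.c2) = mc d Y * #(bx Q n d.T4) * b2 d Y a := fun a ha => by
    rw [b2, unif, if_pos (sup (a2 a ha)).1, wc, if_pos (sup (a2 a ha)).2]; field_simp
  have dn : ∀ s : ℝ, 1 ≤ 2 ^ m * (4 * ((4 * (2 * Real.exp X)) ^ (3 * P + 6)) ^ 2) * s →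
      2 * Real.exp (-X ^ 5) ≤ s := fun s hs => by
    have h1 : Real.exp (-X ^ 5) * Real.exp (X ^ 5) = 1 := by rw [← Real.exp_add]; simp
    have h2 : 0 < s := (pos_iff_pos_of_mul_pos (zero_lt_one.trans_le hs)).1 (by positivity)
    have h3 := Real.exp_pos (-X ^ 5)
    nlinarith only [mul_le_mul_of_nonneg_left hs h3.le, h1,
      mul_le_mul_of_nonneg_left k4 (mul_pos h3 h2).le, h2]
  have e5 := Real.exp_pos (-X ^ 5)
  refine ⟨A1, A2, s1, fun a ha => (sup (a2 a ha)).1, fun a ha => (sup (a2 a ha)).2, ?_, ?_, ?_⟩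
  · rw [sum_congr rfl l1', ← mul_sum, mul_comm]
    exact mul_le_mul_of_nonneg_left (by linarith only [dn _ d1, e5]) (by positivity)
  · rw [sum_congr rfl l2, ← mul_sum]
    nlinarith only [mul_le_mul_of_nonneg_left (dn _ d2) (mul_pos m'0 c2).le,
      mul_le_mul_of_nonneg_left (mw h B).2 (mul_pos e5 c2).le]
  · rw [sum_congr rfl l1', sum_congr rfl l2, ← mul_sum, ← mul_sum]
    refine le_trans ?_ ((mul_le_mul_of_nonneg_left bad
      (mul_pos (mul_pos m1 c1) (mul_pos m'0 c2)).le).trans_eq (by ring))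
    rw [mul_sum]
    refine sum_le_sum fun a ha => ?_
    rw [mul_sum]
    refine sum_le_sum fun a' ha' => ?_
    rw [l1' a ha, l2 a' ha', mul_mul_mul_comm, mul_assoc]
    refine mul_le_mul_of_nonneg_left (mul_le_mul_of_nonneg_left ?_
      (mul_nonneg ((P1 B).1 a) ((P2 h B).1 a'))) (by positivity)
    split_ifs with h1 h2 h3
    exacts [zero_le_one, le_rfl, le_rfl, (h1 (mem_filter.2 ⟨mem_univ _, le_trans (by
      nlinarith only [mul_nonneg (sq_nonneg e) (mul_pos θ0 (x0.trans_le ev)).le])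
      (not_lt.1 h3)⟩)).elim]

end Vale.Agent.P057Z.Km
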