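import Vale.Agent.P057Z.Km.Sk2
import Vale.Agent.P057Z.Ke.Fol

/-! Block KM: from Laplace weights to shells. -/

set_option linter.all false

open Finset
open scoped BigOperators

namespace Vale.Agent.P057Z.Km

noncomputable section

namespace Ks2

open Vale.Agent.P057Z.Ke

variable {Q n : ℕ} [Fact Q.Prime] {κ : Type} [Fintype κ] [DecidableEq κ]

/-- a neighbourhood of the box -/
def thick (Q n T t : ℕ) [Fact Q.Prime] : Finset (V Q n) :=
  (bx Q n (T + 2 * t)).image fun x => x - fun _ => (t : ZMod Q)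

theorem mem_thick {T t : ℕ} {a y : V Q n} (ha : a ∈ bx Q n T) (hy : Near y t) :
    a + y ∈ thick Q n T t := by
  obtain ⟨s, hs, rfl⟩ := mem_bx'.1 ha
  obtain ⟨v, hv, rfl⟩ := hy
  refine mem_image.2 ⟨fun i => (((s i : ℤ) + v i + t).toNat : ZMod Q),
    cast_mem_bx fun i => ?_, funext fun i => ?_⟩
  · have h1 := abs_le.1 (hv i)
    have h2 := hs i
    omega
  · have h1 := abs_le.1 (hv i)
    have h2 : ((((s i : ℤ) + v i + t).toNat : ℕ) : ℤ) = (s i : ℤ) + v i + t := by omega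
    have h3 : ((((s i : ℤ) + v i + t).toNat : ℕ) : ZMod Q) = (s i : ZMod Q) + v i + t := by
      rw [← Int.cast_natCast, h2]
      push_cast
      ring
    simp only [Pi.sub_apply, Pi.add_apply, cs, h3]
    ring

theorem pow_bd {T t μ : ℝ} (m : ℕ) (hT : 0 < T) (ht : 0 ≤ t) (hμ : μ ≤ 1)
    (h : 4 * m * t ≤ μ * T) : (T + 2 * t) ^ m ≤ (1 + μ) * T ^ m := by
  have h0 : 0 ≤ m * (2 * t / T) := by positivity
  have h1 : m * (2 * t / T) ≤ μ / 2 := by
    rw [← mul_div_assoc, div_le_iff₀ hT]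
    linarith
  have h2 : T + 2 * t ≤ Real.exp (2 * t / T) * T := by
    have h3 := mul_le_mul_of_nonneg_right (Real.add_one_le_exp (2 * t / T)) hT.le
    rw [add_mul, div_mul_cancel₀ _ hT.ne'] at h3
    linarith
  have h4 : Real.exp (m * (2 * t / T)) ≤ 1 + μ := by
    refine (Real.exp_bound_div_one_sub_of_interval h0 (by linarith)).trans ?_
    rw [div_le_iff₀ (by linarith)]
    nlinarith
  calc (T + 2 * t) ^ m ≤ (Real.exp (2 * t / T) * T) ^ m := by gcongr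
    _ = Real.exp (m * (2 * t / T)) * T ^ m := by rw [mul_pow, Real.exp_nat_mul]
    _ ≤ _ := by gcongr

theorem lap_le (ρ : ℝ) (hρ : 0 < ρ) (u : κ → ZMod Q) : lap ρ u ≤ 1 := by
  unfold lap
  rw [Real.exp_le_one_iff, neg_div, neg_nonpos]
  exact div_nonneg (l1_nonneg u) hρ.le

theorem lap_eq (ρ : ℝ) (u : κ → ZMod Q) : Real.exp (-(l1 u / ρ)) = lap ρ u := by
  rw [lap, neg_div]

theorem sum_thick (L : V Q n →ₗ[ZMod Q] (κ → ZMod Q)) (c : κ → ZMod Q) {ρ Y : ℝ} {T t : ℕ}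
    (hρ : 0 < ρ) (hY : 0 ≤ Y) (hT : 1 ≤ T) (hQ : T + 2 * t ≤ Q)
    (hm : Real.exp (-Y) ≤ mas L c ρ T) (h : 4 * n * t * Real.exp Y ≤ T) :
    ∑ x ∈ thick Q n T t, lap ρ (L x - c) ≤ 2 * (mas L c ρ T * #(bx Q n T)) := by
  have hsub : bx Q n T ⊆ thick Q n T t := fun a ha => by
    simpa using mem_thick ha (near_zero t)
  have h1 : ∑ x ∈ bx Q n T, lap ρ (L x - c) = mas L c ρ T * #(bx Q n T) := by
    have h0 : (#(bx Q n T) : ℝ) ≠ 0 := by exact_mod_cast (bx_nonempty hT).card_ne_zero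
    rw [mas, expect_eq_sum_div_card, div_mul_cancel₀ _ h0]
  have h2 : ∑ x ∈ thick Q n T t \ bx Q n T, lap ρ (L x - c) ≤ #(thick Q n T t \ bx Q n T) := by
    simpa using sum_le_card_nsmul _ _ (1 : ℝ) fun x _ => lap_le ρ hρ (L x - c)
  have h3 : #(thick Q n T t) ≤ (T + 2 * t) ^ n := card_image_le.trans (card_bx hQ).le
  have h4 : #(bx Q n T) = T ^ n := card_bx (by omega)
  have h5 : (#(thick Q n T t \ bx Q n T) : ℝ) + T ^ n ≤ (T + 2 * t) ^ n := by
    have h6 := card_sdiff_add_card_eq_card hsub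
    rw [h4] at h6
    exact_mod_cast h6.le.trans h3
  have hT0 : (0 : ℝ) < T := by exact_mod_cast hT
  have h7 := pow_bd (μ := Real.exp (-Y)) n hT0 (Nat.cast_nonneg t)
    (Real.exp_le_one_iff.2 (by linarith)) (by
      rw [Real.exp_neg, inv_mul_eq_div, le_div_iff₀ (Real.exp_pos Y)]
      exact h)
  have h8 := mul_le_mul_of_nonneg_right hm (pow_nonneg hT0.le n)
  rw [← sum_sdiff hsub, h1, h4]
  push_cast
  linarith

theorem card_bd {u a SA SB m X : ℝ} (hX : 100 ≤ X) (hm : 0 < m) (hu : 0 ≤ u) (ha : 0 ≤ a)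
    (h1 : u * SA ≤ 100 * SB * a) (h2 : SB ≤ 2 * m) (h3 : Real.exp (-X ^ 5) * m ≤ SA) :
    u ≤ Real.exp (X ^ 6) * a := by
  have h4 : u * Real.exp (-X ^ 5) * m ≤ 200 * a * m := by
    have h5 := mul_le_mul_of_nonneg_left h3 hu
    have h6 := mul_le_mul_of_nonneg_right h2 ha
    linarith
  have h5 := le_of_mul_le_mul_right h4 hm
  rw [Real.exp_neg, ← div_eq_mul_inv, div_le_iff₀ (Real.exp_pos _)] at h5
  have h6 : X ≤ X ^ 5 := le_self_pow₀ (by linarith) (by norm_num)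
  have h7 : 200 + X ^ 5 ≤ X ^ 6 := by
    rw [pow_succ X 5]
    nlinarith
  have h8 : 200 * Real.exp (X ^ 5) ≤ Real.exp (X ^ 6) := by
    refine le_trans ?_ (Real.exp_le_exp.2 h7)
    rw [Real.exp_add]
    have := Real.add_one_le_exp 200
    gcongr
    linarith
  nlinarith [mul_le_mul_of_nonneg_right h8 ha]

theorem psi_ge {G : Type} [AddCommGroup G] [DecidableEq G] {A1 A2 S : Finset G} {e : ℝ}
    (h1 : A1.Nonempty) (h2 : A2.Nonempty)
    (h : ∑ a' ∈ A2, ∑ a ∈ A1, (if a + a' ∈ S then (0 : ℝ) else 1) ≤ e * (#A1 * #A2)) :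
    1 - e ≤ psi A1 A2 S 0 := by
  have h0 : (0 : ℝ) < #A1 * #A2 := by
    have := h1.card_pos
    have := h2.card_pos
    positivity
  have e1 : (#{p ∈ A1 ×ˢ A2 | p.1 + p.2 + 0 ∈ S} : ℝ) +
      ∑ a' ∈ A2, ∑ a ∈ A1, (if a + a' ∈ S then (0 : ℝ) else 1) = #A1 * #A2 := by
    rw [sum_comm, ← sum_product' (f := fun a a' => if a + a' ∈ S then (0 : ℝ) else 1),
      card_filter, Nat.cast_sum, ← sum_add_distrib, ← Nat.cast_mul, ← card_product,
      card_eq_sum_ones, Nat.cast_sum]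
    refine sum_congr rfl fun p _ => ?_
    by_cases hp : p.1 + p.2 ∈ S <;> simp [hp]
  rw [psi, le_div_iff₀ h0]
  linarith

theorem mem_BB {L : V Q n →ₗ[ZMod Q] (κ → ZMod Q)} {T : ℕ} {s : ℝ} {x : V Q n}
    (h : x ∈ BB L T s) : Near x T ∧ l1 (L x) ≤ s := by
  simpa [BB] using h

theorem nonempty_of {α : Type} {A : Finset α} {w : α → ℝ} (h : 0 < ∑ a ∈ A, w a) : A.Nonempty := by
  rcases A.eq_empty_or_nonempty with rfl | h1
  · simp at h
  · exact h1

end Ks2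

open Ks2 Vale.Agent.P057Z.Ke in
theorem ks2_of (hL : LAY) : KS2 := by
  intro C hC Q n _ κ _ _ d X Y Z h e S A1 A2 he w
  obtain ⟨p1, p2, p3, -⟩ := h.par
  have hX : 100 ≤ X := le_trans (by exact_mod_cast hC) p1
  have hY : 100 ≤ Y := hX.trans p2
  have hZ : 100 ≤ Z := hY.trans p3
  have r4 : 0 < d.ρ4 := (Real.exp_pos _).trans_le h.r4
  have r3 : 41 * Y * d.ρ4 ≤ d.ρ3 := by
    refine le_trans (mul_le_mul_of_nonneg_right ?_ r4.le) h.r3
    have h1 : Y ^ 2 ≤ Y ^ C := pow_le_pow_right₀ (by linarith) (by omega)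
    nlinarith
  have r3' : 0 < d.ρ3 := lt_of_lt_of_le (by positivity) r3
  have z1 : 10 * X ^ 6 + 1 + 3 * Z ≤ Z ^ C := by
    have h1 : Z ^ 7 ≤ Z ^ C := pow_le_pow_right₀ (by linarith) (by omega)
    have h2 : X ^ 6 ≤ Z ^ 6 := by gcongr; exact p2.trans p3
    have h3 : Z ≤ Z ^ 6 := le_self_pow₀ (by linarith) (by norm_num)
    rw [pow_succ Z 6] at h1
    nlinarith
  have x6 : 0 ≤ X ^ 6 := by positivity
  have z2 : 8 * Z ≤ Real.exp Z := by
    have := Real.quadratic_le_exp_of_nonneg (show 0 ≤ Z by linarith)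
    nlinarith
  have z3 : 1 ≤ Real.exp (Z ^ C) := Real.one_le_exp (by linarith)
  have t6 : (1 : ℝ) ≤ d.T6 := by exact_mod_cast h.t6
  have t4 : (d.T6 : ℝ) ≤ d.T4 := le_trans (le_mul_of_one_le_right (by positivity) z3) h.t4
  have t3 : (d.T4 : ℝ) ≤ d.T3 := le_trans (le_mul_of_one_le_right (by positivity) z3) h.t3
  have t2 : (d.T3 : ℝ) ≤ d.T2 := le_trans (le_mul_of_one_le_right (by positivity) z3) h.t2
  obtain ⟨Ta, hTa⟩ : ∃ Ta : ℕ, Ta = ⌊d.T4 * Real.exp (-(3 * Z))⌋₊ := ⟨_, rfl⟩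
  have a1 : (Ta : ℝ) ≤ d.T4 * Real.exp (-(3 * Z)) := hTa ▸ Nat.floor_le (by positivity)
  have a2 : d.T4 * Real.exp (-(3 * Z)) < Ta + 1 := hTa ▸ Nat.lt_floor_add_one _
  have a3 : (Ta : ℝ) ≤ d.T4 :=
    a1.trans (mul_le_of_le_one_right (by positivity) (Real.exp_le_one_iff.2 (by linarith)))
  have a4 : d.T6 * Real.exp (10 * X ^ 6) ≤ Ta := by
    have h1 := mul_le_mul_of_nonneg_right h.t4 (Real.exp_pos (-(3 * Z))).le
    rw [mul_assoc, ← Real.exp_add] at h1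
    have h2 : Real.exp (10 * X ^ 6) * Real.exp 1 ≤ Real.exp (Z ^ C + -(3 * Z)) := by
      rw [← Real.exp_add]
      exact Real.exp_le_exp.2 (by linarith)
    have h3 := Real.add_one_le_exp 1
    have h4 : 1 ≤ Real.exp (10 * X ^ 6) := Real.one_le_exp (by linarith)
    have h5 : 1 ≤ d.T6 * Real.exp (10 * X ^ 6) := one_le_mul_of_one_le_of_one_le t6 h4
    have h6 : d.T6 * (Real.exp (10 * X ^ 6) * 2) ≤ d.T6 * Real.exp (Z ^ C + -(3 * Z)) := by
      gcongr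
      refine le_trans ?_ h2
      gcongr
      linarith
    linarith
  have n6 : 1 ≤ d.T6 := h.t6
  have n4 : d.T6 ≤ d.T4 := by exact_mod_cast t4
  have n3 : d.T4 ≤ d.T3 := by exact_mod_cast t3
  have n2 : d.T3 ≤ d.T2 := by exact_mod_cast t2
  have na : Ta ≤ d.T4 := by exact_mod_cast a3
  have n3' : 2 * d.T4 ≤ d.T3 := by
    have h1 := Real.add_one_le_exp (Z ^ C)
    have h2 : (d.T4 : ℝ) * 2 ≤ d.T4 * Real.exp (Z ^ C) := by
      gcongr
      linarith
    have h3 : (2 * d.T4 : ℝ) ≤ d.T3 := by linarith [h.t3]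
    exact_mod_cast h3
  have hQ := h.hQ
  have eY : Real.exp Y ≤ Real.exp Z := Real.exp_le_exp.2 p3
  have hn := h.hn
  have s1 := sum_thick d.L d.c1 (t := d.T4 + Ta) r3' (by linarith) (by omega) (by omega) h.m1 (by
    refine le_trans ?_ h.t3
    have h2 : Real.exp Z * Real.exp Z ≤ Real.exp (Z ^ C) := by
      rw [← Real.exp_add]
      exact Real.exp_le_exp.2 (by linarith)
    calc 4 * (n : ℝ) * ((d.T4 + Ta : ℕ) : ℝ) * Real.exp Y
        ≤ 4 * Z * (d.T4 + d.T4) * Real.exp Z := by push_cast; gcongr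
      _ = d.T4 * (8 * Z * Real.exp Z) := by ring
      _ ≤ d.T4 * (Real.exp Z * Real.exp Z) := by gcongr
      _ ≤ _ := by gcongr)
  have s2 := sum_thick d.L d.c2 (t := Ta) r4 (by linarith) (by omega) (by omega) h.m2 (by
    have h2 : Real.exp Z * Real.exp (-(3 * Z)) * Real.exp Z ≤ 1 := by
      rw [← Real.exp_add, ← Real.exp_add]
      exact Real.exp_le_one_iff.2 (by linarith)
    calc 4 * (n : ℝ) * Ta * Real.exp Y
        ≤ 4 * Z * (d.T4 * Real.exp (-(3 * Z))) * Real.exp Z := by gcongr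
      _ = d.T4 * (4 * Z * Real.exp (-(3 * Z)) * Real.exp Z) := by ring
      _ ≤ d.T4 * (Real.exp Z * Real.exp (-(3 * Z)) * Real.exp Z) := by gcongr; linarith
      _ ≤ d.T4 * 1 := by gcongr
      _ = _ := mul_one _)
  have m1 : 0 < mas d.L d.c1 d.ρ3 d.T3 * #(bx Q n d.T3) :=
    mul_pos ((Real.exp_pos _).trans_le h.m1) (by exact_mod_cast (bx_nonempty (by omega)).card_pos)
  have m2 : 0 < mas d.L d.c2 d.ρ4 d.T4 * #(bx Q n d.T4) :=
    mul_pos ((Real.exp_pos _).trans_le h.m2) (by exact_mod_cast (bx_nonempty (by omega)).card_pos)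
  have W1 := (mul_pos (Real.exp_pos _) m1).trans_le w.d1
  have W2 := (mul_pos (Real.exp_pos _) m2).trans_le w.d2
  have hb : ∀ x : V Q n, (0 : ℝ) ≤ if x ∈ S then 0 else 1 := fun x => by split_ifs <;> norm_num
  obtain ⟨k1, B1, b1, b2, b3, b4, b5⟩ := hL _ A1 (thick Q n d.T3 (d.T4 + Ta))
    (fun x => l1 (d.L x - d.c1) / d.ρ3)
    (fun a => (∑ a' ∈ A2, lap d.ρ4 (d.L a' - d.c2) * if a + a' ∈ S then 0 else 1) /
      ∑ a' ∈ A2, lap d.ρ4 (d.L a' - d.c2)) e (nonempty_of W1)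
    (fun x => div_nonneg (l1_nonneg _) r3'.le)
    (fun x => div_nonneg (sum_nonneg fun _ _ => mul_nonneg (Real.exp_pos _).le (hb _)) W2.le) he (by
      simp only [lap_eq, ← mul_div_assoc, ← sum_div]
      rw [div_le_iff₀ W2, mul_assoc]
      simpa only [mul_sum _ _ (lap d.ρ3 _), mul_assoc] using w.bad)
  have c1 : (0 : ℝ) < #B1 := by exact_mod_cast b2.card_pos
  obtain ⟨k2, B2, g1, g2, g3, g4, g5⟩ := hL _ A2 (thick Q n d.T4 Ta)
    (fun x => l1 (d.L x - d.c2) / d.ρ4)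
    (fun a' => (∑ a ∈ B1, if a + a' ∈ S then (0 : ℝ) else 1) / #B1) (6 * e) (nonempty_of W2)
    (fun x => div_nonneg (l1_nonneg _) r4.le)
    (fun x => div_nonneg (sum_nonneg fun _ _ => hb _) c1.le) (by linarith) (by
      simp only [lap_eq, ← mul_div_assoc, ← sum_div]
      rw [← sum_div, div_le_iff₀ W2, sum_comm] at b5
      rw [div_le_iff₀ c1]
      simp only [mul_sum _ _ (lap d.ρ4 _)]
      linarith)
  simp only [lap_eq] at b4 g4
  obtain ⟨a0, ha0⟩ := id g2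
  refine ⟨Ta, B1, B2, ({x ∈ thick Q n d.T3 (d.T4 + Ta) |
      l1 (d.L x - d.c1) / d.ρ3 ≤ k1 + 3} : Finset (V Q n)).image (· + a0),
    {x ∈ thick Q n d.T4 Ta | l1 (d.L x - d.c2) / d.ρ4 ≤ k2 + 3}, a4, by omega, b1.trans w.s1,
    g1.trans w.s2, b2, g2, ?_, card_bd hX m2 (by positivity) (by positivity) g4 s2 w.d2, ?_, ?_,
    psi_ge b2 g2 ?_⟩
  · exact le_trans (by exact_mod_cast card_image_le)
      (card_bd hX m1 (by positivity) (by positivity) b4 s1 w.d1)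
  · intro a ha x hx
    obtain ⟨x1, x2⟩ := mem_BB hx
    refine mem_filter.2 ⟨mem_thick (w.s2 (g1 ha)) x1, ?_⟩
    have h1 := l1_add_le (d.L a - d.c2) (d.L x)
    have h2 := g3 a ha
    rw [div_le_iff₀ r4] at h2 ⊢
    rw [map_add, add_sub_right_comm]
    linarith
  · intro a ha a' ha' x hx
    obtain ⟨x1, x2⟩ := mem_BB hx
    refine mem_image.2 ⟨a + (a' - a0 + x), mem_filter.2 ⟨mem_thick (w.s1 (b1 ha))
      (near_add (near_sub_of_mem_bx (w.s2 (g1 ha')) (w.s2 (g1 ha0))) x1), ?_⟩, by abel⟩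
    have h1 := l1_add_le (d.L a - d.c1) (d.L a' - d.c2 - (d.L a0 - d.c2) + d.L x)
    have h3 := l1_add_le (d.L a' - d.c2 - (d.L a0 - d.c2)) (d.L x)
    have h4 := l1_sub_le (d.L a' - d.c2) (d.L a0 - d.c2)
    have h5 := w.cut a' (g1 ha')
    have h6 := w.cut a0 (g1 ha0)
    have h2 := b3 a ha
    have h7 : d.ρ4 ≤ Y * d.ρ4 := le_mul_of_one_le_left r4.le (by linarith)
    have e1 : d.L (a + (a' - a0 + x)) - d.c1 =
        d.L a - d.c1 + (d.L a' - d.c2 - (d.L a0 - d.c2) + d.L x) := by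
      simp only [map_add, map_sub]
      abel
    rw [div_le_iff₀ r3'] at h2 ⊢
    rw [e1]
    linarith
  · rw [← sum_div, div_le_iff₀ c1] at g5
    linarith

end

end Vale.Agent.P057Z.Km
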