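import Vale.Agent.P057Z.Km.Sk2
import Vale.Agent.P057Z.Ke.Fol

/-! Block KM: Bohr sets of almost periods with fixed rank and widths. -/

set_option linter.all false

open Finset
open scoped BigOperators

namespace Vale.Agent.P057Z.Km

open Vale.Agent.P057Z.Ke

namespace Ks3

variable {Q : ℕ} [Fact Q.Prime] {ι : Type} [Fintype ι] [DecidableEq ι]

theorem lap_le {ρ W : ℝ} {u : ι → ZMod Q} (hρ : 0 < ρ) (h : W * ρ ≤ l1 u) :
    lap ρ u ≤ Real.exp (-W) := by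
  unfold lap
  rw [Real.exp_le_exp, neg_div, neg_le_neg_iff, le_div_iff₀ hρ]
  exact h

theorem lap_one {ρ : ℝ} (u : ι → ZMod Q) (hρ : 0 < ρ) : lap ρ u ≤ 1 := by
  have h := lap_le (W := 0) (u := u) hρ (by rw [zero_mul]; exact l1_nonneg u)
  rwa [neg_zero, Real.exp_zero] at h

theorem lap_pos (ρ : ℝ) (u : ι → ZMod Q) : 0 < lap ρ u := Real.exp_pos _

theorem le_exp (x : ℝ) : x ≤ Real.exp x := by linarith [Real.add_one_le_exp x]

theorem ceil_exp {a b : ℝ} (ha : 0 ≤ a) (hb : 1 ≤ b) :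
    (⌈Real.exp a⌉₊ : ℝ) ≤ Real.exp (a + b) := by
  have h1 := (Nat.ceil_lt_add_one (Real.exp_pos a).le).le
  have h2 := Real.one_le_exp ha
  have h3 := Real.add_one_le_exp b
  rw [Real.exp_add]
  nlinarith

end Ks3

open Ks3 in
theorem ks3_of (hA : APB) (hM : MASS) : KS3 := by
  intro e he
  obtain ⟨X0, hA⟩ := hA e he
  refine ⟨⌈X0⌉₊ + ⌈-Real.log e⌉₊ + 101, fun C hC Q n _ κ _ _ d X Y Z ok S hU => ?_⟩
  obtain ⟨p1, p2, p3, p4⟩ := ok.par
  have c1 : (⌈X0⌉₊ : ℝ) + ⌈-Real.log e⌉₊ + 101 ≤ X := by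
    refine le_trans ?_ p1
    exact_mod_cast hC
  have c2 := Nat.le_ceil X0
  have c3 := Nat.le_ceil (-Real.log e)
  have c4 : (0 : ℝ) ≤ ⌈X0⌉₊ := Nat.cast_nonneg _
  have c5 : (0 : ℝ) ≤ ⌈-Real.log e⌉₊ := Nat.cast_nonneg _
  have hX : 101 ≤ X := by linarith
  have hX1 : 1 ≤ X := by linarith
  have hY1 : 1 ≤ Y := by linarith
  have hZ1 : 1 ≤ Z := by linarith
  have x6 : X ≤ X ^ 6 := le_self_pow₀ hX1 (by norm_num)
  have y50 : Y ≤ Y ^ 50 := le_self_pow₀ hY1 (by norm_num)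
  have xy : X ^ 50 ≤ Y ^ 50 := pow_le_pow_left₀ (by linarith) p2 50
  have hρ : 0 < d.ρ4 := lt_of_lt_of_le (Real.exp_pos _) ok.r4
  obtain ⟨Ta, A1, A2, U, U2, u1, u2, u3, u4, u5, u6, u7, u8, u9, u10, u11⟩ := hU
  obtain ⟨r, ξ, hr, hξ⟩ := hA (X ^ 6) Z (by linarith) hZ1
    ((pow_le_pow_right₀ hZ1 (by omega)).trans (p4.trans (Real.exp_le_exp.2 x6))) Q n κ d.L d.ρ4 Ta
    d.T6 A1 A2 S U U2 (ok.hκ.trans p3) ok.hn ((Real.exp_le_exp.2 (by linarith)).trans ok.r4) ok.t6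
    u1 u2 u5 u6 u7 u8 u9 u10
  have hR : r ≤ ⌊X ^ 50⌋₊ := Nat.le_floor (hr.trans (by
    rw [← pow_mul]
    exact pow_le_pow_right₀ hX1 (by norm_num)))
  have hR' : (⌊X ^ 50⌋₊ : ℝ) ≤ Y ^ 50 := (Nat.floor_le (by positivity)).trans xy
  refine ⟨A1, A2, fun i => if h : i.val < r then ξ ⟨i, h⟩ else 0, u3, u4, u5, u6, ?_, ?_⟩
  · have m1 : 1 ≤ ⌈Real.exp (3 * Y ^ 50)⌉₊ := Nat.ceil_pos.2 (Real.exp_pos _)
    have m2 : ∀ ρ : ℝ, Real.exp (-(2 * Y ^ 50)) ≤ ρ →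
        Y ^ 50 ≤ ρ * (⌈Real.exp (3 * Y ^ 50)⌉₊ : ℕ) := fun ρ h => by
      calc Y ^ 50 ≤ Real.exp (-(2 * Y ^ 50) + 3 * Y ^ 50) :=
            (le_exp _).trans (Real.exp_le_exp.2 (by linarith))
        _ ≤ _ := by
            rw [Real.exp_add]
            exact mul_le_mul h (Nat.le_ceil _) (Real.exp_pos _).le ((Real.exp_pos _).le.trans h)
    have m3 : Real.exp (-(2 * Y ^ 50)) ≤ d.ρ4 * Real.exp (-X ^ 50) := by
      calc _ ≤ Real.exp (-Y + -X ^ 50) := Real.exp_le_exp.2 (by linarith)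
        _ ≤ _ := by
            rw [Real.exp_add]
            exact mul_le_mul_of_nonneg_right ok.r4 (Real.exp_pos _).le
    have m4 := hM Q n κ d.L _ (fun i => if h : i.val < r then ξ ⟨i, h⟩ else 0) (bx Q n d.T6) _ _
      (Real.exp (-X ^ 50)) (d.ρ4 * Real.exp (-X ^ 50)) (bx_nonempty ok.t6) m1 m1 (Real.exp_pos _)
      (by positivity) (hR'.trans (m2 _ (Real.exp_le_exp.2 (by linarith))))
      ((ok.hκ.trans y50).trans (m2 _ m3))
    have m5 := ceil_exp (a := 3 * Y ^ 50) (b := Y ^ 50) (by linarith) (by linarith)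
    have m6 : ((⌈Real.exp (3 * Y ^ 50)⌉₊ : ℕ) : ℝ) ^ ⌊X ^ 50⌋₊ *
        ((⌈Real.exp (3 * Y ^ 50)⌉₊ : ℕ) : ℝ) ^ Fintype.card κ ≤ Real.exp (8 * Y ^ 100) := by
      rw [← pow_add]
      refine (pow_le_pow_left₀ (Nat.cast_nonneg _) m5 _).trans ?_
      rw [← Real.exp_nat_mul, Real.exp_le_exp]
      have h1 := ok.hκ
      have h2 : ((⌊X ^ 50⌋₊ + Fintype.card κ : ℕ) : ℝ) ≤ 2 * Y ^ 50 := by
        push_cast
        linarith
      calc _ ≤ 2 * Y ^ 50 * (3 * Y ^ 50 + Y ^ 50) :=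
            mul_le_mul_of_nonneg_right h2 (by positivity)
        _ = _ := by ring
    have m7 : 8 * Y ^ 100 + -Y ^ 101 ≤ -2 := by
      have h1 : 1 ≤ Y ^ 100 := one_le_pow₀ hY1
      have h2 : Y ^ 101 = Y * Y ^ 100 := by ring
      nlinarith
    refine le_of_mul_le_mul_left ?_ (Real.exp_pos (8 * Y ^ 100))
    rw [← Real.exp_add]
    refine ((Real.exp_le_exp.2 m7).trans m4).trans (mul_le_mul_of_nonneg_right m6 ?_)
    exact expect_nonneg fun _ _ => expect_nonneg fun _ _ =>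
      (mul_pos (lap_pos _ _) (lap_pos _ _)).le
  · intro t1 h1 t2 h2
    by_cases h : l1 (d.L (t1 - t2)) ≤ d.ρ4 * Real.exp (-(10 * X ^ 6)) ∧
        ∀ i, nm (ξ i ⬝ᵥ (t1 - t2)) ≤ Real.exp (-(3 * X ^ 6))
    · have h3 := abs_le.1 (hξ _ (near_sub_of_mem_bx h1 h2) h.1 h.2)
      left
      linarith [h3.1]
    right
    have w1 : Real.exp (X ^ 50 - 10 * X ^ 6) * Real.exp (-X ^ 50) = Real.exp (-(10 * X ^ 6)) := by
      rw [← Real.exp_add]
      congr 1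
      ring
    have w2 : Real.exp (-Real.exp (X ^ 50 - 10 * X ^ 6)) ≤ e * Real.exp (-Y ^ 101) := by
      have h3 : Y ^ 101 ≤ Real.exp X :=
        ((pow_le_pow_left₀ (by linarith) p3 101).trans (pow_le_pow_right₀ hZ1 (by omega))).trans p4
      have h4 := le_exp X
      have h5 : X ^ 7 ≤ X ^ 50 := pow_le_pow_right₀ hX1 (by norm_num)
      have h6 : X ^ 7 = X * X ^ 6 := by ring
      have h7 : Real.exp (X + 1) ≤ Real.exp (X ^ 50 - 10 * X ^ 6) :=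
        Real.exp_le_exp.2 (by nlinarith)
      have h8 := Real.add_one_le_exp 1
      have h9 := Real.exp_pos X
      rw [Real.exp_add] at h7
      rw [← Real.exp_log he, ← Real.exp_add, Real.exp_le_exp]
      nlinarith
    refine le_trans ?_ w2
    rcases not_and_or.1 h with h3 | h3
    · refine (mul_le_of_le_one_left (lap_pos _ _).le (lap_one _ (Real.exp_pos _))).trans
        (lap_le (by positivity) ?_)
      rw [mul_left_comm, w1]
      exact (not_le.1 h3).le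
    · obtain ⟨i, hi⟩ := not_forall.1 h3
      refine (mul_le_of_le_one_right (lap_pos _ _).le (lap_one _ (by positivity))).trans
        (lap_le (Real.exp_pos _) ?_)
      rw [w1]
      refine le_trans ?_ (nm_le_l1 _ ⟨i, lt_of_lt_of_le i.2 hR⟩)
      simp only [i.2, dif_pos]
      exact (Real.exp_le_exp.2 (by linarith)).trans (not_le.1 hi).le

end Vale.Agent.P057Z.Km
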