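import Vale.Agent.P057Z.Km.Sk

/-! Block KM: from exponential weights to a shell, and the last averaging. -/

set_option linter.all false

open Finset
open scoped BigOperators

namespace Vale.Agent.P057Z.Km

namespace LayH

theorem geo (I : Finset ℕ) (y : ℝ) :
    ∑ k ∈ I.filter fun k : ℕ => y ≤ (k : ℝ) + 3, Real.exp (-(k : ℝ)) ≤ 41 * Real.exp (-y) := by
  obtain ⟨n, hn⟩ : ∃ n, ∀ k ∈ I, k < n := ⟨I.sup id + 1, fun k hk =>
    Nat.lt_succ_of_le (Finset.le_sup (f := id) hk)⟩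
  have hsub : (I.filter fun k : ℕ => y ≤ (k : ℝ) + 3) ⊆ Ico ⌈y - 3⌉₊ n := by
    intro k hk
    rw [mem_filter] at hk
    exact mem_Ico.2 ⟨Nat.ceil_le.2 (by linarith [hk.2]), hn k hk.1⟩
  have h1 : Real.exp (-1) ≤ 1 / 2 := by
    rw [Real.exp_neg, one_div]
    exact inv_anti₀ (by norm_num) (by linarith [Real.add_one_le_exp (1 : ℝ)])
  have h3 : Real.exp 3 ≤ 20.5 := by
    have e : Real.exp 3 = Real.exp 1 ^ 3 := by rw [← Real.exp_nat_mul]; norm_num
    have h := pow_le_pow_left₀ (Real.exp_pos 1).le Real.exp_one_lt_d9.le 3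
    rw [e]
    refine h.trans (by norm_num)
  have h0 : Real.exp (-(⌈y - 3⌉₊ : ℝ)) ≤ Real.exp 3 * Real.exp (-y) := by
    rw [← Real.exp_add]
    exact Real.exp_le_exp.2 (by linarith [Nat.le_ceil (y - 3)])
  calc _ ≤ ∑ k ∈ Ico ⌈y - 3⌉₊ n, Real.exp (-(k : ℝ)) :=
        sum_le_sum_of_subset_of_nonneg hsub fun _ _ _ => (Real.exp_pos _).le
    _ ≤ ∑ i ∈ range (n - ⌈y - 3⌉₊), Real.exp (-(⌈y - 3⌉₊ : ℝ)) * (1 / 2) ^ i := by
        rw [sum_Ico_eq_sum_range]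
        refine sum_le_sum fun i _ => ?_
        have e : Real.exp (-((⌈y - 3⌉₊ + i : ℕ) : ℝ)) =
            Real.exp (-(⌈y - 3⌉₊ : ℝ)) * Real.exp (-1) ^ i := by
          rw [← Real.exp_nat_mul, ← Real.exp_add]
          congr 1
          push_cast
          ring
        rw [e]
        exact mul_le_mul_of_nonneg_left (pow_le_pow_left₀ (Real.exp_pos _).le h1 i)
          (Real.exp_pos _).le
    _ ≤ Real.exp (-(⌈y - 3⌉₊ : ℝ)) * 2 := by
        rw [← mul_sum]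
        exact mul_le_mul_of_nonneg_left (sum_geometric_two_le _) (Real.exp_pos _).le
    _ ≤ _ := by nlinarith [Real.exp_pos (-y)]

end LayH

theorem lay : LAY := by
  classical
  intro α A B φ b s hA hφ hb hs hsum
  by_contra hcon
  have hWA : 0 < ∑ x ∈ A, Real.exp (-φ x) := sum_pos (fun _ _ => Real.exp_pos _) hA
  have hWB : 0 ≤ ∑ x ∈ B, Real.exp (-φ x) := sum_nonneg fun _ _ => (Real.exp_pos _).le
  set WA := ∑ x ∈ A, Real.exp (-φ x) with hWAd
  set WB := ∑ x ∈ B, Real.exp (-φ x) with hWBd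
  have hc : 0 ≤ WA / (100 * WB) := by positivity
  have hcB : WA / (100 * WB) * (41 * WB) ≤ 0.41 * WA := by
    rcases hWB.eq_or_lt with h | h
    · rw [← h]; simp; positivity
    · refine le_of_eq ?_
      field_simp
      norm_num
  have step : ∀ k ∈ A.image fun x => ⌊φ x⌋₊, (#{x ∈ A | ⌊φ x⌋₊ = k} : ℝ) ≤
      WA / (100 * WB) * #{x ∈ B | φ x ≤ (k : ℝ) + 3} +
        1 / (6 * s) * ∑ x ∈ A with ⌊φ x⌋₊ = k, b x := by
    intro k hk
    obtain ⟨x0, hx0, e0⟩ := mem_image.1 hk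
    have hb0 : 0 ≤ ∑ x ∈ A with ⌊φ x⌋₊ = k, b x := sum_nonneg fun x _ => hb x
    have p1 : 0 ≤ WA / (100 * WB) * #{x ∈ B | φ x ≤ (k : ℝ) + 3} := by positivity
    have p2 : 0 ≤ 1 / (6 * s) * ∑ x ∈ A with ⌊φ x⌋₊ = k, b x := by positivity
    by_cases h1 : (#{x ∈ B | φ x ≤ (k : ℝ) + 3} : ℝ) * WA ≤ 100 * WB * #{x ∈ A | ⌊φ x⌋₊ = k}
    · by_cases h2 : ∑ x ∈ A with ⌊φ x⌋₊ = k, b x ≤ 6 * s * #{x ∈ A | ⌊φ x⌋₊ = k}
      · refine absurd ⟨k, {x ∈ A | ⌊φ x⌋₊ = k}, filter_subset _ _,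
          ⟨x0, mem_filter.2 ⟨hx0, e0⟩⟩, fun x hx => ?_, h1, h2⟩ hcon
        rw [← (mem_filter.1 hx).2]
        exact (Nat.lt_floor_add_one _).le
      · have h3 : (#{x ∈ A | ⌊φ x⌋₊ = k} : ℝ) ≤ 1 / (6 * s) * ∑ x ∈ A with ⌊φ x⌋₊ = k, b x := by
          rw [one_div, inv_mul_eq_div, le_div_iff₀ (by positivity)]
          linarith [not_le.1 h2]
        linarith
    · have hB : 0 < WB := by
        rcases B.eq_empty_or_nonempty with h | h
        · exact absurd (by simp [h, hWBd]) h1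
        · exact sum_pos (fun _ _ => Real.exp_pos _) h
      have h3 : (#{x ∈ A | ⌊φ x⌋₊ = k} : ℝ) ≤ WA / (100 * WB) * #{x ∈ B | φ x ≤ (k : ℝ) + 3} := by
        rw [div_mul_eq_mul_div, le_div_iff₀ (by positivity)]
        linarith [not_le.1 h1]
      linarith
  have hmap : ∀ x ∈ A, ⌊φ x⌋₊ ∈ A.image fun x => ⌊φ x⌋₊ := fun x hx => mem_image_of_mem _ hx
  have s1 : WA ≤ ∑ k ∈ A.image fun x => ⌊φ x⌋₊,
      Real.exp (-(k : ℝ)) * (#{x ∈ A | ⌊φ x⌋₊ = k} : ℝ) := by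
    rw [hWAd, ← sum_fiberwise_of_maps_to hmap]
    refine sum_le_sum fun k _ => ?_
    rw [mul_comm, ← nsmul_eq_mul]
    refine sum_le_card_nsmul _ _ _ fun x hx => Real.exp_le_exp.2 ?_
    rw [← (mem_filter.1 hx).2]
    linarith [Nat.floor_le (hφ x)]
  have s2 : ∑ k ∈ A.image fun x => ⌊φ x⌋₊,
      Real.exp (-(k : ℝ)) * (#{x ∈ B | φ x ≤ (k : ℝ) + 3} : ℝ) ≤ 41 * WB := by
    have e : ∀ k : ℕ, Real.exp (-(k : ℝ)) * (#{x ∈ B | φ x ≤ (k : ℝ) + 3} : ℝ) =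
        ∑ x ∈ B, if φ x ≤ (k : ℝ) + 3 then Real.exp (-(k : ℝ)) else 0 := by
      intro k
      rw [← sum_filter, sum_const, nsmul_eq_mul, mul_comm]
    simp only [e]
    rw [sum_comm, hWBd, mul_sum]
    refine sum_le_sum fun x _ => ?_
    rw [← sum_filter]
    exact LayH.geo _ _
  have s3 : ∑ k ∈ A.image fun x => ⌊φ x⌋₊,
      Real.exp (-(k : ℝ)) * ∑ x ∈ A with ⌊φ x⌋₊ = k, b x ≤ 2.72 * (s * WA) := by
    refine le_trans ?_ (mul_le_mul_of_nonneg_left hsum (by norm_num))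
    rw [← sum_fiberwise_of_maps_to hmap, mul_sum]
    refine sum_le_sum fun k _ => ?_
    rw [mul_sum, mul_sum]
    refine sum_le_sum fun x hx => ?_
    rw [← mul_assoc]
    refine mul_le_mul_of_nonneg_right ?_ (hb x)
    have h1 : Real.exp (-(k : ℝ)) ≤ Real.exp 1 * Real.exp (-φ x) := by
      rw [← Real.exp_add, ← (mem_filter.1 hx).2]
      exact Real.exp_le_exp.2 (by linarith [Nat.lt_floor_add_one (φ x)])
    have h2 : Real.exp 1 ≤ 2.72 := Real.exp_one_lt_d9.le.trans (by norm_num)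
    exact h1.trans (mul_le_mul_of_nonneg_right h2 (Real.exp_pos _).le)
  have s4 := s1.trans (sum_le_sum fun k hk =>
    mul_le_mul_of_nonneg_left (step k hk) (Real.exp_pos _).le)
  simp only [mul_add, sum_add_distrib, mul_left_comm (Real.exp _), ← mul_sum] at s4
  have s5 := mul_le_mul_of_nonneg_left s2 hc
  have s6 := mul_le_mul_of_nonneg_left s3 (show 0 ≤ 1 / (6 * s) by positivity)
  have s7 : 1 / (6 * s) * (2.72 * (s * WA)) = 2.72 / 6 * WA := by field_simp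
  linarith

namespace LayH

theorem unif_sum {α : Type} [Fintype α] [DecidableEq α] (B : Finset α) (f : α → ℝ) :
    ∑ t, unif B t * f t = 𝔼 t ∈ B, f t := by
  rw [expect_eq_sum_div_card, sum_div]
  simp only [unif, ite_mul, zero_mul]
  rw [← sum_filter, filter_mem_eq_inter, univ_inter]
  exact sum_congr rfl fun t _ => by ring

variable {G : Type} [AddCommGroup G] [Fintype G] [DecidableEq G]

theorem psi_nonneg (A1 A2 S : Finset G) (x : G) : 0 ≤ psi A1 A2 S x := by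
  unfold psi
  positivity

theorem psi_le (A1 A2 S : Finset G) (Ψ : G → ℝ) (c : ℝ) (h0 : ∀ x, 0 ≤ Ψ x) (hS : ∀ x ∈ S, c ≤ Ψ x)
    (x : G) : c * psi A1 A2 S x ≤ 𝔼 p ∈ A1 ×ˢ A2, Ψ (p.1 + p.2 + x) := by
  rw [expect_eq_sum_div_card, card_product, psi, ← mul_div_assoc, Nat.cast_mul]
  refine div_le_div_of_nonneg_right ?_ (by positivity)
  rw [mul_comm, ← nsmul_eq_mul]
  refine (card_nsmul_le_sum _ (fun p : G × G => Ψ (p.1 + p.2 + x)) _
    fun p hp => hS _ (mem_filter.1 hp).2).trans ?_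
  exact sum_le_sum_of_subset_of_nonneg (filter_subset _ _) fun p _ _ => h0 _

/-- the cut estimate for fixed a and t2 -/
theorem cut_le {b0 v χ k : G → ℝ} {B6 : Finset G} {M δ : ℝ} (hM : 0 < M) (hv : Bd v M)
    (hk : Bd k 1) (hc : ∀ c, Cut b0 (unif B6) (fun t t1 => χ (c + t + t1)) δ) (a t2 : G) :
    ∑ t, b0 t * v t * 𝔼 t1 ∈ B6, k (t1 - t2) * χ (a + t + t1 - t2) ≤
      (∑ t, b0 t * v t) * (𝔼 t1 ∈ B6, k (t1 - t2)) + M * δ := by
  have h := (le_abs_self _).trans (hc (a - t2) (fun t => v t / M) (fun t1 => k (t1 - t2))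
    (fun t => by
      rw [abs_of_nonneg (div_nonneg (hv t).1 hM.le)]
      exact (div_le_one hM).2 (hv t).2)
    (fun t => by rw [abs_of_nonneg (hk _).1]; exact (hk _).2))
  have h2 := mul_le_mul_of_nonneg_left h hM.le
  have e : M * ∑ t, ∑ t1, b0 t * unif B6 t1 *
      (v t / M * k (t1 - t2) * (χ (a - t2 + t + t1) - 1)) =
      ∑ t, b0 t * v t * (𝔼 t1 ∈ B6, k (t1 - t2) * χ (a + t + t1 - t2)) -
        (∑ t, b0 t * v t) * 𝔼 t1 ∈ B6, k (t1 - t2) := by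
    rw [sum_mul, ← sum_sub_distrib, mul_sum]
    refine sum_congr rfl fun t _ => ?_
    rw [← mul_sub, ← expect_sub_distrib, ← unif_sum, mul_sum, mul_sum]
    refine sum_congr rfl fun t1 _ => ?_
    have e1 : a - t2 + t + t1 = a + t + t1 - t2 := by abel
    rw [e1]
    field_simp
  rw [e] at h2
  linarith

theorem split (b0 v g χ k : G → ℝ) (B6 : Finset G) (c : ℝ) (a t2 : G) :
    ∑ t, b0 t * v t * (𝔼 t1 ∈ B6, k (t1 - t2) *
      (χ (a + t + t1 - t2) * (g (a + t + t1 - t2) - c))) =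
    (𝔼 t1 ∈ B6, k (t1 - t2) * cor b0 v (fun x => g x * χ x) (a + (t1 - t2))) -
      c * ∑ t, b0 t * v t * 𝔼 t1 ∈ B6, k (t1 - t2) * χ (a + t + t1 - t2) := by
  simp only [cor, mul_sum, mul_expect]
  rw [expect_sum_comm, ← sum_sub_distrib]
  refine sum_congr rfl fun t _ => ?_
  rw [← expect_sub_distrib]
  refine expect_congr rfl fun t1 _ => ?_
  have e1 : a + (t1 - t2) + t = a + t + t1 - t2 := by abel
  rw [e1]
  ring

/-- counting the pairs above a threshold -/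
theorem count {b0 v : G → ℝ} {B0 B6 : Finset G} {M D θ H : ℝ} (Φ : G → G → ℝ) (hb : Pm b0)
    (hD : ∀ t, b0 t ≤ D / #B0) (h0 : ∀ t ∉ B0, b0 t = 0) (h6 : B6.Nonempty) (hv : Bd v M)
    (hθ : 0 ≤ θ) (hH : 0 ≤ H) (hΦ : ∀ t t2, Φ t t2 ≤ H) :
    𝔼 t2 ∈ B6, ∑ t, b0 t * v t * Φ t t2 ≤ θ * (∑ t, b0 t * v t) +
      D / #B0 * (M * H) * #{p ∈ B0 ×ˢ B6 | θ ≤ Φ p.1 p.2} / #B6 := by
  have pt : ∀ t t2, b0 t * v t * Φ t t2 ≤ θ * (b0 t * v t) +
      if t ∈ B0 ∧ θ ≤ Φ t t2 then D / #B0 * (M * H) else 0 := by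
    intro t t2
    have p1 : 0 ≤ b0 t * v t := mul_nonneg (hb.1 t) (hv t).1
    split
    · have p2 : b0 t * v t ≤ D / #B0 * M :=
        mul_le_mul (hD t) (hv t).2 (hv t).1 ((hb.1 t).trans (hD t))
      have p3 := mul_le_mul_of_nonneg_left (hΦ t t2) p1
      have p4 := mul_le_mul_of_nonneg_right p2 hH
      have p5 := mul_nonneg hθ p1
      linarith
    · rename_i h
      by_cases ht : t ∈ B0
      · have p2 : Φ t t2 ≤ θ := (not_le.1 fun h' => h ⟨ht, h'⟩).le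
        have p3 := mul_le_mul_of_nonneg_left p2 p1
        linarith
      · simp [h0 t ht]
  refine (expect_le_expect fun t2 _ => sum_le_sum fun t _ => pt t t2).trans (le_of_eq ?_)
  simp only [sum_add_distrib, expect_add_distrib, ← mul_sum]
  rw [expect_const h6, expect_eq_sum_div_card]
  congr 2
  rw [sum_comm, mul_comm _ (Nat.cast _), ← nsmul_eq_mul, ← sum_const, sum_filter, sum_product,
    ← sum_subset (subset_univ B0) fun t _ ht => by simp [ht]]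
  exact sum_congr rfl fun t ht => by simp [ht]

theorem numer {M D e ε th γ δ W Mu n n0 n6 : ℝ} (hM : 0 < M) (hγ : 0 < γ) (hW0 : 0 ≤ W)
    (hth0 : 0 < th) (hδ0 : 0 ≤ δ) (he : 0 ≤ e) (heε : 12 * e ≤ ε) (hε : ε ≤ 1) (hW : 1 ≤ M * W)
    (hth : 1 ≤ M * th) (hδ : δ * M ^ 2 ≤ ε * γ / 4) (hMu : γ ≤ Mu) (h0 : 0 < n0) (h6 : 0 < n6)
    (i5 : (1 - e) * (th * W) * ((1 - e) * (Mu - e * γ)) - (1 - ε) * th * (W * Mu + M * δ) ≤
      ε * γ / (4 * M) * W + D / n0 * (M * (M * M)) * n / n6) :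
    ε * γ * (n0 * n6) ≤ 4 * D * M ^ 5 * n := by
  have hε0 : 0 ≤ ε := by linarith
  have he1 : 0 ≤ 1 - e := by linarith
  have hc0 : 0 ≤ (1 - e) * (th * W) := by positivity
  have hc1 : 0 ≤ (1 - ε) * th := mul_nonneg (by linarith) hth0.le
  have hMu0 : 0 < Mu := hγ.trans_le hMu
  have hX : 0 ≤ th * W * Mu := by positivity
  have j1 : (1 - ε / 4) * (th * W * Mu) ≤ (1 - e) * (th * W) * ((1 - e) * (Mu - e * γ)) := by
    have q1 : (1 - e) * Mu ≤ Mu - e * γ := by linarith [mul_le_mul_of_nonneg_left hMu he]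
    have q2 := mul_le_mul_of_nonneg_left (mul_le_mul_of_nonneg_left q1 he1) hc0
    have q3 : 1 - ε / 4 ≤ (1 - e) ^ 3 := by
      linarith [mul_nonneg (sq_nonneg e) (show 0 ≤ 3 - e by linarith)]
    have q4 := mul_le_mul_of_nonneg_right q3 hX
    linarith
  have j2 : M * δ ≤ ε / 4 * (W * Mu) := by
    have q1 := mul_le_mul_of_nonneg_left hW (mul_nonneg hM.le hδ0)
    have q2 := mul_le_mul_of_nonneg_right hδ hW0
    have q3 := mul_le_mul_of_nonneg_left hMu (mul_nonneg hε0 hW0)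
    linarith
  have j3 : (1 - ε) * th * (W * Mu + M * δ) ≤ (1 - 3 * ε / 4) * (th * W * Mu) := by
    have q1 := mul_le_mul_of_nonneg_left j2 hc1
    have q2 : 0 ≤ ε * ε * (th * W * Mu) := by positivity
    linarith
  have j4 : ε * γ / (4 * M) * W ≤ ε / 4 * (th * W * Mu) := by
    rw [div_mul_eq_mul_div, div_le_iff₀ (by positivity)]
    have q1 := mul_le_mul_of_nonneg_left hMu (mul_nonneg hε0 hW0)
    have q2 := mul_le_mul_of_nonneg_left hth (show 0 ≤ ε * W * Mu by positivity)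
    linarith
  have j5 : ε / 4 * (th * W * Mu) ≤ D / n0 * (M * (M * M)) * n / n6 := by linarith
  have j6 : γ ≤ M ^ 2 * (th * W * Mu) := by
    have q1 : 1 * 1 ≤ M * W * (M * th) := mul_le_mul hW hth zero_le_one (by positivity)
    have q2 := mul_le_mul_of_nonneg_right q1 hMu0.le
    linarith
  have j9 : ε / 4 * (th * W * Mu) * (n0 * n6) ≤ D * (M * (M * M)) * n := by
    refine (mul_le_mul_of_nonneg_right j5 (mul_pos h0 h6).le).trans (le_of_eq ?_)
    field_simp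
  have j7 := mul_le_mul_of_nonneg_left j6 (show 0 ≤ ε * (n0 * n6) by positivity)
  have j8 := mul_le_mul_of_nonneg_left j9 (sq_nonneg M)
  linarith

end LayH

open LayH in
theorem k4 : K4 := by
  intro G _ _ _ b0 v g χ k B0 B6 A1 A2 S M D e ε th γ δ hb hD h0 h6 hA1 hA2 hv hg hχ hk hW hth he
    heε hε hγ hδ hS hMu hpsi hc
  have hM0 : 0 ≤ M := (hv 0).1.trans (hv 0).2
  have hW0 : 0 ≤ ∑ t, b0 t * v t := sum_nonneg fun t _ => mul_nonneg (hb.1 t) (hv t).1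
  have hΨ : ∀ x, 0 ≤ cor b0 v (fun x => g x * χ x) x := fun x => sum_nonneg fun t _ =>
    mul_nonneg (hb.1 t) (mul_nonneg (hv t).1 (mul_nonneg (hg _).1 (hχ _).1))
  have hM : 0 < M := by
    rcases hM0.eq_or_lt with h | h
    · rw [← h, zero_mul] at hth
      linarith
    · exact h
  have hth0 : 0 < th := by
    by_contra h
    nlinarith [mul_nonneg hM0 (neg_nonneg.2 (not_lt.1 h))]
  have hδ0 : 0 ≤ δ := (abs_nonneg _).trans
    (hc 0 (fun _ => 0) (fun _ => 0) (fun _ => by simp) (fun _ => by simp))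
  have hε0 : 0 ≤ ε := by linarith
  have he1 : 0 ≤ 1 - e := by linarith
  have hB0 : B0.Nonempty := by
    rcases B0.eq_empty_or_nonempty with h | h
    · have h1 := hb.2
      rw [sum_eq_zero fun t _ => h0 t (by simp [h])] at h1
      norm_num at h1
    · exact h
  rw [expect_comm] at hMu
  set W := ∑ t, b0 t * v t with hWd
  set Mu := 𝔼 t2 ∈ B6, 𝔼 t1 ∈ B6, k (t1 - t2) with hMud
  have hc0 : 0 ≤ (1 - e) * (th * W) := by positivity
  -- (i)
  have i1 : (1 - e) * (th * W) * ((1 - e) * (Mu - e * γ)) ≤ 𝔼 p ∈ A1 ×ˢ A2, 𝔼 t2 ∈ B6, 𝔼 t1 ∈ B6,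
      k (t1 - t2) * cor b0 v (fun x => g x * χ x) (p.1 + p.2 + (t1 - t2)) := by
    have e1 : (1 - e) * (th * W) * ((1 - e) * (Mu - e * γ)) = 𝔼 t2 ∈ B6, 𝔼 t1 ∈ B6,
        (1 - e) * (th * W) * ((1 - e) * (k (t1 - t2) - e * γ)) := by
      simp only [← mul_expect, expect_sub_distrib, expect_const h6, hMud]
    rw [e1, expect_comm (A1 ×ˢ A2)]
    refine expect_le_expect fun t2 h2 => ?_
    rw [expect_comm (A1 ×ˢ A2)]
    refine expect_le_expect fun t1 h1 => ?_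
    rw [← mul_expect]
    have p1 := mul_le_mul_of_nonneg_left (psi_le A1 A2 S _ _ hΨ hS (t1 - t2)) (hk (t1 - t2)).1
    have p2 : (1 - e) * (k (t1 - t2) - e * γ) ≤ k (t1 - t2) * psi A1 A2 S (t1 - t2) := by
      rcases hpsi t1 h1 t2 h2 with h | h
      · have q1 := mul_le_mul_of_nonneg_left h (hk (t1 - t2)).1
        have q2 : 0 ≤ (1 - e) * (e * γ) := by positivity
        linarith
      · have q1 := mul_nonneg (hk (t1 - t2)).1 (psi_nonneg A1 A2 S (t1 - t2))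
        have q2 := mul_nonneg he1 (sub_nonneg.2 h)
        linarith
    have p3 := mul_le_mul_of_nonneg_left p2 hc0
    linarith
  obtain ⟨p, hp, i2⟩ := exists_le_of_le_expect (hA1.product hA2) i1
  refine ⟨p.1, (mem_product.1 hp).1, p.2, (mem_product.1 hp).2, ?_⟩
  -- (ii)
  have hc1 : 0 ≤ (1 - ε) * th := mul_nonneg (by linarith) hth0.le
  have i3 : (𝔼 t2 ∈ B6, 𝔼 t1 ∈ B6,
      k (t1 - t2) * cor b0 v (fun x => g x * χ x) (p.1 + p.2 + (t1 - t2))) -
        (1 - ε) * th * (W * Mu + M * δ) ≤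
      𝔼 t2 ∈ B6, ∑ t, b0 t * v t * (𝔼 t1 ∈ B6, k (t1 - t2) *
        (χ (p.1 + p.2 + t + t1 - t2) * (g (p.1 + p.2 + t + t1 - t2) - (1 - ε) * th))) := by
    have e1 : (1 - ε) * th * (W * Mu + M * δ) =
        𝔼 t2 ∈ B6, (1 - ε) * th * (W * (𝔼 t1 ∈ B6, k (t1 - t2)) + M * δ) := by
      simp only [← mul_expect, expect_add_distrib, expect_const h6, hMud]
    rw [e1, ← expect_sub_distrib]
    refine expect_le_expect fun t2 _ => ?_
    rw [split]
    exact sub_le_sub_left (mul_le_mul_of_nonneg_left (cut_le hM hv hk hc _ t2) hc1) _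
  have i4 := count (θ := ε * γ / (4 * M)) (H := M * M) (fun t t2 => 𝔼 t1 ∈ B6, k (t1 - t2) *
    (χ (p.1 + p.2 + t + t1 - t2) * (g (p.1 + p.2 + t + t1 - t2) - (1 - ε) * th))) hb hD h0 h6 hv
    (by positivity) (by positivity) fun t t2 => expect_le h6 fun t1 _ => by
      have q1 := hk (t1 - t2)
      have q2 := hχ (p.1 + p.2 + t + t1 - t2)
      have q3 := hg (p.1 + p.2 + t + t1 - t2)
      have q4 : χ (p.1 + p.2 + t + t1 - t2) * (g (p.1 + p.2 + t + t1 - t2) - (1 - ε) * th) ≤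
          M * M := (mul_le_mul_of_nonneg_left (by linarith [q3.2]) q2.1).trans
            (mul_le_mul_of_nonneg_right q2.2 hM0)
      have q5 := mul_le_mul_of_nonneg_left q4 q1.1
      have q6 := mul_le_mul_of_nonneg_right q1.2 (mul_nonneg hM0 hM0)
      linarith
  rw [← hWd] at i4
  have i5 := (sub_le_sub_right i2 _).trans (i3.trans i4)
  generalize (#{q ∈ B0 ×ˢ B6 | ε * γ / (4 * M) ≤ 𝔼 t1 ∈ B6, k (t1 - q.2) *
    (χ (p.1 + p.2 + q.1 + t1 - q.2) * (g (p.1 + p.2 + q.1 + t1 - q.2) - (1 - ε) * th))} : ℝ) = n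
    at i5 ⊢
  have n0 : (0 : ℝ) < #B0 := Nat.cast_pos.2 hB0.card_pos
  have n6 : (0 : ℝ) < #B6 := Nat.cast_pos.2 h6.card_pos
  exact numer hM hγ hW0 hth0 hδ0 he heε hε hW hth hδ hMu n0 n6 i5

end Vale.Agent.P057Z.Km
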