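import Vale.Agent.P057Z.Km.Den
import Vale.Agent.P057Z.Km.K12
import Vale.Agent.P057Z.Km.Lay
import Vale.Agent.P057Z.Km.Cs
import Vale.Agent.P057Z.Km.Apa
import Vale.Agent.P057Z.Km.Bb
import Vale.Agent.P057Z.Km.Apb
import Vale.Agent.P057Z.Km.Ks1
import Vale.Agent.P057Z.Km.Ks2
import Vale.Agent.P057Z.Km.Ks3
import Vale.Agent.P057Z.Km.Kf

/-! Block KM: the two results. -/

namespace Vale.Agent.P057Z.Km

theorem apb : APB := apb_of (apa_of cs) bbl char

theorem km : KM := km_of k4 (ks1_of (k12_of hol ten den0 den1)) (ks2_of lay) (ks3_of apb mass)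

end Vale.Agent.P057Z.Km
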