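import Vale.Agent.P057Z.Km.Sk
import Mathlib.Analysis.MeanInequalitiesPow

/-! Block KM: Hoelder, tensor powers of cut norms, densification. -/

set_option linter.all false

open Finset
open scoped BigOperators

namespace Vale.Agent.P057Z.Km

namespace Den

theorem jens {α : Type} [Fintype α] (w Ψ : α → ℝ) (lam : ℝ) (P : ℕ) (hw : ∀ x, 0 ≤ w x)
    (hΨ : ∀ x, 0 ≤ Ψ x) (hU : 0 < ∑ x, w x) (hl : 0 ≤ lam)
    (h : lam * ∑ x, w x ≤ ∑ x, w x * Ψ x) : lam ^ P * ∑ x, w x ≤ ∑ x, w x * Ψ x ^ P := by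
  have h1 := Real.pow_arith_mean_le_arith_mean_pow univ (fun x => w x / ∑ x, w x) Ψ
    (fun x _ => div_nonneg (hw x) hU.le) (by rw [← sum_div, div_self hU.ne']) (fun x _ => hΨ x) P
  simp only [div_mul_eq_mul_div, ← sum_div] at h1
  exact (le_div_iff₀ hU).1 ((pow_le_pow_left₀ hl ((le_div_iff₀ hU).2 h) P).trans h1)

theorem avg_le {α : Type} [Fintype α] {b F : α → ℝ} {c : ℝ} (hb : Pm b) (h : ∀ x, |F x| ≤ c) :
    |∑ x, b x * F x| ≤ c :=
  calc |∑ x, b x * F x| ≤ ∑ x, |b x * F x| := abs_sum_le_sum_abs _ _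
    _ ≤ ∑ x, b x * c := sum_le_sum fun x _ => by
        rw [abs_mul, abs_of_nonneg (hb.1 x)]
        exact mul_le_mul_of_nonneg_left (h x) (hb.1 x)
    _ = c := by rw [← sum_mul, hb.2, one_mul]

theorem pm_pow {α : Type} [Fintype α] {b : α → ℝ} (hb : Pm b) (P : ℕ) :
    Pm fun τ : Fin P → α => ∏ i, b (τ i) :=
  ⟨fun τ => prod_nonneg fun i _ => hb.1 _, by rw [← Fintype.sum_pow, hb.2, one_pow]⟩

theorem cut_nonneg {α β : Type} [Fintype α] [Fintype β] {b : α → ℝ} {b' : β → ℝ}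
    {n : α → β → ℝ} {δ : ℝ} (h : Cut b b' n δ) : 0 ≤ δ :=
  (abs_nonneg _).trans (h 0 0 (fun _ => by simp) fun _ => by simp)

end Den

open Den

theorem hol : HOL := by
  intro α _ b u ω Ψ K lam P hb hu hΨ hK hl h1 h2
  have hU : 0 < ∑ x, b x * u x := (pos_iff_pos_of_mul_pos (one_pos.trans_le h1)).1 hK
  have h3 := jens (fun x => b x * u x) Ψ lam P (fun x => mul_nonneg (hb.1 x) (hu x).1) hΨ hU hl
    (by simpa only [mul_assoc] using h2)
  have h4 : ∑ x, b x * u x * Ψ x ^ P ≤ K * ∑ x, b x * (ω x * Ψ x ^ P) := by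
    rw [mul_sum]
    refine sum_le_sum fun x _ => ?_
    have := mul_le_mul_of_nonneg_left (mul_le_mul_of_nonneg_right (hu x).2 (pow_nonneg (hΨ x) P))
      (hb.1 x)
    linarith
  calc lam ^ P ≤ lam ^ P * (K * ∑ x, b x * u x) := le_mul_of_one_le_right (pow_nonneg hl P) h1
    _ = K * (lam ^ P * ∑ x, b x * u x) := by ring
    _ ≤ K * (K * ∑ x, b x * (ω x * Ψ x ^ P)) := mul_le_mul_of_nonneg_left (h3.trans h4) hK.le
    _ = _ := by ring

theorem ten : TEN := by
  intro α β _ _ b b' n M δ P hb hb' hM hn hc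
  have hδ := cut_nonneg hc
  have hM0 : 0 < M := one_pos.trans_le hM
  induction P with
  | zero => intro u v _ _; simp
  | succ P ih =>
    intro u v hu hv
    rw [← (Fin.consEquiv fun _ : Fin (P + 1) => α).sum_comp, Fintype.sum_prod_type]
    have e0 : ∀ (a : α) (τ : Fin P → α),
        (Fin.consEquiv fun _ : Fin (P + 1) => α) (a, τ) = Fin.cons a τ := fun _ _ => rfl
    simp only [e0, Fin.prod_univ_succ, Fin.cons_zero, Fin.cons_succ]
    have h1 : |∑ a, b a * (M * ∑ τ : Fin P → α, ∑ y, (∏ i, b (τ i)) * b' y *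
        (u (Fin.cons a τ) * (v y * n a y / M) * (∏ i, n (τ i) y - 1)))| ≤ M * (P * M ^ P * δ) := by
      refine avg_le hb fun a => ?_
      rw [abs_mul, abs_of_pos hM0]
      refine mul_le_mul_of_nonneg_left (ih (fun τ => u (Fin.cons a τ)) (fun y => v y * n a y / M)
        (fun τ => hu _) fun y => ?_) hM0.le
      rw [abs_div, abs_of_pos hM0, div_le_one hM0, abs_mul, abs_of_nonneg (hn a y).1]
      exact (mul_le_of_le_one_left (hn a y).1 (hv y)).trans (hn a y).2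
    have h2 : |∑ τ : Fin P → α, (∏ i, b (τ i)) * ∑ a, ∑ y, b a * b' y *
        (u (Fin.cons a τ) * v y * (n a y - 1))| ≤ δ :=
      avg_le (pm_pow hb P) fun τ => hc (fun a => u (Fin.cons a τ)) v (fun a => hu _) hv
    simp only [mul_sum] at h1 h2
    rw [sum_comm] at h2
    have h3 : δ ≤ M ^ (P + 1) * δ := le_mul_of_one_le_left hδ (one_le_pow₀ hM)
    refine le_trans (le_of_eq (congrArg _ ?_)) ((abs_add_le _ _).trans ((add_le_add h1 h2).trans ?_))
    · simp only [← sum_add_distrib]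
      refine sum_congr rfl fun a _ => sum_congr rfl fun τ _ => sum_congr rfl fun y _ => ?_
      field_simp
      ring
    · push_cast
      rw [pow_succ] at h3 ⊢
      linarith

theorem den0 : DEN0 := by
  intro Ω α β _ _ _ π b b' ν h S M γ δ m hπ hb hb' hc hγ hh hS
  have hδ := cut_nonneg hc
  have hH : ∀ τ, ∑ y, b' y * h τ y ≤ M := fun τ => (le_abs_self _).trans
    (avg_le hb' fun y => by rw [abs_of_nonneg (hh τ y).1]; exact (hh τ y).2)
  rcases lt_or_ge M γ with hM | hM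
  · refine (le_abs_self _).trans (avg_le hπ fun τ => ?_)
    have h0 : 0 ≤ M := (sum_nonneg fun y _ => mul_nonneg (hb'.1 y) (hh τ y).1).trans (hH τ)
    rw [if_neg (not_le.2 ((hH τ).trans_lt hM)), abs_zero]
    positivity
  have hM0 : 0 < M := hγ.trans_le hM
  have hc0 : 0 < (M / γ) ^ m := by positivity
  obtain ⟨σ, hσ1, hσ2, hσ3⟩ : ∃ σ : Ω → ℝ, (∀ τ, |σ τ| ≤ 1) ∧
      (∀ τ, ¬γ ≤ ∑ y, b' y * h τ y → σ τ = 0) ∧ ∀ τ, (if γ ≤ ∑ y, b' y * h τ y then
        |∑ x, b x * ((ν τ x - 1) * rat b' (h τ) (S x) ^ m)| else 0) =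
        σ τ * ∑ x, b x * ((ν τ x - 1) * rat b' (h τ) (S x) ^ m) := by
    refine ⟨fun τ => if γ ≤ ∑ y, b' y * h τ y then
      (if 0 ≤ ∑ x, b x * ((ν τ x - 1) * rat b' (h τ) (S x) ^ m) then 1 else -1) else 0,
      fun τ => ?_, fun τ e => if_neg e, fun τ => ?_⟩
    · beta_reduce
      split_ifs <;> simp
    · beta_reduce
      split_ifs with e e'
      · rw [abs_of_nonneg e', one_mul]
      · rw [abs_of_neg (not_le.1 e'), neg_one_mul]
      · rw [zero_mul]
  have key : ∀ τ, π τ * (σ τ * ∑ x, b x * ((ν τ x - 1) * rat b' (h τ) (S x) ^ m)) =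
      ∑ y : Fin m → β, ∑ x, (∏ k, b' (y k)) * ((M / γ) ^ m * (π τ * b x *
        (σ τ * ((∏ k, h τ (y k)) / (∑ y, b' y * h τ y) ^ m) / (M / γ) ^ m *
          (∏ k, S x (y k)) * (ν τ x - 1)))) := fun τ => by
    rw [sum_comm, mul_sum, mul_sum]
    refine sum_congr rfl fun x _ => ?_
    rw [rat, div_pow, Fintype.sum_pow, sum_div, mul_sum, mul_sum, mul_sum, mul_sum]
    refine sum_congr rfl fun y _ => ?_
    rw [prod_mul_distrib, prod_mul_distrib]
    generalize (M / γ) ^ m = c at hc0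
    simp only [div_eq_mul_inv]
    generalize ((∑ y, b' y * h τ y) ^ m)⁻¹ = d
    field_simp
  simp only [hσ3, key]
  rw [sum_comm]
  simp only [← mul_sum]
  refine (le_abs_self _).trans (avg_le (pm_pow hb' m) fun y => ?_)
  rw [abs_mul, abs_of_pos hc0]
  refine mul_le_mul_of_nonneg_left (hc _ _ (fun τ => ?_) fun x => ?_) hc0.le
  · by_cases e : γ ≤ ∑ y, b' y * h τ y
    · have h0 : 0 ≤ ∏ k, h τ (y k) := prod_nonneg fun k _ => (hh τ _).1
      have h1 : ∏ k, h τ (y k) ≤ M ^ m := by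
        simpa using prod_le_prod (s := univ) (fun k _ => (hh τ (y k)).1) fun k _ => (hh τ (y k)).2
      have h2 : 0 < ∑ y, b' y * h τ y := hγ.trans_le e
      have h3 : 0 ≤ (∏ k, h τ (y k)) / (∑ y, b' y * h τ y) ^ m := by positivity
      rw [abs_div, abs_of_pos hc0, div_le_one hc0, abs_mul, abs_of_nonneg h3, div_pow]
      refine (mul_le_of_le_one_left h3 (hσ1 τ)).trans ?_
      gcongr
    · simp [hσ2 τ e]
  · rw [abs_of_nonneg (prod_nonneg fun k _ => (hS x _).1)]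
    exact prod_le_one (fun k _ => (hS x _).1) fun k _ => (hS x _).2

theorem den1 : DEN1 := by
  intro α _ b ν f ψ K η s m hb hK hf hψ hs hs' h1 h2 h3
  have h4 : (1 - s) ^ m ≤ K ^ 2 * ∑ x, b x * (ν x * ψ x ^ m) := by
    refine hol α b f ν ψ K (1 - s) m hb hf (fun x => (hψ x).1) hK (by linarith) h1 ?_
    have e : ∑ x, b x * (f x * (1 - ψ x)) = ∑ x, b x * f x - ∑ x, b x * (f x * ψ x) := by
      rw [← sum_sub_distrib]
      exact sum_congr rfl fun x _ => by ring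
    linarith
  have h5 : ∑ x, b x * (ν x * ψ x ^ m) =
      ∑ x, b x * ((ν x - 1) * ψ x ^ m) + ∑ x, b x * ψ x ^ m := by
    rw [← sum_add_distrib]
    exact sum_congr rfl fun x _ => by ring
  have h6 : ∑ x, b x * ψ x ^ m ≤ ∑ x with 1 - 2 * s ≤ ψ x, b x + (1 - 2 * s) ^ m := by
    have e : (1 - 2 * s) ^ m = ∑ x, b x * (1 - 2 * s) ^ m := by rw [← sum_mul, hb.2, one_mul]
    rw [e, sum_filter, ← sum_add_distrib]
    refine sum_le_sum fun x _ => ?_
    have h0 : 0 ≤ b x * (1 - 2 * s) ^ m := mul_nonneg (hb.1 x) (pow_nonneg (by linarith) m)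
    split_ifs with e'
    · have := mul_le_of_le_one_right (hb.1 x) (pow_le_one₀ (n := m) (hψ x).1 (hψ x).2)
      linarith
    · rw [zero_add]
      exact mul_le_mul_of_nonneg_left (pow_le_pow_left₀ (hψ x).1 (not_le.1 e').le m) (hb.1 x)
  have h7 : (1 - s) ^ m / K ^ 2 ≤ ∑ x, b x * (ν x * ψ x ^ m) :=
    (div_le_iff₀' (by positivity)).2 h4
  linarith [le_abs_self (∑ x, b x * ((ν x - 1) * ψ x ^ m))]

end Vale.Agent.P057Z.Km
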