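import Vale.Agent.P057Z.Km.Sk

/-! Block KM: sifting and densification, abstract form. -/

set_option linter.all false

open Finset
open scoped BigOperators

namespace Vale.Agent.P057Z.Km.K12A

noncomputable section

variable {Ω α β : Type} [Fintype Ω] [Fintype α] [Fintype β]

theorem rat_mul {b h : β → ℝ} (s : β → ℝ) (h0 : ∑ y, b y * h y ≠ 0) :
    (∑ y, b y * h y) * (1 - rat b h s) = ∑ y, b y * (h y * (1 - s y)) := by
  rw [rat, mul_sub, mul_div_cancel₀ _ h0, mul_one, ← sum_sub_distrib]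
  exact sum_congr rfl fun y _ => by ring

theorem rat_bd {b h s : β → ℝ} (hb : ∀ y, 0 ≤ b y) (hh : ∀ y, 0 ≤ h y) (hs : Bd s 1) :
    Bd (fun _ : Unit => rat b h s) 1 := fun _ =>
  ⟨div_nonneg (sum_nonneg fun y _ => mul_nonneg (hb y) (mul_nonneg (hh y) (hs y).1))
    (sum_nonneg fun y _ => mul_nonneg (hb y) (hh y)),
  div_le_one_of_le₀ (sum_le_sum fun y _ => mul_le_mul_of_nonneg_left
    (mul_le_of_le_one_right (hh y) (hs y).2) (hb y))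
    (sum_nonneg fun y _ => mul_nonneg (hb y) (hh y))⟩

theorem sift (h1 : DEN1) {b ν f ψ : α → ℝ} {K η s : ℝ} {m : ℕ} (hb : Pm b) (hK : 0 < K)
    (hf : ∀ x, 0 ≤ f x ∧ f x ≤ K * ν x) (hψ : Bd ψ 1) (hs : 0 ≤ s) (hs' : 2 * s ≤ 1)
    (hE : 1 ≤ K * ∑ x, b x * f x) (hb' : ∑ x, b x * (f x * (1 - ψ x)) ≤ s * ∑ x, b x * f x)
    (he : |∑ x, b x * ((ν x - 1) * ψ x ^ m)| ≤ η) (hm : (1 - s) ^ m * (2 * K ^ 2) ≤ 1)
    (hη : η = (2 ^ m * (4 * K ^ 2))⁻¹) : η ≤ ∑ x with 1 - 2 * s ≤ ψ x, b x := by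
  refine le_trans ?_ (h1 α b ν f ψ K η s m hb hK hf hψ hs hs' hE hb' he)
  have h2 : (1 - 2 * s) ^ m ≤ (1 - s) ^ m * (1 - s) ^ m := by
    rw [← mul_pow]
    exact pow_le_pow_left₀ (by linarith) (by nlinarith) m
  have h3 : (2 ^ m : ℝ)⁻¹ ≤ (1 - s) ^ m := by
    rw [← inv_pow]
    exact pow_le_pow_left₀ (by norm_num) (by linarith) m
  have h4 : 0 ≤ (1 - s) ^ m := pow_nonneg (by linarith) m
  have h5 : 0 < (K ^ 2)⁻¹ := by positivity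
  have h6 : (1 - s) ^ m ≤ (K ^ 2)⁻¹ / 2 := by
    rw [le_div_iff₀ two_pos, ← one_div, le_div_iff₀ (by positivity)]
    linarith
  have h7 : η = (2 ^ m : ℝ)⁻¹ * (K ^ 2)⁻¹ / 4 := by rw [hη]; field_simp
  rw [div_eq_mul_inv, h7]
  nlinarith [mul_le_mul_of_nonneg_left h6 h4, mul_le_mul_of_nonneg_right h3 h5.le]

theorem mean_le {b ν f : α → ℝ} {K η : ℝ} (hb : Pm b) (hK : 0 ≤ K) (hf : ∀ x, f x ≤ K * ν x)
    (he : |∑ x, b x * (ν x - 1)| ≤ η) (hη : η ≤ 1) : ∑ x, b x * f x ≤ 2 * K := by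
  have h1 : ∑ x, b x * f x ≤ K * ∑ x, b x * ν x := by
    rw [mul_sum]
    exact sum_le_sum fun x _ => by nlinarith [hb.1 x, hf x]
  have h2 : ∑ x, b x * (ν x - 1) = ∑ x, b x * ν x - 1 := by
    simp only [mul_sub, sum_sub_distrib, mul_one, hb.2]
  have h3 := (abs_le.1 he).2
  nlinarith

open Classical in
/-- the indicator of the first sifted set -/
def ind (b2 f2 : β → ℝ) (S : α → β → ℝ) (s : ℝ) (a : α) : ℝ :=
  if 1 - 2 * (2 * s) ≤ rat b2 f2 (S a) then 1 else 0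

/-- at a good parameter -/
theorem point (h1 : DEN1) {b1 f1 ν1 : α → ℝ} {b2 f2 ν2 : β → ℝ} {S : α → β → ℝ}
    {Ka K L η s : ℝ} {m : ℕ} (hb1 : Pm b1) (hb2 : Pm b2) (hKa : 0 < Ka) (hK : Ka ≤ K)
    (hL : 8 * Ka ≤ K * L) (hν1 : ∀ x, 0 ≤ ν1 x) (hν2 : ∀ x, 0 ≤ ν2 x)
    (hf1 : ∀ x, 0 ≤ f1 x ∧ f1 x ≤ Ka * ν1 x) (hf2 : ∀ x, 0 ≤ f2 x ∧ f2 x ≤ Ka * ν2 x)
    (hS : ∀ a, Bd (S a) 1) (hs : 0 < s) (hs' : 8 * s ≤ 1)
    (hm : (1 - 2 * s) ^ m * (2 * K ^ 2) ≤ 1) (hη : η = (2 ^ m * (4 * K ^ 2))⁻¹) (hη1 : η ≤ 1)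
    (hal : L / 4 ≤ (∑ x, b1 x * f1 x) * ∑ y, b2 y * f2 y)
    (hbe : ∑ x, ∑ y, b1 x * b2 y * (f1 x * f2 y * (1 - S x y)) ≤
      2 * s * ((∑ x, b1 x * f1 x) * ∑ y, b2 y * f2 y))
    (e1 : |∑ x, b1 x * (ν1 x - 1)| ≤ η) (e2 : |∑ x, b2 x * (ν2 x - 1)| ≤ η)
    (e3 : K⁻¹ ≤ ∑ y, b2 y * f2 y → |∑ x, b1 x * ((ν1 x - 1) * rat b2 f2 (S x) ^ m)| ≤ η)
    (e4 : η ≤ ∑ x, b1 x * ind b2 f2 S s x →
      |∑ y, b2 y * ((ν2 y - 1) * rat b1 (ind b2 f2 S s) (fun x => S x y) ^ m)| ≤ η) :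
    ∃ (A1 : Finset α) (A2 : Finset β), η ≤ ∑ a ∈ A1, b1 a ∧ η ≤ ∑ a ∈ A2, b2 a ∧
      ∑ a ∈ A1, ∑ a' ∈ A2, b1 a * b2 a' * (1 - S a a') ≤
        8 * s * ((∑ a ∈ A1, b1 a) * ∑ a ∈ A2, b2 a) := by
  classical
  have hK0 : 0 < K := hKa.trans_le hK
  have hη0 : 0 < η := by rw [hη]; positivity
  have u1 := mean_le hb1 hKa.le (fun x => (hf1 x).2) e1 hη1
  have u2 := mean_le hb2 hKa.le (fun x => (hf2 x).2) e2 hη1
  have p1 : 0 ≤ ∑ x, b1 x * f1 x := sum_nonneg fun x _ => mul_nonneg (hb1.1 x) (hf1 x).1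
  have p2 : 0 ≤ ∑ x, b2 x * f2 x := sum_nonneg fun x _ => mul_nonneg (hb2.1 x) (hf2 x).1
  have key : ∀ x y : ℝ, 0 ≤ x → y ≤ 2 * Ka → L / 4 ≤ x * y → 1 ≤ K * x := fun x y h2 h3 h4 => by
    have h5 := mul_le_mul_of_nonneg_left (h4.trans (mul_le_mul_of_nonneg_left h3 h2)) hK0.le
    refine le_of_mul_le_mul_left ?_ hKa
    nlinarith
  have l1 := key _ _ p1 u2 hal
  have l2 := key _ _ p2 u1 (by rwa [mul_comm])
  have q2 : 0 < ∑ x, b2 x * f2 x := pos_of_mul_pos_left (one_pos.trans_le l2 |>.trans_eq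
    (mul_comm _ _)) hK0.le
  have g1 : ∀ x, 0 ≤ f1 x ∧ f1 x ≤ K * ν1 x := fun x =>
    ⟨(hf1 x).1, (hf1 x).2.trans (mul_le_mul_of_nonneg_right hK (hν1 x))⟩
  have g2 : ∀ x, 0 ≤ f2 x ∧ f2 x ≤ K * ν2 x := fun x =>
    ⟨(hf2 x).1, (hf2 x).2.trans (mul_le_mul_of_nonneg_right hK (hν2 x))⟩
  have s1 := sift h1 (ψ := fun x => rat b2 f2 (S x)) (s := 2 * s) hb1 hK0 g1
    (fun x => rat_bd hb2.1 (fun y => (hf2 y).1) (hS x) ()) (by linarith) (by linarith) l1 (by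
      refine le_of_mul_le_mul_left ?_ q2
      refine le_trans (le_of_eq ?_) (hbe.trans_eq (by ring))
      rw [mul_sum]
      refine sum_congr rfl fun x _ => ?_
      rw [mul_left_comm, mul_left_comm _ (f1 x), rat_mul _ q2.ne', mul_sum, mul_sum]
      exact sum_congr rfl fun y _ => by ring)
    (e3 (by rw [inv_le_iff_one_le_mul₀' hK0]; exact l2)) hm hη
  set A1 : Finset α := {x | 1 - 2 * (2 * s) ≤ rat b2 f2 (S x)} with hA1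
  have i1 : ∀ F : α → ℝ, ∑ x, b1 x * (ind b2 f2 S s x * F x) = ∑ x ∈ A1, b1 x * F x := fun F => by
    rw [hA1, sum_filter]
    exact sum_congr rfl fun x _ => by rw [ind]; split_ifs <;> simp
  have i2 : ∑ x, b1 x * ind b2 f2 S s x = ∑ x ∈ A1, b1 x := by simpa using i1 fun _ => 1
  have i3 : ∀ x, 0 ≤ ind b2 f2 S s x := fun x => by rw [ind]; split_ifs <;> norm_num
  have q1 : 0 < ∑ x ∈ A1, b1 x := hη0.trans_le s1
  have i4 : ∀ y, (∑ x ∈ A1, b1 x) * (1 - rat b1 (ind b2 f2 S s) fun x => S x y) =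
      ∑ x ∈ A1, b1 x * (1 - S x y) := fun y => by
    rw [← i2, rat_mul _ (i2 ▸ q1.ne'), i1]
  have s2 := sift h1 (ψ := fun y => rat b1 (ind b2 f2 S s) fun x => S x y) (s := 4 * s) hb2 hK0 g2
    (fun y => rat_bd hb1.1 i3 (fun x => hS x y) ()) (by linarith) (by linarith) l2 (by
      refine le_of_mul_le_mul_left ?_ q1
      calc _ = ∑ y, ∑ x ∈ A1, b1 x * (b2 y * (f2 y * (1 - S x y))) := by
            rw [mul_sum]
            refine sum_congr rfl fun y _ => ?_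
            rw [mul_left_comm, mul_left_comm _ (f2 y), i4, mul_sum, mul_sum]
            exact sum_congr rfl fun x _ => by ring
        _ = ∑ x ∈ A1, b1 x * ((∑ y, b2 y * f2 y) * (1 - rat b2 f2 (S x))) := by
            rw [sum_comm]
            exact sum_congr rfl fun x _ => by rw [rat_mul _ q2.ne', mul_sum]
        _ ≤ ∑ x ∈ A1, b1 x * (4 * s * ∑ y, b2 y * f2 y) := sum_le_sum fun x hx => by
            have := (mem_filter.1 hx).2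
            exact mul_le_mul_of_nonneg_left (by nlinarith) (hb1.1 x)
        _ = _ := by rw [sum_mul])
    (e4 (i2 ▸ s1)) ((mul_le_mul_of_nonneg_right (pow_le_pow_left₀ (by linarith) (by linarith) m)
      (by positivity)).trans hm) hη
  refine ⟨A1, _, s1, s2, ?_⟩
  rw [sum_comm, mul_sum, mul_sum]
  refine sum_le_sum fun y hy => ?_
  have h2 := (mem_filter.1 hy).2
  have h3 : ∑ x ∈ A1, b1 x * b2 y * (1 - S x y) = b2 y * ∑ x ∈ A1, b1 x * (1 - S x y) := by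
    rw [mul_sum]
    exact sum_congr rfl fun x _ => by ring
  rw [h3, ← i4]
  nlinarith [mul_nonneg (hb2.1 y) q1.le]

/-- choice of a good parameter -/
theorem core (h0 : DEN0) (h1 : DEN1) {π : Ω → ℝ} {b1 : α → ℝ} {f1 ν1 : Ω → α → ℝ} {b2 : β → ℝ}
    {f2 ν2 : Ω → β → ℝ} {S : α → β → ℝ} {Ka Na K L η s δ : ℝ} {m : ℕ} (hπ : Pm π) (hb1 : Pm b1)
    (hb2 : Pm b2) (hKa : 0 < Ka) (hK : Ka ≤ K) (hL : 8 * Ka ≤ K * L) (hν1 : ∀ τ x, 0 ≤ ν1 τ x)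
    (hν2 : ∀ τ x, 0 ≤ ν2 τ x) (hf1 : ∀ τ x, 0 ≤ f1 τ x ∧ f1 τ x ≤ Ka * ν1 τ x)
    (hf2 : ∀ τ x, 0 ≤ f2 τ x ∧ f2 τ x ≤ Ka * ν2 τ x) (hN1 : ∀ τ x, f1 τ x ≤ Na)
    (hN2 : ∀ τ x, f2 τ x ≤ Na) (c1 : Cut π b1 ν1 δ) (c2 : Cut π b2 ν2 δ)
    (hS : ∀ a, Bd (S a) 1) (hs : 0 < s) (hs' : 8 * s ≤ 1)
    (hm : (1 - 2 * s) ^ m * (2 * K ^ 2) ≤ 1) (hη : η = (2 ^ m * (4 * K ^ 2))⁻¹) (hη1 : η ≤ 1)
    (hal : L ≤ ∑ τ, π τ * ((∑ x, b1 x * f1 τ x) * ∑ y, b2 y * f2 τ y))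
    (hbe : ∑ τ, π τ * ∑ x, ∑ y, b1 x * b2 y * (f1 τ x * f2 τ y * (1 - S x y)) ≤ s * L)
    (hδ : 4 * Na ^ 2 * ((2 + (Na * K) ^ m + η⁻¹ ^ m) * δ) < η * L) :
    ∃ (A1 : Finset α) (A2 : Finset β), η ≤ ∑ a ∈ A1, b1 a ∧ η ≤ ∑ a ∈ A2, b2 a ∧
      ∑ a ∈ A1, ∑ a' ∈ A2, b1 a * b2 a' * (1 - S a a') ≤
        8 * s * ((∑ a ∈ A1, b1 a) * ∑ a ∈ A2, b2 a) := by
  classical
  have hK0 : 0 < K := hKa.trans_le hK
  have hη0 : 0 < η := by rw [hη]; positivity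
  have hL0 : 0 < L := pos_of_mul_pos_left ((by linarith : 0 < K * L).trans_eq (mul_comm _ _)) hK0.le
  have d1 := h0 Ω α β π b1 b2 ν1 (fun _ _ => 1) S 1 1 δ 0 hπ hb1 hb2 c1 one_pos
    (fun _ _ => ⟨zero_le_one, le_rfl⟩) hS
  have d2 := h0 Ω β α π b2 b1 ν2 (fun _ _ => 1) (fun y x => S x y) 1 1 δ 0 hπ hb2 hb1 c2 one_pos
    (fun _ _ => ⟨zero_le_one, le_rfl⟩) fun y x => hS x y
  have d3 := h0 Ω α β π b1 b2 ν1 f2 S Na K⁻¹ δ m hπ hb1 hb2 c1 (inv_pos.2 hK0)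
    (fun τ x => ⟨(hf2 τ x).1, hN2 τ x⟩) hS
  have d4 := h0 Ω β α π b2 b1 ν2 (fun τ => ind b2 (f2 τ) S s) (fun y x => S x y) 1 η δ m hπ hb2 hb1
    c2 hη0 (fun τ x => by rw [ind]; split_ifs <;> norm_num) fun y x => hS x y
  simp only [mul_one, hb1.2, hb2.2, le_refl, if_true, pow_zero, one_mul] at d1 d2
  rw [div_inv_eq_mul] at d3
  rw [one_div] at d4
  by_contra hn
  have pt : ∀ τ, η * ((∑ x, b1 x * f1 τ x) * ∑ y, b2 y * f2 τ y) ≤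
      Na ^ 2 * (|∑ x, b1 x * (ν1 τ x - 1)| + |∑ x, b2 x * (ν2 τ x - 1)| +
        (if K⁻¹ ≤ ∑ y, b2 y * f2 τ y then
          |∑ x, b1 x * ((ν1 τ x - 1) * rat b2 (f2 τ) (S x) ^ m)| else 0) +
        if η ≤ ∑ x, b1 x * ind b2 (f2 τ) S s x then
          |∑ y, b2 y * ((ν2 τ y - 1) * rat b1 (ind b2 (f2 τ) S s) (fun x => S x y) ^ m)| else 0) +
      η * (L / 4) + η / (2 * s) * ∑ x, ∑ y, b1 x * b2 y * (f1 τ x * f2 τ y * (1 - S x y)) := by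
    intro τ
    have m1 : ∑ x, b1 x * f1 τ x ≤ Na := (sum_le_sum fun x _ =>
      mul_le_mul_of_nonneg_left (hN1 τ x) (hb1.1 x)).trans_eq (by rw [← sum_mul, hb1.2, one_mul])
    have m2 : ∑ x, b2 x * f2 τ x ≤ Na := (sum_le_sum fun x _ =>
      mul_le_mul_of_nonneg_left (hN2 τ x) (hb2.1 x)).trans_eq (by rw [← sum_mul, hb2.2, one_mul])
    have p1 : 0 ≤ ∑ x, b1 x * f1 τ x := sum_nonneg fun x _ => mul_nonneg (hb1.1 x) (hf1 τ x).1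
    have p2 : 0 ≤ ∑ x, b2 x * f2 τ x := sum_nonneg fun x _ => mul_nonneg (hb2.1 x) (hf2 τ x).1
    have p3 : 0 ≤ ∑ x, ∑ y, b1 x * b2 y * (f1 τ x * f2 τ y * (1 - S x y)) :=
      sum_nonneg fun x _ => sum_nonneg fun y _ => mul_nonneg (mul_nonneg (hb1.1 x) (hb2.1 y))
        (mul_nonneg (mul_nonneg (hf1 τ x).1 (hf2 τ y).1) (sub_nonneg.2 (hS x y).2))
    have m3 : (∑ x, b1 x * f1 τ x) * ∑ y, b2 y * f2 τ y ≤ Na ^ 2 := by
      rw [sq]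
      exact mul_le_mul m1 m2 p2 (p1.trans m1)
    have pt := @point α β _ _ h1 b1 (f1 τ) (ν1 τ) b2 (f2 τ) (ν2 τ) S Ka K L η s m hb1 hb2 hKa hK hL
      (hν1 τ) (hν2 τ) (hf1 τ) (hf2 τ) hS hs hs' hm hη hη1
    generalize hE3 : (if K⁻¹ ≤ ∑ y, b2 y * f2 τ y then
      |∑ x, b1 x * ((ν1 τ x - 1) * rat b2 (f2 τ) (S x) ^ m)| else 0) = E3
    generalize hE4 : (if η ≤ ∑ x, b1 x * ind b2 (f2 τ) S s x then
      |∑ y, b2 y * ((ν2 τ y - 1) * rat b1 (ind b2 (f2 τ) S s) (fun x => S x y) ^ m)| else 0) = E4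
    have p4 : 0 ≤ E3 := by rw [← hE3]; split_ifs <;> simp
    have p5 : 0 ≤ E4 := by rw [← hE4]; split_ifs <;> simp
    have p6 := abs_nonneg (∑ x, b1 x * (ν1 τ x - 1))
    have p7 := abs_nonneg (∑ x, b2 x * (ν2 τ x - 1))
    have p8 := mul_nonneg (div_pos hη0 (by linarith : 0 < 2 * s)).le p3
    have p9 := mul_pos hη0 (by linarith : 0 < L / 4)
    have p10 := mul_nonneg (sq_nonneg Na) (by linarith : 0 ≤ |∑ x, b1 x * (ν1 τ x - 1)| +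
      |∑ x, b2 x * (ν2 τ x - 1)| + E3 + E4)
    by_cases k1 : L / 4 ≤ (∑ x, b1 x * f1 τ x) * ∑ y, b2 y * f2 τ y
    swap
    · linarith [mul_le_mul_of_nonneg_left (not_le.1 k1).le hη0.le]
    by_cases k2 : ∑ x, ∑ y, b1 x * b2 y * (f1 τ x * f2 τ y * (1 - S x y)) ≤
      2 * s * ((∑ x, b1 x * f1 τ x) * ∑ y, b2 y * f2 τ y)
    swap
    · have := mul_le_mul_of_nonneg_left (not_le.1 k2).le (div_pos hη0 (by linarith : 0 < 2 * s)).le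
      rw [← mul_assoc, div_mul_cancel₀ _ (by linarith : 2 * s ≠ 0)] at this
      linarith
    have k3 : η ≤ |∑ x, b1 x * (ν1 τ x - 1)| + |∑ x, b2 x * (ν2 τ x - 1)| + E3 + E4 := by
      by_contra k3
      exact hn (pt k1 k2 (by linarith) (by linarith)
        (fun h => by rw [if_pos h] at hE3; linarith) fun h => by rw [if_pos h] at hE4; linarith)
    linarith [mul_le_mul_of_nonneg_left m3 hη0.le, mul_le_mul_of_nonneg_left k3 (sq_nonneg Na)]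
  have h2 := sum_le_sum fun τ (_ : τ ∈ univ) => mul_le_mul_of_nonneg_left (pt τ) (hπ.1 τ)
  simp only [mul_add, sum_add_distrib, mul_left_comm (π _) η, mul_left_comm (π _) (Na ^ 2),
    mul_left_comm (π _) (η / (2 * s)), ← mul_sum, ← sum_mul, hπ.2] at h2
  have h3 := mul_le_mul_of_nonneg_left hbe (div_pos hη0 (by linarith : 0 < 2 * s)).le
  rw [show η / (2 * s) * (s * L) = η * L / 2 by field_simp] at h3
  linarith [mul_le_mul_of_nonneg_left hal hη0.le, mul_le_mul_of_nonneg_left d1 (sq_nonneg Na),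
    mul_le_mul_of_nonneg_left d2 (sq_nonneg Na), mul_le_mul_of_nonneg_left d3 (sq_nonneg Na),
    mul_le_mul_of_nonneg_left d4 (sq_nonneg Na)]

end

end Vale.Agent.P057Z.Km.K12A
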