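import Vale.Agent.P057Z.Sk
import Vale.Agent.P057Z.Km.Sk

/-! Block KM: the data and the intermediate statements of the assembly. -/

set_option linter.all false

open Finset
open scoped BigOperators

namespace Vale.Agent.P057Z.Km

noncomputable section

/-- the data of KM -/
structure Dat (Q n : ℕ) [Fact Q.Prime] (κ : Type) where
  L : V Q n →ₗ[ZMod Q] (κ → ZMod Q)
  (c0 c1 c2 : κ → ZMod Q)
  (ρ2 ρ3 ρ4 θ : ℝ)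
  (T2 T3 T4 T6 : ℕ)
  (om2 om3 χ u v g : V Q n → ℝ)

variable {Q n : ℕ} [Fact Q.Prime] {κ : Type} [Fintype κ] [DecidableEq κ]

/-- the hypotheses of KM -/
structure Dat.Ok (d : Dat Q n κ) (C : ℕ) (X Y Z : ℝ) : Prop where
  par : Par C X Y Z
  hn : (n : ℝ) ≤ Z
  hκ : (Fintype.card κ : ℝ) ≤ Y
  r4 : Real.exp (-Y) ≤ d.ρ4
  r41 : d.ρ4 ≤ 1
  r3 : Y ^ C * d.ρ4 ≤ d.ρ3
  r2 : Y ^ C * d.ρ4 ≤ d.ρ2
  t6 : 1 ≤ d.T6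
  t4 : d.T6 * Real.exp (Z ^ C) ≤ d.T4
  t3 : d.T4 * Real.exp (Z ^ C) ≤ d.T3
  t2 : d.T3 * Real.exp (Z ^ C) ≤ d.T2
  hQ : 4 * d.T2 ≤ Q
  m0 : Real.exp (-Y) ≤ mas d.L d.c0 d.ρ2 d.T2
  m1 : Real.exp (-Y) ≤ mas d.L d.c1 d.ρ3 d.T3
  m2 : Real.exp (-Y) ≤ mas d.L d.c2 d.ρ4 d.T4
  o2 : ∀ x, 0 ≤ d.om2 x ∧ d.om2 x ≤ Real.exp Y
  o3 : ∀ x, 0 ≤ d.om3 x ∧ d.om3 x ≤ Real.exp Y
  oχ : ∀ x, 0 ≤ d.χ x ∧ d.χ x ≤ Real.exp Y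
  x2 : Mix d.om2 d.T6 (2 * d.T2) (Real.exp (-Z ^ C))
  x3 : Mix d.om3 d.T6 (2 * d.T2) (Real.exp (-Z ^ C))
  xχ : Mix d.χ d.T6 (2 * d.T2) (Real.exp (-Z ^ C))
  hu : ∀ x, 0 ≤ d.u x ∧ d.u x ≤ Real.exp X * d.om2 x
  hv : ∀ x, 0 ≤ d.v x ∧ d.v x ≤ Real.exp X * d.om3 x
  hg : ∀ x, 0 ≤ d.g x ∧ d.g x ≤ Real.exp X
  hθ : Real.exp (-X) ≤ d.θ
  eu : Real.exp (-X) ≤ 𝔼 a1 ∈ bx Q n d.T3, 𝔼 a2 ∈ bx Q n d.T4,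
    bet d.L d.c1 d.ρ3 d.T3 a1 * bet d.L d.c2 d.ρ4 d.T4 a2 * d.u (a1 + a2)
  ev : Real.exp (-X) ≤ 𝔼 t ∈ bx Q n d.T2, bet d.L d.c0 d.ρ2 d.T2 t * d.v t
  big : d.θ * (𝔼 a1 ∈ bx Q n d.T3, 𝔼 a2 ∈ bx Q n d.T4,
      bet d.L d.c1 d.ρ3 d.T3 a1 * bet d.L d.c2 d.ρ4 d.T4 a2 * d.u (a1 + a2)) *
      (𝔼 t ∈ bx Q n d.T2, bet d.L d.c0 d.ρ2 d.T2 t * d.v t) ≤
    𝔼 a1 ∈ bx Q n d.T3, 𝔼 a2 ∈ bx Q n d.T4, 𝔼 t ∈ bx Q n d.T2,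
      bet d.L d.c1 d.ρ3 d.T3 a1 * bet d.L d.c2 d.ρ4 d.T4 a2 * bet d.L d.c0 d.ρ2 d.T2 t *
        d.u (a1 + a2) * d.v t * (d.g (a1 + a2 + t) * d.χ (a1 + a2 + t))

/-- the weights of t -/
def Dat.b0 (d : Dat Q n κ) (t : V Q n) : ℝ := unif (bx Q n d.T2) t * bet d.L d.c0 d.ρ2 d.T2 t

/-- the points where the correlation is large -/
def Dat.S (d : Dat Q n κ) (e : ℝ) : Finset (V Q n) :=
  {x | (1 - e) * (d.θ * ∑ t, d.b0 t * d.v t) ≤ cor d.b0 d.v (fun x => d.g x * d.χ x) x}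

/-- two sets, dense for the Laplace weights, whose sums are mostly in S -/
structure Dat.Wt (d : Dat Q n κ) (X Y e : ℝ) (S A1 A2 : Finset (V Q n)) : Prop where
  s1 : A1 ⊆ bx Q n d.T3
  s2 : A2 ⊆ bx Q n d.T4
  cut : ∀ a ∈ A2, l1 (d.L a - d.c2) ≤ 20 * Y * d.ρ4
  d1 : Real.exp (-X ^ 5) * (mas d.L d.c1 d.ρ3 d.T3 * #(bx Q n d.T3)) ≤
    ∑ a ∈ A1, lap d.ρ3 (d.L a - d.c1)
  d2 : Real.exp (-X ^ 5) * (mas d.L d.c2 d.ρ4 d.T4 * #(bx Q n d.T4)) ≤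
    ∑ a ∈ A2, lap d.ρ4 (d.L a - d.c2)
  bad : ∑ a ∈ A1, ∑ a' ∈ A2, lap d.ρ3 (d.L a - d.c1) * lap d.ρ4 (d.L a' - d.c2) *
      (if a + a' ∈ S then 0 else 1) ≤
    e * ((∑ a ∈ A1, lap d.ρ3 (d.L a - d.c1)) * ∑ a ∈ A2, lap d.ρ4 (d.L a - d.c2))

/-- two sets ready for almost periodicity -/
def Dat.Un (d : Dat Q n κ) (X e : ℝ) (S : Finset (V Q n)) : Prop :=
  ∃ (Ta : ℕ) (A1 A2 U U2 : Finset (V Q n)), d.T6 * Real.exp (10 * X ^ 6) ≤ Ta ∧ Ta < Q ∧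
    A1 ⊆ bx Q n d.T3 ∧ A2 ⊆ bx Q n d.T4 ∧ A1.Nonempty ∧ A2.Nonempty ∧
    (#U : ℝ) ≤ Real.exp (X ^ 6) * #A1 ∧ (#U2 : ℝ) ≤ Real.exp (X ^ 6) * #A2 ∧
    (∀ a ∈ A2, ∀ x ∈ BB d.L Ta d.ρ4, a + x ∈ U2) ∧
    (∀ a ∈ A1, ∀ a' ∈ A2, ∀ x ∈ BB d.L Ta d.ρ4, a + a' + x ∈ U) ∧ 1 - e ≤ psi A1 A2 S 0

/-- a statement on data -/
def ForD (C : ℕ) (P : ∀ (Q n : ℕ) [Fact Q.Prime] (κ : Type) [Fintype κ] [DecidableEq κ],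
    Dat Q n κ → ℝ → ℝ → ℝ → Prop) : Prop :=
  ∀ (Q n : ℕ) [Fact Q.Prime] (κ : Type) [Fintype κ] [DecidableEq κ] (d : Dat Q n κ) (X Y Z : ℝ),
    d.Ok C X Y Z → P Q n κ d X Y Z

def KS1 : Prop := ∀ e : ℝ, 0 < e → e ≤ 1 / 100 → ∃ C0 : ℕ, ∀ C, C0 ≤ C →
  ForD C fun _ _ _ _ _ _ d X Y _ => ∃ A1 A2, d.Wt X Y e (d.S e) A1 A2

def KS2 : Prop := ∀ C, 100 ≤ C → ForD C fun _ _ _ _ _ _ d X Y _ => ∀ e S A1 A2, 0 < e →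
  d.Wt X Y e S A1 A2 → d.Un X (36 * e) S

/-- Bohr sets of almost periods, with fixed rank and widths -/
def KS3 : Prop := ∀ e : ℝ, 0 < e → ∃ C0 : ℕ, ∀ C, C0 ≤ C →
  ForD C fun Q n _ _ _ _ d X Y _ => ∀ S, d.Un X e S →
    ∃ (A1 A2 : Finset (V Q n)) (ξ : Fin ⌊X ^ 50⌋₊ → V Q n), A1 ⊆ bx Q n d.T3 ∧ A2 ⊆ bx Q n d.T4 ∧
      A1.Nonempty ∧ A2.Nonempty ∧
      Real.exp (-Y ^ 101) ≤ 𝔼 t1 ∈ bx Q n d.T6, 𝔼 t2 ∈ bx Q n d.T6,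
        lap (Real.exp (-X ^ 50)) (fun i => ξ i ⬝ᵥ (t1 - t2)) *
          lap (d.ρ4 * Real.exp (-X ^ 50)) (d.L (t1 - t2)) ∧
      ∀ t1 ∈ bx Q n d.T6, ∀ t2 ∈ bx Q n d.T6, 1 - 2 * e ≤ psi A1 A2 S (t1 - t2) ∨
        lap (Real.exp (-X ^ 50)) (fun i => ξ i ⬝ᵥ (t1 - t2)) *
          lap (d.ρ4 * Real.exp (-X ^ 50)) (d.L (t1 - t2)) ≤ e * Real.exp (-Y ^ 101)

/-- from boxes to weights -/
def CUT : Prop := ∀ (Q n : ℕ) [Fact Q.Prime] (om w w' : V Q n → ℝ) (Tlo Thi T T' : ℕ) (δ D D' : ℝ)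
  (c : V Q n) (s : ℤ), Mix om Tlo Thi δ → Tlo ≤ T → T ≤ Thi → Tlo ≤ T' → T' ≤ Thi →
  (s = 1 ∨ s = -1) → Bd w D → Bd w' D' →
  Cut (fun x => unif (bx Q n T) x * w x) (fun y => unif (bx Q n T') y * w' y)
    (fun x y => om (c + x + s • y)) (D * D' * δ)

theorem sum_unif {α : Type} [Fintype α] [DecidableEq α] (B : Finset α) (f : α → ℝ) :
    ∑ x, unif B x * f x = 𝔼 x ∈ B, f x := by
  simp only [unif, ite_mul, zero_mul, sum_ite_mem, univ_inter, expect_eq_sum_div_card, sum_div]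
  exact sum_congr rfl fun x _ => by ring

theorem cut : CUT := by
  intro Q n _ om w w' Tlo Thi T T' δ D D' c s h h1 h2 h3 h4 hs hw hw' u v hu hv
  have hD : 0 ≤ D := (hw 0).1.trans (hw 0).2
  have hD' : 0 ≤ D' := (hw' 0).1.trans (hw' 0).2
  have key : ∀ (w u : V Q n → ℝ) (D : ℝ), Bd w D → (∀ x, |u x| ≤ 1) → ∃ u' : V Q n → ℝ,
      (∀ x, |u' x| ≤ 1) ∧ ∀ x, w x * u x = D * u' x := fun w u D hw hu => by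
    refine ⟨fun x => w x / D * u x, fun x => ?_, fun x => ?_⟩
    · rw [abs_mul, abs_of_nonneg (div_nonneg (hw x).1 ((hw x).1.trans (hw x).2))]
      exact mul_le_one₀ (div_le_one_of_le₀ (hw x).2 ((hw x).1.trans (hw x).2)) (abs_nonneg _) (hu x)
    · rcases eq_or_ne D 0 with h | h
      · rw [le_antisymm (h ▸ (hw x).2) (hw x).1, h]; simp
      · field_simp
  obtain ⟨u', hu', eu⟩ := key w u D hw hu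
  obtain ⟨v', hv', ev⟩ := key w' v D' hw' hv
  have e : ∑ x, ∑ y, unif (bx Q n T) x * w x * (unif (bx Q n T') y * w' y) *
      (u x * v y * (om (c + x + s • y) - 1)) = D * D' *
      𝔼 x ∈ bx Q n T, 𝔼 y ∈ bx Q n T', u' x * v' y * (om (c + x + s • y) - 1) := by
    simp only [← sum_unif, mul_sum]
    refine sum_congr rfl fun x _ => sum_congr rfl fun y _ => ?_
    calc _ = unif (bx Q n T) x * unif (bx Q n T') y * ((w x * u x) * (w' y * v y)) *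
          (om (c + x + s • y) - 1) := by ring
      _ = _ := by rw [eu, ev]; ring
  rw [e, abs_mul, abs_of_nonneg (mul_nonneg hD hD')]
  exact mul_le_mul_of_nonneg_left (h T T' h1 h2 h3 h4 c s hs u' v' hu' hv') (mul_nonneg hD hD')

end

end Vale.Agent.P057Z.Km
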